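import Crest.Agent.R225.GridVol

/-! Task `R225 Avg`: averaging over translations produces an admissible configuration. -/

set_option autoImplicit false
open MeasureTheory Filter

namespace Crest.Agent.R225

/-- Averaging lemma. If `X` has at most `δ (2R)ⁿ` points in the cube for large `R`, then for
finitely many balls `B(c j, r j)` (inside `B(0, 3)`) with weights `w j ≥ 0` some translation
`z` has `∑ j, w j #(X ∩ B(z + c j, r j)) ≤ 2 δ ∑ j, w j vol B(r j)`: integrate over the cube of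
half side `R - 3`, `(R / (R - 3))ⁿ ≤ 2`. -/
lemma exists_shift {n : ℕ} (X : Set (E n)) (hX : ∀ R : ℝ, (X ∩ {x | ∀ i, |x i| ≤ R}).Finite)
    {δ : ℝ} (hδ : 0 ≤ δ)
    (hR : ∀ᶠ R : ℝ in atTop, ((X ∩ {x | ∀ i, |x i| ≤ R}).ncard : ℝ) ≤ δ * (2 * R) ^ n)
    {J : Type} (s : Finset J) (c : J → E n) (r w : J → ℝ) (hw : ∀ j ∈ s, 0 ≤ w j)
    (hr : ∀ j ∈ s, 0 ≤ r j) (hc : ∀ j ∈ s, ‖c j‖ + r j ≤ 3) :
    ∃ z : E n, ∑ j ∈ s, w j * ((X ∩ Metric.closedBall (z + c j) (r j)).ncard : ℝ) ≤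
      2 * δ * ∑ j ∈ s, w j * (r j ^ n * volB n) := by
  classical
  have hev : ∀ᶠ R : ℝ in atTop, R ^ n ≤ 2 * (R - 3) ^ n := by
    have h1 : Tendsto (fun R : ℝ => 2 * (1 - 3 / R) ^ n) atTop (nhds (2 * (1 - 0) ^ n)) :=
      ((tendsto_const_nhds.sub (tendsto_const_nhds.div_atTop tendsto_id)).pow n).const_mul 2
    have h2 := h1.eventually_const_lt (u := 1) (by norm_num)
    filter_upwards [h2, eventually_gt_atTop 0] with R h hR0
    have e : (R - 3) ^ n = R ^ n * (1 - 3 / R) ^ n := by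
      rw [← mul_pow]
      congr 1
      field_simp
    have := mul_le_mul_of_nonneg_left h.le (pow_pos hR0 n).le
    rw [e]
    linarith
  obtain ⟨R, hR1, hR2, hR3⟩ := (hR.and (hev.and (eventually_gt_atTop 3))).exists
  set F : Finset (E n) := (hX R).toFinset with hF
  have hFc : (F.card : ℝ) ≤ δ * (2 * R) ^ n := by
    rwa [hF, ← Set.ncard_eq_toFinset_card _ (hX R)]
  set Q : Set (E n) := WithLp.ofLp ⁻¹' Metric.closedBall (0 : Fin n → ℝ) (R - 3) with hQ
  have hQv : volume Q = ENNReal.ofReal ((2 * (R - 3)) ^ n) := by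
    rw [hQ, (PiLp.volume_preserving_ofLp (Fin n)).measure_preimage
      measurableSet_closedBall.nullMeasurableSet, Real.volume_pi_closedBall _ (by linarith),
      Fintype.card_fin]
  have hpos : 0 < (2 * (R - 3)) ^ n := pow_pos (by linarith) n
  set f : E n → ℝ := fun z => ∑ j ∈ s, w j *
    ∑ p ∈ F, (Metric.closedBall (p - c j) (r j)).indicator (fun _ => (1 : ℝ)) z with hf
  have hind : ∀ (p : E n) (j : J),
      Integrable ((Metric.closedBall (p - c j) (r j)).indicator (fun _ => (1 : ℝ))) := fun p j =>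
    (integrable_indicator_iff measurableSet_closedBall).2
      (integrableOn_const measure_closedBall_lt_top.ne)
  have hin : ∀ j : J, Integrable fun z =>
      w j * ∑ p ∈ F, (Metric.closedBall (p - c j) (r j)).indicator (fun _ => (1 : ℝ)) z :=
    fun j => (integrable_finsetSum _ fun p _ => hind p j).const_mul _
  have hfi : Integrable f := integrable_finsetSum _ fun j _ => hin j
  have hf0 : ∀ z, 0 ≤ f z := fun z => Finset.sum_nonneg fun j hj => mul_nonneg (hw j hj)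
    (Finset.sum_nonneg fun p _ => Set.indicator_nonneg (fun _ _ => zero_le_one) _)
  set S : ℝ := ∑ j ∈ s, w j * (r j ^ n * volB n) with hS
  have hS0 : 0 ≤ S := Finset.sum_nonneg fun j hj => mul_nonneg (hw j hj)
    (mul_nonneg (pow_nonneg (hr j hj) n) (volB_pos n).le)
  have hint : ∫ z, f z = F.card * S := by
    rw [hf, integral_finsetSum _ fun j _ => hin j, hS, Finset.mul_sum]
    refine Finset.sum_congr rfl fun j hj => ?_
    rw [integral_const_mul, integral_finsetSum _ fun p _ => hind p j]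
    simp only [integral_indicator_const _ measurableSet_closedBall, vol_ball _ (hr j hj),
      smul_eq_mul, mul_one, Finset.sum_const, nsmul_eq_mul]
    ring
  obtain ⟨z, hz, hzf⟩ := exists_le_setAverage (s := Q) (f := f) (μ := volume)
    (by rw [hQv]; exact (ENNReal.ofReal_pos.2 hpos).ne') (by rw [hQv]; exact ENNReal.ofReal_ne_top)
    hfi.integrableOn
  refine ⟨z, le_trans (le_of_eq ?_) (hzf.trans ?_)⟩
  · refine Finset.sum_congr rfl fun j hj => ?_
    congr 1
    have h1 : X ∩ Metric.closedBall (z + c j) (r j) =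
        (F.filter fun p => z ∈ Metric.closedBall (p - c j) (r j) : Finset (E n)) := by
      ext p
      have e : dist z (p - c j) = dist p (z + c j) := by
        rw [dist_eq_norm, dist_eq_norm, ← norm_neg]
        congr 1
        abel
      simp only [hF, Set.mem_inter_iff, Metric.mem_closedBall, Finset.coe_filter,
        Set.Finite.mem_toFinset, Set.mem_ofPred_eq, e]
      refine ⟨fun h => ⟨⟨h.1, fun i => ?_⟩, h.2⟩, fun h => ⟨h.1.1, h.2⟩⟩
      have a1 : |z i| ≤ R - 3 :=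
        (norm_le_pi_norm (WithLp.ofLp z) i).trans (mem_closedBall_zero_iff.1 hz)
      have a2 : |(p - z) i| ≤ ‖p - z‖ := PiLp.norm_apply_le (p - z) i
      have a3 : ‖p - z‖ ≤ ‖p - (z + c j)‖ + ‖c j‖ := by
        have := norm_add_le (p - (z + c j)) (c j)
        rwa [show p - (z + c j) + c j = p - z by abel] at this
      have a4 := h.2
      rw [dist_eq_norm] at a4
      have a5 := abs_add_le (p i - z i) (z i)
      rw [sub_add_cancel] at a5
      rw [PiLp.sub_apply] at a2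
      linarith [hc j hj]
    rw [h1, Set.ncard_coe_finset, Finset.card_filter]
    push_cast
    exact Finset.sum_congr rfl fun p _ => by rw [Set.indicator_apply]
  · rw [setAverage_eq, smul_eq_mul, Measure.real, hQv, ENNReal.toReal_ofReal hpos.le,
      inv_mul_le_iff₀ hpos]
    refine (setIntegral_le_integral hfi (Eventually.of_forall hf0)).trans ?_
    rw [hint]
    refine (mul_le_mul_of_nonneg_right hFc hS0).trans ?_
    have h2 := mul_le_mul_of_nonneg_left hR2
      (mul_nonneg (mul_nonneg hδ hS0) (pow_pos (two_pos (α := ℝ)) n).le)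
    rw [mul_pow, mul_pow]
    linarith

lemma Avg_finite {n : ℕ} {X : Set (E n)} (hX : ∀ R : ℝ, (X ∩ {x | ∀ i, |x i| ≤ R}).Finite)
    (w : E n) (r : ℝ) : (X ∩ Metric.closedBall w r).Finite := by
  refine (hX (‖w‖ + r)).subset fun p hp => ⟨hp.1, fun i => ?_⟩
  have a1 : |p i| ≤ ‖p‖ := PiLp.norm_apply_le p i
  have a2 := norm_add_le (p - w) w
  have a3 := mem_closedBall_iff_norm.1 hp.2
  rw [sub_add_cancel] at a2
  linarith

lemma Avg_pow_le {n : ℕ} {x : ℝ} (hx : 0 ≤ 1 + x) : (1 + x) ^ n ≤ Real.exp (n * x) := by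
  rw [Real.exp_nat_mul]
  exact pow_le_pow_left₀ hx (by linarith [Real.add_one_le_exp x]) n

lemma Avg_geom {n : ℕ} (hn : 2 ≤ n) :
    ∑ i ∈ Finset.range n, (1 + 2 / (n : ℝ) ^ 2 - (i : ℝ) / n) ^ n ≤ 6 := by
  have hn' : (2 : ℝ) ≤ n := by exact_mod_cast hn
  have h1 : ∀ i ∈ Finset.range n, (1 + 2 / (n : ℝ) ^ 2 - (i : ℝ) / n) ^ n ≤ 3 * (1 / 2) ^ i := by
    intro i hi
    have hi' : (i : ℝ) ≤ n := by exact_mod_cast (Finset.mem_range.1 hi).le
    have a1 : (i : ℝ) / n ≤ 1 := (div_le_one (by linarith)).2 hi'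
    have a2 : (0 : ℝ) ≤ 2 / (n : ℝ) ^ 2 := by positivity
    rw [add_sub_assoc]
    refine (Avg_pow_le (by linarith)).trans ?_
    have e : (n : ℝ) * (2 / (n : ℝ) ^ 2 - (i : ℝ) / n) = 2 / n + i * (-1) := by
      field_simp
      ring
    rw [e, Real.exp_add, Real.exp_nat_mul]
    refine mul_le_mul ?_ (pow_le_pow_left₀ (Real.exp_pos _).le ?_ i) (by positivity) (by norm_num)
    · refine (Real.exp_le_exp.2 ((div_le_one (by linarith)).2 hn')).trans ?_
      linarith [Real.exp_one_lt_d9]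
    · rw [Real.exp_neg, one_div]
      exact inv_anti₀ two_pos (by linarith [Real.exp_one_gt_d9])
  refine (Finset.sum_le_sum h1).trans ?_
  rw [← Finset.mul_sum]
  linarith [sum_geometric_two_le n]

lemma Avg_small : ∀ᶠ n : ℕ in atTop,
    (n : ℝ) ^ 2 * (1 - (n : ℝ) ^ (1 / 20 : ℝ) / n + 1 / (n : ℝ) ^ 2) ^ n ≤ 1 / 16 := by
  have h1 : Tendsto (fun n : ℕ => (n : ℝ) ^ (1 / 20 : ℝ)) atTop atTop :=
    (tendsto_rpow_atTop (by norm_num)).comp tendsto_natCast_atTop_atTop
  have h2 := ((Real.tendsto_pow_mul_exp_neg_atTop_nhds_zero 40).comp h1).eventually_le_const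
    (u := 1 / 48) (by norm_num)
  filter_upwards [h2, eventually_ge_atTop 1] with n h hn
  have hn' : (1 : ℝ) ≤ n := by exact_mod_cast hn
  have a1 : (n : ℝ) ^ (1 / 20 : ℝ) ≤ n := by
    have := Real.rpow_le_rpow_of_exponent_le hn' (by norm_num : (1 / 20 : ℝ) ≤ 1)
    rwa [Real.rpow_one] at this
  have a2 : ((n : ℝ) ^ (1 / 20 : ℝ)) ^ 40 = (n : ℝ) ^ 2 := by
    rw [← Real.rpow_natCast, ← Real.rpow_mul (by linarith)]
    norm_num
  simp only [Function.comp_apply, a2] at h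
  set J : ℝ := (n : ℝ) ^ (1 / 20 : ℝ)
  have a3 : J / n ≤ 1 := (div_le_one (by linarith)).2 a1
  have a4 : (0 : ℝ) ≤ 1 / (n : ℝ) ^ 2 := by positivity
  have a5 : (1 - J / n + 1 / (n : ℝ) ^ 2) ^ n ≤ 3 * Real.exp (-J) := by
    rw [show 1 - J / n + 1 / (n : ℝ) ^ 2 = 1 + (1 / (n : ℝ) ^ 2 - J / n) by ring]
    refine (Avg_pow_le (by linarith)).trans ?_
    have e : (n : ℝ) * (1 / (n : ℝ) ^ 2 - J / n) = 1 / n + -J := by
      field_simp
      ring
    rw [e, Real.exp_add]
    refine mul_le_mul_of_nonneg_right ?_ (Real.exp_pos _).le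
    refine (Real.exp_le_exp.2 ((div_le_one (by linarith)).2 hn')).trans ?_
    linarith [Real.exp_one_lt_d9]
  have a6 := mul_le_mul_of_nonneg_left a5 (sq_nonneg (n : ℝ))
  linarith

/-- Apply `exists_shift` to: the ball `B(0,2)` with weight `1 / (2ⁿ n³)`; the balls
`B(gp x, 1 + 2 n⁻² - i/n)`, `x ∈ Tn n`, `i < n`, weight `2 / (|T| 100 ρ)`
(`∑ i (1 + 2n⁻² - i/n)ⁿ ≤ e^{2/n} / (1 - e⁻¹) ≤ 5`); the balls `B(gp x, 1 - J/n + n⁻²)`,
`J = n^{1/20}`, weight `2 / |T|`. The total is `< 1`. `Y` = rounding (`exists_gp_near`) of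
`(X ∩ B(z,2)) - z`. -/
theorem exists_adm : ∃ n₀ : ℕ, ∀ n : ℕ, n₀ ≤ n → ∀ X : Set (E n),
    (∀ R : ℝ, (X ∩ {x | ∀ i, |x i| ≤ R}).Finite) → ∀ δ ρ : ℝ, 0 ≤ δ → δ * volB n ≤ ρ →
    0 < ρ → ρ ≤ n * Real.log n →
    (∀ᶠ R : ℝ in atTop, ((X ∩ {x | ∀ i, |x i| ≤ R}).ncard : ℝ) ≤ δ * (2 * R) ^ n) →
    ∃ (z : E n) (Y : Finset (Fin n → ℤ)), Adm (100 * ρ) Y ∧
      ∀ p ∈ X, ‖p - z‖ ≤ 2 → ∃ y ∈ Y, ‖p - z - gp y‖ ≤ 1 / (n : ℝ) ^ 2 := by
  classical
  obtain ⟨n₁, hn₁⟩ := eventually_atTop.1 Avg_small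
  refine ⟨max n₁ 8, fun n hn X hX δ ρ hδ hδρ hρ hρn hR => ?_⟩
  have hsm := hn₁ n (le_trans (le_max_left _ _) hn)
  have hn8 : 8 ≤ n := le_trans (le_max_right _ _) hn
  have hn' : (8 : ℝ) ≤ n := by exact_mod_cast hn8
  have hn1 : 1 ≤ n := by omega
  have hJ0 : 0 ≤ (n : ℝ) ^ (1 / 20 : ℝ) / n := by positivity
  have hJ1 : (n : ℝ) ^ (1 / 20 : ℝ) / n ≤ 1 := by
    have := Real.rpow_le_rpow_of_exponent_le (by linarith : (1 : ℝ) ≤ n)
      (by norm_num : (1 / 20 : ℝ) ≤ 1)
    rw [Real.rpow_one] at this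
    exact (div_le_one (by linarith)).2 this
  set Jn : ℝ := (n : ℝ) ^ (1 / 20 : ℝ) / n with hJn
  have hε0 : (0 : ℝ) ≤ 1 / (n : ℝ) ^ 2 := by positivity
  have hε1 : 1 / (n : ℝ) ^ 2 ≤ 1 / 2 := one_div_le_one_div_of_le two_pos (by nlinarith)
  have hε2 : 2 / (n : ℝ) ^ 2 = 2 * (1 / (n : ℝ) ^ 2) := by ring
  have hT : ∀ x ∈ Tn n, ‖gp x‖ ≤ 1 := fun x hx => (Finset.mem_filter.1 hx).2
  have hT0 : (0 : ℝ) < (Tn n).card := by
    have h0 : ‖gp (0 : Fin n → ℤ)‖ = 0 := by
      rw [norm_eq_zero]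
      ext i
      simp [gp]
    have : (0 : Fin n → ℤ) ∈ Tn n :=
      Finset.mem_filter.2 ⟨mem_ZB_of_norm hn1 (by linarith), by linarith⟩
    exact_mod_cast Finset.card_pos.2 ⟨0, this⟩
  set t : ℝ := ((Tn n).card : ℝ) with ht
  obtain ⟨z, hz⟩ := exists_shift X hX hδ hR
    (({()} : Finset Unit).disjSum ((Tn n ×ˢ Finset.range n).disjSum (Tn n)))
    (Sum.elim (fun _ => 0) (Sum.elim (fun p => gp p.1) gp))
    (Sum.elim (fun _ => 2) (Sum.elim (fun p => 1 + 2 / (n : ℝ) ^ 2 - (p.2 : ℝ) / n)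
      (fun _ => 1 - Jn + 1 / (n : ℝ) ^ 2)))
    (Sum.elim (fun _ => 1 / (2 ^ n * (n : ℝ) ^ 3)) (Sum.elim (fun _ => 2 / t * (1 / (100 * ρ)))
      (fun _ => 2 / t)))
    (by rintro (j | j | j) _ <;> simp only [Sum.elim_inl, Sum.elim_inr] <;> positivity)
    (by
      rintro (j | j | j) hj <;> simp only [Sum.elim_inl, Sum.elim_inr]
      · norm_num
      · simp only [Finset.inr_mem_disjSum, Finset.inl_mem_disjSum, Finset.mem_product,
          Finset.mem_range] at hj
        have hi' : (j.2 : ℝ) ≤ n := by exact_mod_cast hj.2.le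
        have a1 : (j.2 : ℝ) / n ≤ 1 := (div_le_one (by linarith)).2 hi'
        linarith
      · linarith)
    (by
      rintro (j | j | j) hj <;> simp only [Sum.elim_inl, Sum.elim_inr]
      · norm_num
      · simp only [Finset.inr_mem_disjSum, Finset.inl_mem_disjSum, Finset.mem_product] at hj
        have a1 : (0 : ℝ) ≤ (j.2 : ℝ) / n := by positivity
        linarith [hT _ hj.1]
      · simp only [Finset.inr_mem_disjSum] at hj
        linarith [hT _ hj])
  simp only [Finset.sum_disjSum, Sum.elim_inl, Sum.elim_inr, Finset.sum_singleton, add_zero,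
    Finset.sum_product] at hz
  set N₀ : ℝ := ((X ∩ Metric.closedBall z 2).ncard : ℝ) with hN₀
  set A : (Fin n → ℤ) → ℝ := fun x => ∑ i ∈ Finset.range n,
    ((X ∩ Metric.closedBall (z + gp x) (1 + 2 / (n : ℝ) ^ 2 - (i : ℝ) / n)).ncard : ℝ) with hA
  set B : (Fin n → ℤ) → ℝ := fun x =>
    ((X ∩ Metric.closedBall (z + gp x) (1 - Jn + 1 / (n : ℝ) ^ 2)).ncard : ℝ) with hB
  have hA0 : ∀ x, 0 ≤ A x := fun x => Finset.sum_nonneg fun _ _ => Nat.cast_nonneg _
  have hB0 : ∀ x, 0 ≤ B x := fun x => Nat.cast_nonneg _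
  have hmain : N₀ / (2 ^ n * (n : ℝ) ^ 3) +
      2 / t * ∑ x ∈ Tn n, (A x / (100 * ρ) + B x) ≤ 1 := by
    refine le_trans (le_of_eq ?_) (hz.trans ?_)
    · rw [Finset.sum_add_distrib, mul_add, Finset.mul_sum, Finset.mul_sum]
      congr 1
      · ring
      · congr 1
        refine Finset.sum_congr rfl fun x _ => ?_
        rw [← Finset.mul_sum]
        ring
    · simp only [Finset.sum_const, nsmul_eq_mul, ← ht, ← Finset.mul_sum, ← Finset.sum_mul]
      set G : ℝ := ∑ i ∈ Finset.range n, (1 + 2 / (n : ℝ) ^ 2 - (i : ℝ) / n) ^ n with hG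
      set H : ℝ := (1 - Jn + 1 / (n : ℝ) ^ 2) ^ n with hH
      have hG6 : G ≤ 6 := Avg_geom (by omega)
      have hH0 : 0 ≤ H := pow_nonneg (by linarith) n
      have e : 2 * δ * (1 / (2 ^ n * (n : ℝ) ^ 3) * (2 ^ n * volB n) +
          (t * (2 / t * (1 / (100 * ρ)) * (G * volB n)) + t * (2 / t * (H * volB n)))) =
          δ * volB n * (2 / (n : ℝ) ^ 3 + G / (25 * ρ) + 4 * H) := by
        field_simp
        ring
      rw [e]
      have hG0 : 0 ≤ G := by
        refine Finset.sum_nonneg fun i hi => pow_nonneg ?_ n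
        have hi' : (i : ℝ) ≤ n := by exact_mod_cast (Finset.mem_range.1 hi).le
        have a1 : (i : ℝ) / n ≤ 1 := (div_le_one (by linarith)).2 hi'
        linarith
      refine (mul_le_mul_of_nonneg_right hδρ (by positivity)).trans ?_
      have hρ2 : ρ ≤ (n : ℝ) ^ 2 := by
        have := Real.log_le_sub_one_of_pos (by linarith : (0 : ℝ) < n)
        nlinarith
      have a1 : ρ * (2 / (n : ℝ) ^ 3) ≤ 1 / 4 := by
        rw [← mul_div_assoc, div_le_iff₀ (by positivity)]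
        nlinarith
      have a2 : ρ * (G / (25 * ρ)) = G / 25 := by field_simp
      have a3 := mul_le_mul_of_nonneg_right hρ2 hH0
      rw [mul_add, mul_add, a2]
      linarith
  have hsum0 : 0 ≤ ∑ x ∈ Tn n, (A x / (100 * ρ) + B x) :=
    Finset.sum_nonneg fun x _ => add_nonneg (div_nonneg (hA0 x) (by positivity)) (hB0 x)
  have hN : N₀ ≤ 2 ^ n * (n : ℝ) ^ 3 := by
    rw [← div_le_one (by positivity)]
    have : 0 ≤ 2 / t * ∑ x ∈ Tn n, (A x / (100 * ρ) + B x) :=
      mul_nonneg (div_nonneg zero_le_two hT0.le) hsum0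
    linarith
  have hS : ∑ x ∈ Tn n, (A x / (100 * ρ) + B x) ≤ t / 2 := by
    have h1 : 0 ≤ N₀ / (2 ^ n * (n : ℝ) ^ 3) := div_nonneg (Nat.cast_nonneg _) (by positivity)
    have h2 : 2 / t * ∑ x ∈ Tn n, (A x / (100 * ρ) + B x) ≤ 1 := by linarith
    rw [div_mul_eq_mul_div, div_le_one hT0] at h2
    linarith
  choose rd hrd using fun w : E n => exists_gp_near hn1 w
  set F : Finset (E n) := (Avg_finite hX z 2).toFinset with hF
  have hFX : ∀ p ∈ F, p ∈ X ∧ ‖p - z‖ ≤ 2 := fun p hp =>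
    ⟨((Set.Finite.mem_toFinset _).1 hp).1,
      mem_closedBall_iff_norm.1 ((Set.Finite.mem_toFinset _).1 hp).2⟩
  have hnear : ∀ (p : E n) (x : Fin n → ℤ),
      ‖p - (z + gp x)‖ ≤ ‖gp x - gp (rd (p - z))‖ + 1 / (n : ℝ) ^ 2 := by
    intro p x
    have := norm_sub_le (p - z - gp (rd (p - z))) (gp x - gp (rd (p - z)))
    rw [show p - z - gp (rd (p - z)) - (gp x - gp (rd (p - z))) = p - (z + gp x) by abel] at this
    linarith [hrd (p - z)]
  refine ⟨z, F.image fun p => rd (p - z), ⟨fun y hy => ?_, ?_, ?_⟩, fun p hp h2 => ?_⟩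
  · obtain ⟨p, hp, rfl⟩ := Finset.mem_image.1 hy
    refine mem_ZB_of_norm hn1 ?_
    have := norm_sub_le (p - z) (p - z - gp (rd (p - z)))
    rw [sub_sub_cancel] at this
    linarith [hrd (p - z), (hFX p hp).2]
  · refine Finset.card_image_le.trans ?_
    rw [hF, ← Set.ncard_eq_toFinset_card _ (Avg_finite hX z 2)]
    rw [hN₀] at hN
    exact_mod_cast hN
  · have hbad : ∀ x ∈ Tn n, ¬ GoodPt (100 * ρ) (F.image fun p => rd (p - z)) x →
        1 ≤ A x / (100 * ρ) + B x := by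
      intro x _ hx
      by_contra hlt
      push Not at hlt
      have a0 : 0 ≤ A x / (100 * ρ) := div_nonneg (hA0 x) (by positivity)
      refine hx ⟨?_, fun y hy => ?_⟩
      · have a1 : A x ≤ 100 * ρ := by
          rw [← div_le_one (by positivity)]
          linarith [hB0 x]
        refine le_trans ?_ a1
        refine (Finset.sum_image_le_of_nonneg (g := fun p => rd (p - z))
          (f := fun y => (Phi (gp x - gp y) : ℝ)) fun _ _ => Nat.cast_nonneg _).trans ?_
        simp only [Phi, Finset.card_filter, hA]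
        push_cast
        rw [Finset.sum_comm]
        refine Finset.sum_le_sum fun i _ => ?_
        rw [Finset.sum_boole, ← Set.ncard_coe_finset]
        refine Nat.cast_le.2 (Set.ncard_le_ncard (fun p hp => ?_) (Avg_finite hX _ _))
        obtain ⟨b1, b2⟩ := Finset.mem_filter.1 (Finset.mem_coe.1 hp)
        exact ⟨(hFX p b1).1, mem_closedBall_iff_norm.2 (by linarith [hnear p x])⟩
      · obtain ⟨p, hp, rfl⟩ := Finset.mem_image.1 hy
        by_contra hc
        push Not at hc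
        have a1 : 0 < (X ∩ Metric.closedBall (z + gp x) (1 - Jn + 1 / (n : ℝ) ^ 2)).ncard :=
          (Set.ncard_pos (Avg_finite hX _ _)).2
            ⟨p, (hFX p hp).1, mem_closedBall_iff_norm.2 (by linarith [hnear p x])⟩
        have a2 : 1 ≤ B x := by
          simp only [hB]
          exact_mod_cast a1
        linarith
    have h1 := Finset.card_filter_add_card_filter_not (s := Tn n)
      (GoodPt (100 * ρ) (F.image fun p => rd (p - z)))
    have h2 : (((Tn n).filter fun x => ¬ GoodPt (100 * ρ) (F.image fun p => rd (p - z)) x).card : ℝ)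
        ≤ t / 2 := by
      refine le_trans ?_ hS
      rw [Finset.card_filter]
      push_cast
      refine Finset.sum_le_sum fun x hx => ?_
      split_ifs with h
      · exact add_nonneg (div_nonneg (hA0 x) (by positivity)) (hB0 x)
      · exact hbad x hx h
    have h3 : (((Tn n).filter (GoodPt (100 * ρ) (F.image fun p => rd (p - z)))).card : ℝ) +
        (((Tn n).filter fun x => ¬ GoodPt (100 * ρ) (F.image fun p => rd (p - z)) x).card : ℝ) = t := by
      rw [ht]
      exact_mod_cast h1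
    linarith
  · exact ⟨rd (p - z), Finset.mem_image_of_mem _ ((Set.Finite.mem_toFinset _).2
      ⟨hp, mem_closedBall_iff_norm.2 h2⟩), hrd _⟩

end Crest.Agent.R225
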