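import Crest.Agent.R225.MDefs

/-! Task `R225 BiN`: nearly orthogonal Gaussian projections are nearly independent. -/

set_option autoImplicit false
open MeasureTheory ProbabilityTheory

namespace Crest.Agent.R225

open R215

namespace BiN

open scoped RealInnerProductSpace

lemma measurable_dot {κ : Type} [Fintype κ] (x : κ → ℝ) : Measurable fun g : κ → ℝ => g ⬝ᵥ x :=
  Finset.measurable_sum _ fun i _ => (measurable_pi_apply i).mul_const _

lemma inner_toLp {κ : Type} [Fintype κ] (x g : κ → ℝ) :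
    ⟪(WithLp.toLp 2 x : EuclideanSpace ℝ κ), WithLp.toLp 2 g⟫ = g ⬝ᵥ x := by
  simp [EuclideanSpace.inner_eq_star_dotProduct]

lemma map_coords {κ ι : Type} [Fintype κ] [Fintype ι] (v : ι → κ → ℝ) :
    (gam κ).map (fun g i => g ⬝ᵥ v i) = (stdGaussian (EuclideanSpace ℝ κ)).map
      fun y i => ⟪(WithLp.toLp 2 (v i) : EuclideanSpace ℝ κ), y⟫ := by
  rw [← map_pi_eq_stdGaussian, Measure.map_map (measurable_coords _) (by fun_prop)]
  simp only [Function.comp_def, inner_toLp]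
  rfl

lemma law_eq {κ κ' ι : Type} [Fintype κ] [Fintype κ'] [Fintype ι] (v : ι → κ → ℝ)
    (w : ι → κ' → ℝ) (h : ∀ i j, v i ⬝ᵥ v j = w i ⬝ᵥ w j) :
    (gam κ).map (fun g i => g ⬝ᵥ v i) = (gam κ').map (fun g i => g ⬝ᵥ w i) := by
  rw [map_coords, map_coords]
  exact law_eq_of_gram _ _ fun i j => by rw [inner_toLp, inner_toLp, h]

lemma nrm_nonneg {κ : Type} [Fintype κ] (x : κ → ℝ) : 0 ≤ nrm x := Real.sqrt_nonneg _

lemma nrm_mul_self {κ : Type} [Fintype κ] (x : κ → ℝ) : nrm x * nrm x = x ⬝ᵥ x := by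
  rw [nrm, Real.mul_self_sqrt (Finset.sum_nonneg fun i _ => sq_nonneg _)]
  simp only [dotProduct, sq]

lemma nrm_pos {κ : Type} [Fintype κ] {x : κ → ℝ} (hx : x ≠ 0) : 0 < nrm x :=
  (nrm_nonneg x).lt_of_ne' fun h => hx (dotProduct_self_eq_zero.1 (by rw [← nrm_mul_self, h, mul_zero]))

lemma map_dot {κ : Type} [Fintype κ] (x : κ → ℝ) :
    (gam κ).map (fun g => g ⬝ᵥ x) = (gaussianReal 0 1).map fun t => nrm x * t := by
  have h := map_inner (WithLp.toLp 2 x : EuclideanSpace ℝ κ)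
  rw [← map_pi_eq_stdGaussian, Measure.map_map (by fun_prop) (by fun_prop)] at h
  simp only [Function.comp_def, inner_toLp] at h
  rw [gaussianReal_map_const_mul, mul_zero, mul_one]
  refine h.trans ?_
  congr 1
  ext
  simp [EuclideanSpace.norm_eq, nrm]

lemma real_dot {κ : Type} [Fintype κ] (x : κ → ℝ) {S : Set ℝ} (hS : MeasurableSet S) :
    (gam κ).real {g | g ⬝ᵥ x ∈ S} = (gaussianReal 0 1).real {t | nrm x * t ∈ S} := by
  have h := congrArg (fun μ : Measure ℝ => μ.real S) (map_dot x)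
  simp only [Measure.real] at h ⊢
  rwa [Measure.map_apply (measurable_dot x) hS, Measure.map_apply (by fun_prop) hS] at h

lemma real_Icc (u v : ℝ) : (gaussianReal 0 1).real (Set.Icc u v) = ∫ t in Set.Icc u v, g1 t := by
  rw [Measure.real, gaussianReal_apply_eq_integral 0 one_ne_zero, ENNReal.toReal_ofReal
    (integral_nonneg fun t => gaussianPDFReal_nonneg _ _ _)]
  simp only [g1_eq_pdf]

lemma integrable_g1 : Integrable g1 := by
  have : g1 = gaussianPDFReal 0 1 := funext g1_eq_pdf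
  exact this ▸ integrable_gaussianPDFReal 0 1

lemma Icc_le {u v M : ℝ} (h : u ≤ v) (hM : ∀ t ∈ Set.Icc u v, g1 t ≤ M) :
    (gaussianReal 0 1).real (Set.Icc u v) ≤ (v - u) * M := by
  rw [real_Icc]
  refine (setIntegral_mono_on integrable_g1.integrableOn (integrableOn_const (by simp))
    measurableSet_Icc hM).trans (le_of_eq ?_)
  simp [h]

lemma le_Icc {u v M : ℝ} (h : u ≤ v) (hM : ∀ t ∈ Set.Icc u v, M ≤ g1 t) :
    (v - u) * M ≤ (gaussianReal 0 1).real (Set.Icc u v) := by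
  rw [real_Icc]
  refine le_trans (le_of_eq ?_) (setIntegral_mono_on (integrableOn_const (by simp))
    integrable_g1.integrableOn measurableSet_Icc hM)
  simp [h]

lemma gI_eq {r : ℝ} (hr : 0 < r) (lo hi : ℝ) :
    gI lo hi r = (gaussianReal 0 1).real (Set.Icc (lo / r) (hi / r)) := by
  unfold gI
  congr 1
  ext t
  simp only [Set.mem_Icc, div_le_iff₀' hr, le_div_iff₀' hr]
  rfl

lemma markov {ρ t : ℝ} (hρ : 0 ≤ ρ) (ht : 0 < t) :
    (gaussianReal 0 1).real {y | t < |ρ * y|} ≤ ρ / t := by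
  have hi : Integrable (fun y : ℝ => |ρ * y|) (gaussianReal 0 1) :=
    ((IsGaussian.integrable_id (μ := gaussianReal 0 1)).const_mul ρ).abs
  have h := mul_meas_ge_le_integral_of_nonneg (μ := gaussianReal 0 1)
    (Filter.Eventually.of_forall fun y => abs_nonneg (ρ * y)) hi t
  have h1 : ∫ y, |ρ * y| ∂gaussianReal 0 1 ≤ ρ := by
    simp only [abs_mul, abs_of_nonneg hρ]
    rw [integral_const_mul, integral_abs_gauss]
    refine mul_le_of_le_one_right hρ ?_
    rw [← div_eq_mul_inv, div_le_one sqrt_two_pi_pos]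
    exact Real.le_sqrt_of_sq_le (by nlinarith [Real.pi_gt_three])
  rw [le_div_iff₀' ht]
  exact (mul_le_mul_of_nonneg_left (measureReal_mono fun y (hy : t < _) => hy.le) ht.le).trans
    (h.trans h1)

lemma real_eval (u t : ℝ) (ht : 0 ≤ t) :
    (gam (Fin 2)).real {g | g 1 ∈ Set.Icc u (u + t)} ≤ t := by
  have h := (measurePreserving_eval (fun _ : Fin 2 => gaussianReal 0 1) 1).measureReal_preimage
    (measurableSet_Icc (a := u) (b := u + t)).nullMeasurableSet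
  refine (le_of_eq h).trans ((Icc_le (by linarith) fun y _ => g1_le_one y).trans ?_)
  simp

lemma plane {a b r : ℝ} (hb : 0 < b) (hr : r ^ 2 ≤ 1) (lo hi lo' hi' : ℝ) :
    (gam (Fin 2)).real {g | (lo ≤ a * g 0 ∧ a * g 0 ≤ hi) ∧
      (lo' ≤ b * (r * g 0 + √(1 - r ^ 2) * g 1) ∧ b * (r * g 0 + √(1 - r ^ 2) * g 1) ≤ hi')} ≤
      gI lo hi a * gI lo' hi' b + 4 * √|r| := by
  set s := √(1 - r ^ 2) with hs
  set t := √|r| with ht
  have ht0 : 0 ≤ t := Real.sqrt_nonneg _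
  have hs0 : 0 ≤ s := Real.sqrt_nonneg _
  have hs2 : s ^ 2 = 1 - r ^ 2 := Real.sq_sqrt (by linarith)
  have hs1 : s ≤ 1 := by nlinarith [sq_nonneg r]
  let A : Set (Fin 2 → ℝ) := Set.univ.pi ![{y | lo ≤ a * y ∧ a * y ≤ hi},
    {y | lo' ≤ b * y ∧ b * y ≤ hi'}]
  let D : Set (Fin 2 → ℝ) := {g | g ⬝ᵥ ![r, s - 1] ∈ {y : ℝ | t < |y|}}
  have hA : (gam (Fin 2)).real A = gI lo hi a * gI lo' hi' b := by
    simp only [A, gam, Measure.real, Measure.pi_pi, Fin.prod_univ_two, ENNReal.toReal_mul]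
    rfl
  have hD : (gam (Fin 2)).real D ≤ 2 * t := by
    rw [real_dot _ (measurableSet_lt measurable_const measurable_abs)]
    have hn : nrm ![r, s - 1] ≤ 2 * |r| := by
      refine Real.sqrt_le_iff.2 ⟨by positivity, ?_⟩
      rw [mul_pow, sq_abs, Fin.sum_univ_two]
      simp only [Matrix.cons_val_zero, Matrix.cons_val_one]
      nlinarith [sq_nonneg r]
    rcases ht0.eq_or_lt with h0 | h0
    · have : |r| = 0 := by
        rw [← Real.mul_self_sqrt (abs_nonneg r), ← ht, ← h0, mul_zero]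
      have h1 : nrm ![r, s - 1] = 0 := le_antisymm (by linarith) (nrm_nonneg _)
      simp [h1, ← h0]
    · refine (markov (nrm_nonneg _) h0).trans ?_
      rw [div_le_iff₀ h0, mul_assoc, ht, Real.mul_self_sqrt (abs_nonneg r)]
      exact hn
  have h1 := real_eval (lo' / b - t) t ht0
  have h2 := real_eval (hi' / b) t ht0
  refine (measureReal_mono (s₂ := A ∪ D ∪ {g | g 1 ∈ Set.Icc (lo' / b - t) (lo' / b - t + t)} ∪
    {g | g 1 ∈ Set.Icc (hi' / b) (hi' / b + t)}) (fun g hg => ?_) (measure_ne_top _ _)).trans ?_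
  · obtain ⟨hg1, hg2, hg3⟩ := hg
    rw [← div_le_iff₀' hb] at hg2
    rw [← le_div_iff₀' hb] at hg3
    by_cases hd : g ∈ D
    · exact Or.inl (Or.inl (Or.inr hd))
    have hd' : |g 0 * r + g 1 * (s - 1)| ≤ t := by
      simpa [D, dotProduct, Fin.sum_univ_two] using hd
    rw [abs_le] at hd'
    rcases le_total (g 1) (lo' / b) with h3 | h3
    · exact Or.inl (Or.inr ⟨by linarith [hd'.2], by linarith⟩)
    rcases le_total (hi' / b) (g 1) with h4 | h4
    · exact Or.inr ⟨h4, by linarith [hd'.1]⟩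
    refine Or.inl (Or.inl (Or.inl fun i _ => ?_))
    fin_cases i
    · exact hg1
    · exact ⟨(div_le_iff₀' hb).1 h3, (le_div_iff₀' hb).1 h4⟩
  · refine (measureReal_union_le _ _).trans ?_
    have h3 := measureReal_union_le (μ := gam (Fin 2)) (A ∪ D)
      {g | g 1 ∈ Set.Icc (lo' / b - t) (lo' / b - t + t)}
    have h4 := measureReal_union_le (μ := gam (Fin 2)) A D
    linarith

end BiN

/-- Law of `g ⬝ᵥ x` is that of `|x| N`. -/
lemma gam_interval {κ : Type} [Fintype κ] (x : κ → ℝ) (lo hi : ℝ) :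
    (gam κ).real {g | lo ≤ g ⬝ᵥ x ∧ g ⬝ᵥ x ≤ hi} = gI lo hi (nrm x) := by
  exact BiN.real_dot x (S := Set.Icc lo hi) measurableSet_Icc

/-- With `r = ⟨x,x'⟩/(|x||x'|)` the pair has the law of `(|x| N, |x'| (r N + √(1-r²) Z))`
(`R215.law_eq_of_gram`); compare with `(|x| N, |x'| Z)`: the indicators differ only if
`|r N + (√(1-r²) - 1) Z| > t` (probability `≤ 2 r² / t²`) or `Z` is within `t` of an endpoint
(probability `≤ 4 t`); `t = √|r|`. -/
theorem gam_pair : ∃ C : ℝ, 0 < C ∧ ∀ (κ : Type) [Fintype κ] (x x' : κ → ℝ), x ≠ 0 → x' ≠ 0 →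
    ∀ lo hi lo' hi' : ℝ,
      (gam κ).real {g | (lo ≤ g ⬝ᵥ x ∧ g ⬝ᵥ x ≤ hi) ∧ (lo' ≤ g ⬝ᵥ x' ∧ g ⬝ᵥ x' ≤ hi')} ≤
        gI lo hi (nrm x) * gI lo' hi' (nrm x') + C * √(|x ⬝ᵥ x'| / (nrm x * nrm x')) := by
  refine ⟨4, by norm_num, fun κ _ x x' hx hx' lo hi lo' hi' => ?_⟩
  have ha := BiN.nrm_pos hx
  have hb := BiN.nrm_pos hx'
  set r := x ⬝ᵥ x' / (nrm x * nrm x') with hr
  have hr1 : r ^ 2 ≤ 1 := by
    rw [hr, div_pow, div_le_one (by positivity), mul_pow, nrm, nrm,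
      Real.sq_sqrt (Finset.sum_nonneg fun i _ => sq_nonneg _),
      Real.sq_sqrt (Finset.sum_nonneg fun i _ => sq_nonneg _)]
    exact Finset.sum_mul_sq_le_sq_mul_sq _ _ _
  have hs2 : √(1 - r ^ 2) ^ 2 = 1 - r ^ 2 := Real.sq_sqrt (by linarith)
  have hxx : nrm x * (nrm x' * r) = x ⬝ᵥ x' := by rw [hr]; field_simp
  have hlaw := BiN.law_eq ![x, x'] ![![nrm x, 0], ![nrm x' * r, nrm x' * √(1 - r ^ 2)]]
    fun i j => by
      fin_cases i <;> fin_cases j
      · simp [← BiN.nrm_mul_self x]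
      · simp [hxx]
      · simp [mul_comm _ (nrm x), hxx, dotProduct_comm x']
      · simp [← BiN.nrm_mul_self x']
        linear_combination (-(nrm x') ^ 2) * hs2
  have hm : ∀ {κ' : Type} [Fintype κ'] (v : Fin 2 → κ' → ℝ),
      Measurable fun (g : κ' → ℝ) i => g ⬝ᵥ v i := fun v =>
    measurable_pi_lambda _ fun i => BiN.measurable_dot _
  have hS : MeasurableSet {y : Fin 2 → ℝ | (lo ≤ y 0 ∧ y 0 ≤ hi) ∧ (lo' ≤ y 1 ∧ y 1 ≤ hi')} := by
    measurability
  have h := congrArg (fun μ : Measure (Fin 2 → ℝ) =>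
    μ.real {y | (lo ≤ y 0 ∧ y 0 ≤ hi) ∧ (lo' ≤ y 1 ∧ y 1 ≤ hi')}) hlaw
  simp only [map_measureReal_apply (hm _) hS] at h
  have e : |x ⬝ᵥ x'| / (nrm x * nrm x') = |r| := by
    rw [hr, abs_div, abs_of_pos (mul_pos ha hb)]
  rw [e]
  refine (le_of_eq (h.trans ?_)).trans (BiN.plane (a := nrm x) hb hr1 lo hi lo' hi')
  congr 1
  ext g
  have e1 : g ⬝ᵥ ![nrm x, 0] = nrm x * g 0 := by simp [dotProduct, mul_comm]
  have e2 : g ⬝ᵥ ![nrm x' * r, nrm x' * √(1 - r ^ 2)] =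
      nrm x' * (r * g 0 + √(1 - r ^ 2) * g 1) := by
    simp only [dotProduct, Fin.sum_univ_two, Matrix.cons_val_zero, Matrix.cons_val_one]
    ring
  simp only [Set.mem_preimage, Set.mem_ofPred_eq, Matrix.cons_val_zero, Matrix.cons_val_one, e1, e2]

lemma gI_nonneg (lo hi r : ℝ) : 0 ≤ gI lo hi r := by
  exact measureReal_nonneg

lemma gI_le_one (lo hi r : ℝ) : gI lo hi r ≤ 1 := by
  exact measureReal_le_one

lemma measurable_gI (lo hi : ℝ) : Measurable (gI lo hi) := by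
  have hS : MeasurableSet {p : ℝ × ℝ | lo ≤ p.1 * p.2 ∧ p.1 * p.2 ≤ hi} := by measurability
  exact (measurable_measure_prodMk_left (ν := gaussianReal 0 1) hS).ennreal_toReal

/-- Interval of length `δ / r`, density at least `g1 (b / r)`. -/
lemma gI_lower {lo δ r b : ℝ} (hδ : 0 ≤ δ) (hr : 0 < r) (h1 : |lo| ≤ b) (h2 : |lo + δ| ≤ b) :
    δ / r * g1 (b / r) ≤ gI lo (lo + δ) r := by
  rw [BiN.gI_eq hr, show δ / r = (lo + δ) / r - lo / r by ring]
  refine BiN.le_Icc (by gcongr; linarith) fun t ht => g1_anti ?_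
  refine le_trans (abs_le.2 ⟨?_, ?_⟩) (le_abs_self _)
  · refine le_trans ?_ ht.1
    rw [← neg_div]
    gcongr
    exact (abs_le.1 h1).1
  · refine ht.2.trans ?_
    gcongr
    exact (abs_le.1 h2).2

/-- `y γ(y) ≤ γ(1)`. -/
lemma gI_upper {a δ r : ℝ} (ha : 0 < a) (hδ : 0 ≤ δ) (hr : 0 ≤ r) :
    gI a (a + δ) r ≤ δ / a * g1 1 := by
  rcases hr.eq_or_lt with rfl | hr
  · have : gI a (a + δ) 0 = 0 := by simp [gI, ha.not_ge]
    rw [this]
    exact mul_nonneg (by positivity) (g1_pos 1).le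
  have hy : 0 < a / r := by positivity
  rw [BiN.gI_eq hr]
  refine (BiN.Icc_le (M := g1 (a / r)) (by gcongr; linarith) fun t ht => g1_anti (by
    rw [abs_of_pos hy]; exact ht.1.trans (le_abs_self _))).trans ?_
  rw [show (a + δ) / r - a / r = δ / a * (a / r) by field_simp; ring, mul_assoc]
  refine mul_le_mul_of_nonneg_left ?_ (by positivity)
  generalize a / r = y
  unfold g1
  rw [← mul_div_assoc]
  gcongr
  have h1 := Real.add_one_le_exp ((y ^ 2 - 1) / 2)
  calc y * Real.exp (-y ^ 2 / 2) ≤ Real.exp ((y ^ 2 - 1) / 2) * Real.exp (-y ^ 2 / 2) := by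
        gcongr
        nlinarith [sq_nonneg (y - 1)]
    _ = _ := by rw [← Real.exp_add]; congr 1; ring

end Crest.Agent.R225
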