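import Crest.Agent.R225.VDefs

/-! Task `R225 BlkFacts`: weights, multiplier, collisions; pairwise independence and Chebyshev. -/

set_option autoImplicit false

namespace Crest.Agent.R225

namespace BlkFactsAux
variable {A G : Type} [AddCommGroup A] [Fintype A] [Fintype G]

lemma av_shift [Nonempty G] (a : G → A) (f : A → ℝ) :
    av (fun x : A × G => f (x.1 - a x.2)) = av f := by
  rw [av_prod, av_comm (fun (u : A) (g : G) => f (u - a g))]
  exact (congrArg av (funext fun g => av_equiv (Equiv.subRight (a g)) f)).trans (av_const _)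

lemma indep [AddCommGroup G] (a b : G → A) (ψ : A → G)
    (h : ∀ g s, a (g + ψ s) - b (g + ψ s) = a g - b g + s) (f f' : A → ℝ) :
    av (fun x : A × G => f (x.1 - a x.2) * f' (x.1 - b x.2)) = av f * av f' := by
  have h1 : ∀ u, av (fun g => f' (u + (a g - b g))) = av f' := fun u => by
    rw [← av_const (X := A) (av fun g => f' (u + (a g - b g)))]
    have h2 : ∀ s, av (fun g => f' (u + (a g - b g))) = av fun g => f' (u + (a g - b g) + s) :=
      fun s => by
        rw [← av_equiv (Equiv.addRight (ψ s))]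
        simp only [Equiv.coe_addRight, h, add_assoc]
    rw [funext h2, av_comm (fun (s : A) (g : G) => f' (u + (a g - b g) + s))]
    exact (congrArg av (funext fun g => av_equiv (Equiv.addLeft (u + (a g - b g))) f')).trans
      (av_const _)
  rw [av_prod, av_comm (fun (u : A) (g : G) => f (u - a g) * f' (u - b g))]
  have h2 : ∀ g, av (fun u => f (u - a g) * f' (u - b g)) =
      av fun u => f u * f' (u + (a g - b g)) := fun g => by
    rw [← av_equiv (Equiv.addRight (a g))]
    simp only [Equiv.coe_addRight, add_sub_cancel_right, add_sub_assoc]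
  rw [funext h2, av_comm (fun (g : G) (u : A) => f u * f' (u + (a g - b g)))]
  simp only [av_const_mul, h1, av_mul_const]

omit [Fintype A] in
lemma sum_single {J : Type} [Fintype J] [DecidableEq J] (z : J → ℤ) (i : J) (s : A) :
    ∑ j, z j • (Pi.single i s : J → A) j = z i • s := by
  rw [Finset.sum_eq_single i (fun j _ hj => by simp [hj]) (by simp), Pi.single_eq_same]

end BlkFactsAux

namespace Blk
variable {B : Blk} {e α β κ Rb : ℝ}

lemma red_add (u v : Fin B.k → ℤ) : B.red (u + v) = B.red u + B.red v := by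
  funext i
  simp [red]

lemma red_sub (u v : Fin B.k → ℤ) : B.red (u - v) = B.red u - B.red v := by
  funext i
  simp [red]

lemma red_zsmul (c : ℤ) (u : Fin B.k → ℤ) : B.red (c • u) = c • B.red u := by
  funext i
  simp [red]

lemma red_lift (δ : B.A) : B.red (B.lift δ) = δ := by
  funext i
  simp [red, lift]

lemma lift_red_box (h : B.rh ≤ B.p) (r : B.Box) : B.lift (B.red (B.box r)) = B.box r := by
  funext i
  simp only [lift, red, box, Int.cast_natCast, ZMod.val_natCast]
  rw [Nat.mod_eq_of_lt ((r i).2.trans_le h)]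

lemma red_box_injective (h : B.rh ≤ B.p) : Function.Injective fun r : B.Box => B.red (B.box r) := by
  intro r r' hr
  have h1 := congrArg B.lift hr
  simp only [lift_red_box h] at h1
  funext i
  exact Fin.ext (by simpa [box] using congrFun h1 i)

/-- `jj = u - t g - p z`. -/
lemma jj_eq (g : B.A) (u : Fin B.k → ℤ) (t : ℤ) (ε : Fin B.k → Bool) (i : Fin B.k) :
    B.jj (B.red u - t • g) ε i = u i - t * B.lift g i - B.p * B.kid g u t ε (some i) := by
  have h1 : (B.red u - t • g) i = ((u i - t * B.lift g i : ℤ) : ZMod B.p) := by simp [red, lift]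
  simp only [jj, kid, h1, ZMod.val_intCast, Option.elim_some, Int.emod_def]
  split_ifs <;> ring

lemma jj_range (δ : B.A) (ε : Fin B.k → Bool) (i : Fin B.k) :
    -(B.p : ℤ) ≤ B.jj δ ε i ∧ B.jj δ ε i < B.p := by
  have h1 : ((δ i).val : ℤ) < B.p := by exact_mod_cast ZMod.val_lt (δ i)
  have h2 : (0 : ℤ) ≤ (δ i).val := Int.natCast_nonneg _
  unfold jj
  split_ifs <;> constructor <;> omega

lemma Good.wt_nonneg (h : B.Good e α β κ Rb) (g u : B.A) (t : ℤ) (ε : Fin B.k → Bool) :
    0 ≤ B.wt g u t ε := by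
  unfold wt
  split_ifs
  · exact mul_nonneg (h.om_nonneg _) (h.Psi_nonneg _ _)
  · exact le_rfl

lemma Good.wt_le (h : B.Good e α β κ Rb) (g u : B.A) {t : ℤ} (ht : t ∈ B.T)
    (ε : Fin B.k → Bool) : B.wt g u t ε ≤ α := by
  unfold wt
  split_ifs
  · exact h.atom t ht _ _
  · exact h.α_nonneg

lemma wt_eq_of_ne (g u : B.A) (t : ℤ) (ε : Fin B.k → Bool) (hw : B.wt g u t ε ≠ 0) :
    B.wt g u t ε = B.om t * B.Psi (u - t • g) ε := by
  unfold wt at hw ⊢
  split_ifs with h
  · rfl
  · exact absurd (if_neg h) hw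

/-- Only one candidate is active. -/
lemma Good.wt_unique (h : B.Good e α β κ Rb) (g u : B.A) {t t' : ℤ} (ht : t ∈ B.T)
    (ht' : t' ∈ B.T) {ε ε' : Fin B.k → Bool} (hw : B.wt g u t ε ≠ 0)
    (hw' : B.wt g u t' ε' ≠ 0) : t = t' := by
  by_contra hne
  have h1 : ∀ s ∈ B.T, s ≠ t → u - s • g ∉ B.Sig := by
    by_contra h1
    exact hw (if_neg h1)
  rw [wt_eq_of_ne _ _ _ _ hw', h.off _ _ (h1 t' ht' (Ne.symm hne)), mul_zero] at hw'
  exact hw' rfl

lemma Good.sum_wt_le (h : B.Good e α β κ Rb) (g u : B.A) (t : ℤ) :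
    ∑ ε, B.wt g u t ε ≤ B.om t * B.th (u - t • g) := by
  rw [th, Finset.mul_sum]
  refine Finset.sum_le_sum fun ε _ => ?_
  unfold wt
  split_ifs
  · exact le_rfl
  · exact mul_nonneg (h.om_nonneg _) (h.Psi_nonneg _ _)

lemma av_main (g : B.A) : av (fun u => ∑ t ∈ B.T, B.om t * B.th (u - t • g)) =
    (∑ t ∈ B.T, B.om t) * av B.th := by
  rw [av_sum, Finset.sum_mul]
  refine Finset.sum_congr rfl fun t _ => ?_
  rw [av_const_mul]
  exact congrArg _ (av_equiv (Equiv.subRight (t • g)) B.th)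

lemma Good.mul_nonneg (h : B.Good e α β κ Rb) (g u : B.A) : 0 ≤ B.mul g u := by
  exact Finset.sum_nonneg fun _ _ => Finset.sum_nonneg fun _ _ => h.wt_nonneg _ _ _ _

lemma Good.mul_le (h : B.Good e α β κ Rb) (g u : B.A) : B.mul g u ≤ β := by
  by_cases h0 : ∀ t ∈ B.T, ∀ ε, B.wt g u t ε = 0
  · rw [mul, Finset.sum_eq_zero fun t ht => Finset.sum_eq_zero fun ε _ => h0 t ht ε]
    exact h.β_nonneg
  · push Not at h0
    obtain ⟨t, ht, ε, hw⟩ := h0
    rw [mul, Finset.sum_eq_single_of_mem t ht fun t' ht' hne => Finset.sum_eq_zero fun ε' _ => by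
      by_contra hw'
      exact hne (h.wt_unique g u ht' ht hw' hw)]
    exact (h.sum_wt_le g u t).trans (h.beta t ht _)

lemma Good.av_mul_le (h : B.Good e α β κ Rb) (g : B.A) : av (B.mul g) ≤ 1 := by
  refine le_trans (av_mono fun u => Finset.sum_le_sum fun t _ => h.sum_wt_le g u t) ?_
  rw [av_main]
  exact h.mean_le

/-- `mul g u ≥ ∑ t, om t th (u - t g) - ∑_{t ≠ t'} om t th (u - t g) 1_Sig (u - t' g)`; for
`t ≠ t'` in `T`, `t - t'` is a unit mod `p`, so `(u, g) ↦ (u - t g, u - t' g)` is a bijection of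
`A × A`; Markov in `g`. -/
theorem Good.coll_prob (h : B.Good e α β κ Rb) {η : ℝ} (hη : 0 < η) :
    fr (fun g : B.A => av (B.mul g) < 1 - e - η) ≤ κ / η := by
  classical
  have hth : ∀ δ, 0 ≤ B.th δ := fun δ => Finset.sum_nonneg fun _ _ => h.Psi_nonneg _ _
  let I : B.A → ℝ := fun δ => if δ ∈ B.Sig then 1 else 0
  have hI : ∀ δ, 0 ≤ I δ := fun δ => by simp only [I]; split_ifs <;> norm_num
  let L : B.A × B.A → ℝ := fun x => ∑ t ∈ B.T, ∑ t' ∈ B.T.erase t,
    B.om t * (B.th (x.1 - t • x.2) * I (x.1 - t' • x.2))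
  have hL : ∀ x, 0 ≤ L x := fun x => Finset.sum_nonneg fun _ _ => Finset.sum_nonneg fun _ _ =>
    _root_.mul_nonneg (h.om_nonneg _) (_root_.mul_nonneg (hth _) (hI _))
  have h1 : ∀ g u, ∑ t ∈ B.T, B.om t * B.th (u - t • g) - L (u, g) ≤ B.mul g u := by
    intro g u
    rw [← Finset.sum_sub_distrib]
    refine Finset.sum_le_sum fun t ht => ?_
    have h2 : ∀ t' ∈ B.T.erase t, 0 ≤ B.om t * (B.th (u - t • g) * I (u - t' • g)) :=
      fun _ _ => _root_.mul_nonneg (h.om_nonneg _) (_root_.mul_nonneg (hth _) (hI _))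
    by_cases hc : ∀ t' ∈ B.T, t' ≠ t → u - t' • g ∉ B.Sig
    · simp only [wt, if_pos hc, ← Finset.mul_sum]
      exact sub_le_self _ (by rw [Finset.mul_sum, Finset.mul_sum]; exact Finset.sum_nonneg h2)
    · refine le_trans ?_ (Finset.sum_nonneg fun _ _ => h.wt_nonneg _ _ _ _)
      push Not at hc
      obtain ⟨t', ht', hne, hm⟩ := hc
      have h3 := Finset.single_le_sum h2 (Finset.mem_erase.2 ⟨hne, ht'⟩)
      simp only [I, if_pos hm, mul_one] at h3
      exact sub_nonpos.2 h3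
  have h2 : av L ≤ κ := by
    have h3 : ∀ t ∈ B.T, ∀ t' ∈ B.T.erase t,
        av (fun x : B.A × B.A => B.om t * (B.th (x.1 - t • x.2) * I (x.1 - t' • x.2))) =
          B.om t * (av B.th * av I) := by
      intro t ht t' ht'
      obtain ⟨hne, ht'⟩ := Finset.mem_erase.1 ht'
      have hu : ((t - t' : ℤ) : ZMod B.p) ≠ 0 := by
        rw [Ne, ZMod.intCast_zmod_eq_zero_iff_dvd]
        intro hd
        have h4 := abs_le.1 (h.T_sub t ht)
        have h5 := abs_le.1 (h.T_sub t' ht')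
        have h6 := h.N_lt
        exact hne (sub_eq_zero.1 (Int.eq_zero_of_abs_lt_dvd hd (abs_lt.2 (by omega)))).symm
      rw [av_const_mul, BlkFactsAux.indep (fun g : B.A => t • g) (fun g => t' • g)
        (fun s => ((t - t' : ℤ) : ZMod B.p)⁻¹ • s) fun g s => ?_]
      rw [← sub_smul, ← sub_smul, smul_add, ← Int.cast_smul_eq_zsmul (ZMod B.p) (t - t') (_ • s),
        smul_inv_smul₀ hu]
    have h4 : av L = (((B.T.card : ℝ) - 1) * av I) * ((∑ t ∈ B.T, B.om t) * av B.th) := by
      rw [av_sum, Finset.sum_mul, Finset.mul_sum]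
      refine Finset.sum_congr rfl fun t ht => ?_
      rw [av_sum, Finset.sum_congr rfl (h3 t ht), Finset.sum_const, Finset.card_erase_of_mem ht,
        nsmul_eq_mul, Nat.cast_pred (Finset.card_pos.2 ⟨t, ht⟩)]
      ring
    have h5 := h.coll
    rw [fr_eq_av] at h5
    rw [h4]
    exact (mul_le_mul_of_nonneg_right h5 (_root_.mul_nonneg
      (Finset.sum_nonneg fun _ _ => h.om_nonneg _) (av_nonneg hth))).trans
        (mul_le_of_le_one_right h.κ_nonneg h.mean_le)
  refine le_trans (fr_mono (q := fun g => η ≤ av fun u => L (u, g)) fun g hg => ?_)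
    ((fr_markov (fun g => av_nonneg fun u => hL _) hη).trans ?_)
  · have h3 := av_mono (h1 g)
    rw [av_sub, av_main] at h3
    linarith [h.mean_ge]
  · rw [← av_comm (fun u g => L (u, g)), ← av_prod]
    gcongr

end Blk

/-- Pairwise independence: substitute `u`, then resample `T i`. -/
theorem pair_indep {A J : Type} [AddCommGroup A] [Fintype A] [Fintype J] [DecidableEq J]
    (z z' : J → ℤ) (i : J) (hi : z i = z' i + 1 ∨ z' i = z i + 1) (f f' : A → ℝ) :
    (av fun x : A × (J → A) => f (x.1 - ∑ j, z j • x.2 j) * f' (x.1 - ∑ j, z' j • x.2 j)) =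
      av f * av f' := by
  rcases hi with hi | hi
  · refine BlkFactsAux.indep (fun T : J → A => ∑ j, z j • T j) (fun T => ∑ j, z' j • T j)
      (fun s => Pi.single i s) (fun T s => ?_) f f'
    simp only [Pi.add_apply, smul_add, Finset.sum_add_distrib, BlkFactsAux.sum_single, hi, add_smul,
      one_smul]
    abel
  · refine BlkFactsAux.indep (fun T : J → A => ∑ j, z j • T j) (fun T => ∑ j, z' j • T j)
      (fun s => Pi.single i (-s)) (fun T s => ?_) f f'
    simp only [Pi.add_apply, smul_add, Finset.sum_add_distrib, BlkFactsAux.sum_single, hi, add_smul,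
      one_smul]
    abel

/-- Chebyshev: variance `≤ ∑ w² E f² ≤ α β ∑ w`. -/
theorem cheb_pair {A J K : Type} [AddCommGroup A] [Fintype A] [Fintype J] [DecidableEq J]
    (s : Finset K) (w : K → ℝ) (z : K → J → ℤ) {α β : ℝ} (hw0 : ∀ κ ∈ s, 0 ≤ w κ)
    (hwα : ∀ κ ∈ s, w κ ≤ α) (hα : 0 ≤ α)
    (hz : ∀ κ ∈ s, ∀ κ' ∈ s, κ ≠ κ' → w κ ≠ 0 → w κ' ≠ 0 →
      ∃ i, z κ i = z κ' i + 1 ∨ z κ' i = z κ i + 1)
    (f : A → ℝ) (hf0 : ∀ x, 0 ≤ f x) (hfβ : ∀ x, f x ≤ β) (hf1 : av f ≤ 1) {t : ℝ} (ht : 0 < t) :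
    fr (fun x : A × (J → A) =>
      ∑ κ ∈ s, w κ * f (x.1 - ∑ j, z κ j • x.2 j) < av f * ∑ κ ∈ s, w κ - t) ≤
        α * β * (∑ κ ∈ s, w κ) / t ^ 2 := by
  classical
  have hβ : 0 ≤ β := (hf0 0).trans (hfβ 0)
  let Y : K → A × (J → A) → ℝ := fun κ x => f (x.1 - ∑ j, z κ j • x.2 j) - av f
  have h0 : av (fun x => f x - av f) = 0 := by rw [av_sub, av_const, sub_self]
  have h1 : ∀ κ, av (fun x => Y κ x * Y κ x) ≤ β := fun κ => by
    rw [BlkFactsAux.av_shift (fun T : J → A => ∑ j, z κ j • T j)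
      fun x => (f x - av f) * (f x - av f)]
    have h2 : av (fun x => (f x - av f) * (f x - av f)) ≤
        av fun x => β * f x - av f * (f x - av f) - av f * f x :=
      av_mono fun x => by nlinarith [mul_le_mul_of_nonneg_right (hfβ x) (hf0 x)]
    rw [av_sub, av_sub, av_const_mul, av_const_mul, av_const_mul, h0] at h2
    nlinarith [mul_le_of_le_one_right hβ hf1, mul_self_nonneg (av f)]
  have h2 : av (fun x => (∑ κ ∈ s, w κ * Y κ x) ^ 2) ≤ α * β * ∑ κ ∈ s, w κ := by
    simp only [sq, Finset.sum_mul_sum, mul_mul_mul_comm (w _)]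
    rw [av_sum, Finset.mul_sum]
    refine Finset.sum_le_sum fun κ hκ => ?_
    rw [av_sum, Finset.sum_eq_single_of_mem κ hκ fun κ' hκ' hne => ?_, av_const_mul]
    · calc w κ * w κ * av (fun x => Y κ x * Y κ x) ≤ w κ * w κ * β :=
            mul_le_mul_of_nonneg_left (h1 κ) (mul_self_nonneg _)
        _ ≤ α * w κ * β := by gcongr; exacts [hw0 κ hκ, hwα κ hκ]
        _ = α * β * w κ := by ring
    · rw [av_const_mul]
      by_cases h3 : w κ = 0
      · simp [h3]
      by_cases h4 : w κ' = 0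
      · simp [h4]
      obtain ⟨i, hi⟩ := hz κ hκ κ' hκ' hne.symm h3 h4
      rw [pair_indep (z κ) (z κ') i hi (fun x => f x - av f) fun x => f x - av f, h0]
      simp
  refine le_trans (fr_mono (q := fun x => t ^ 2 ≤ (∑ κ ∈ s, w κ * Y κ x) ^ 2) fun x hx => ?_)
    ((fr_markov (fun x => sq_nonneg _) (by positivity)).trans (by gcongr))
  have h3 : ∑ κ ∈ s, w κ * Y κ x =
      ∑ κ ∈ s, w κ * f (x.1 - ∑ j, z κ j • x.2 j) - av f * ∑ κ ∈ s, w κ := by
    simp only [Y, mul_sub, Finset.sum_sub_distrib, Finset.sum_mul, mul_comm (av f)]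
  rw [h3]
  nlinarith

/-- Restriction to a subset. -/
lemma fr_comp_le {X Y : Type} [Fintype X] [Fintype Y] [Nonempty X] {φ : X → Y}
    (hφ : Function.Injective φ) (p : Y → Prop) :
    fr (fun x => p (φ x)) ≤ fr p * ((Fintype.card Y : ℝ) / Fintype.card X) := by
  classical
  have : Nonempty Y := Nonempty.map φ inferInstance
  have h1 : (Fintype.card Y : ℝ) ≠ 0 := Nat.cast_ne_zero.2 Fintype.card_ne_zero
  rw [fr_eq_card, fr_eq_card, div_mul_div_cancel₀ h1]
  gcongr
  exact Finset.card_le_card_of_injOn φ (fun x hx => by simpa using hx) hφ.injOn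

end Crest.Agent.R225
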