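import Crest.Agent.R225.Riem

/-! Task `R225 BlkMk`: construction of the folded Gaussian block. -/

set_option autoImplicit false

namespace Crest.Agent.R225

namespace BlkMk

section Gen
variable {X : Type} [Fintype X]

lemma av_pi (k : ℕ) (F : (Fin k → X) → ℝ) :
    av F = (∑ x, F x) / (Fintype.card X : ℝ) ^ k := by
  simp [av]

lemma av_prod_pow (k : ℕ) (g : X → ℝ) :
    av (fun δ : Fin k → X => ∏ i, g (δ i)) = av g ^ k := by
  rw [av_pi, av, div_pow, ← Fintype.sum_pow]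

lemma var_le {w f : X → ℝ} (hw : ∀ x, 0 ≤ w x) {m V : ℝ} (hm : ∑ x, w x * f x = m * ∑ x, w x)
    (hV : ∑ x, w x * f x ^ 2 ≤ V * ∑ x, w x) : ∑ x, w x * (f x - m) ^ 2 ≤ V * ∑ x, w x := by
  have h1 : ∑ x, w x * (f x - m) ^ 2 =
      ∑ x, w x * f x ^ 2 - 2 * m * ∑ x, w x * f x + m ^ 2 * ∑ x, w x := by
    rw [Finset.mul_sum, Finset.mul_sum, ← Finset.sum_sub_distrib, ← Finset.sum_add_distrib]
    exact Finset.sum_congr rfl fun x _ => by ring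
  have h2 : 0 ≤ m ^ 2 * ∑ x, w x := mul_nonneg (sq_nonneg _) (Finset.sum_nonneg fun x _ => hw x)
  rw [h1, hm]
  nlinarith

end Gen

section OneD
variable {p : ℕ} [Fact p.Prime] {s ρ : ℝ}

/-- Indicator of the far leaves. -/
def far (p : ℕ) (δ : ZMod p) (ε : Bool) : ℕ :=
  if (p : ℤ) ≤ 2 * |j1 p δ ε| then 1 else 0

omit [Fact p.Prime] in
lemma f1_pos (hs : 0 < s) (δ : ZMod p) (ε : Bool) : 0 < f1 p s ρ δ ε :=
  mul_pos hs (g1_pos _)

omit [Fact p.Prime] in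
lemma th1_pos (hs : 0 < s) (δ : ZMod p) : 0 < th1 p s ρ δ :=
  add_pos (f1_pos hs _ _) (f1_pos hs _ _)

omit [Fact p.Prime] in
lemma sum_f1 (δ : ZMod p) : ∑ ε, f1 p s ρ δ ε = th1 p s ρ δ := by
  rw [Fintype.sum_bool, th1, add_comm]

omit [Fact p.Prime] in
lemma sum_prod_f1 (k : ℕ) (δ : Fin k → ZMod p) :
    ∑ ε : Fin k → Bool, ∏ i, f1 p s ρ (δ i) (ε i) = ∏ i, th1 p s ρ (δ i) := by
  rw [← Fintype.prod_sum fun i ε => f1 p s ρ (δ i) ε]
  exact Finset.prod_congr rfl fun i _ => sum_f1 _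

lemma f1_le (hs : 0 < s) (hρ : 0 ≤ ρ) (δ : ZMod p) (ε : Bool) :
    f1 p s ρ δ ε ≤ th1 p s ρ δ * (1 / 2) ^ far p δ ε := by
  unfold far
  split_ifs with h
  · have := far_half hs hρ δ ε h
    rw [pow_one]
    linarith
  · rw [pow_zero, mul_one, ← sum_f1]
    exact Finset.single_le_sum (f := fun ε => f1 p s ρ δ ε) (fun _ _ => (f1_pos hs _ _).le)
      (Finset.mem_univ ε)

lemma prod_f1_le (hs : 0 < s) (hρ : 0 ≤ ρ) {k N₀ : ℕ} (δ : Fin k → ZMod p) (ε : Fin k → Bool)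
    (h : N₀ ≤ ∑ i, far p (δ i) (ε i)) :
    ∏ i, f1 p s ρ (δ i) (ε i) ≤ (∏ i, th1 p s ρ (δ i)) / 2 ^ N₀ := by
  have h1 : ∏ i, f1 p s ρ (δ i) (ε i) ≤ ∏ i, th1 p s ρ (δ i) * (1 / 2) ^ far p (δ i) (ε i) :=
    Finset.prod_le_prod (fun i _ => (f1_pos hs _ _).le) fun i _ => f1_le hs hρ _ _
  rw [Finset.prod_mul_distrib, Finset.prod_pow_eq_pow_sum] at h1
  have h2 : (1 / 2 : ℝ) ^ (∑ i, far p (δ i) (ε i)) ≤ (1 / 2) ^ N₀ :=
    pow_le_pow_of_le_one (by norm_num) (by norm_num) h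
  have h3 : 0 ≤ ∏ i, th1 p s ρ (δ i) := Finset.prod_nonneg fun i _ => (th1_pos hs _).le
  calc _ ≤ _ := h1
    _ ≤ (∏ i, th1 p s ρ (δ i)) * (1 / 2) ^ N₀ := mul_le_mul_of_nonneg_left h2 h3
    _ = _ := by rw [one_div_pow, mul_one_div]

lemma p_pos : (0 : ℝ) < p := Nat.cast_pos.2 (Fact.out : p.Prime).pos

lemma sum_eq_av (g : ZMod p → ℝ) : ∑ δ, g δ = p * av g := by
  have := p_pos (p := p)
  rw [av, ZMod.card]
  field_simp

/-- The atypical residues carry little mass. -/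
lemma cheb1 (hs : 2 ≤ s) (hρ0 : 0 ≤ ρ) (hρ : ρ ≤ 1) (hμ : av (th1 p s ρ) ≤ 1) {m : ℝ}
    (hm : av (fun δ => th1 p s ρ δ * Real.log (th1 p s ρ δ)) = m * av (th1 p s ρ)) (k : ℕ)
    {l : ℝ} (hl : 0 < l) :
    av (fun δ : Fin k → ZMod p => if l ≤ |∑ i, Real.log (th1 p s ρ (δ i)) - k * m| then
      ∏ i, th1 p s ρ (δ i) else 0) ≤ k * s ^ 4 / l ^ 2 := by
  have hs0 : 0 < s := by linarith
  have hp := p_pos (p := p)
  have hw : ∀ δ, 0 ≤ th1 p s ρ δ := fun δ => (th1_pos hs0 δ).le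
  have hm' : ∑ δ, th1 p s ρ δ * Real.log (th1 p s ρ δ) = m * ∑ δ, th1 p s ρ δ := by
    rw [sum_eq_av, sum_eq_av, hm]
    ring
  have hV : ∑ δ, th1 p s ρ δ * Real.log (th1 p s ρ δ) ^ 2 ≤ s ^ 4 * ∑ δ, th1 p s ρ δ := by
    rw [Finset.mul_sum]
    refine Finset.sum_le_sum fun δ _ => ?_
    have h1 := (log_th1 hs hρ0 hρ δ).2
    have h2 : Real.log (th1 p s ρ δ) ^ 2 ≤ s ^ 4 := by
      rw [← sq_abs]
      calc _ ≤ (s ^ 2) ^ 2 := pow_le_pow_left₀ (abs_nonneg _) h1 2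
        _ = _ := by ring
    rw [mul_comm]
    exact mul_le_mul_of_nonneg_right h2 (hw δ)
  have h := wcheb (th1 p s ρ) (fun δ => Real.log (th1 p s ρ δ)) hw m (s ^ 4) hm'
    (var_le hw hm' hV) k hl
  rw [av_pi, ZMod.card, div_le_iff₀ (by positivity)]
  refine h.trans ?_
  rw [sum_eq_av, mul_pow, mul_comm]
  have h3 : av (th1 p s ρ) ^ k ≤ 1 := pow_le_one₀ (av_nonneg hw) hμ
  have h4 : (p : ℝ) ^ k * av (th1 p s ρ) ^ k ≤ (p : ℝ) ^ k :=
    mul_le_of_le_one_right (by positivity) h3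
  exact mul_le_mul_of_nonneg_left h4 (by positivity)

/-- The cells with few far leaves carry little mass. -/
lemma cheb2 (hs : 0 < s) (hμ : av (th1 p s ρ) ≤ 1) {q : ℝ}
    (hq : q ≤ av fun δ : ZMod p =>
      ∑ ε : Bool, if (p : ℤ) ≤ 2 * |j1 p δ ε| then f1 p s ρ δ ε else 0)
    {k N₀ : ℕ} (hN : 1 ≤ N₀) (hk : (2 * N₀ : ℝ) ≤ k * q) :
    av (fun δ : Fin k → ZMod p => ∑ ε : Fin k → Bool, if ∑ i, far p (δ i) (ε i) < N₀ then
      ∏ i, f1 p s ρ (δ i) (ε i) else 0) ≤ 2 / N₀ := by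
  have hp := p_pos (p := p)
  have hN' : (1 : ℝ) ≤ N₀ := by exact_mod_cast hN
  obtain ⟨Q, hQ⟩ : ∃ Q, Q = av fun δ : ZMod p =>
      ∑ ε : Bool, if (p : ℤ) ≤ 2 * |j1 p δ ε| then f1 p s ρ δ ε else 0 := ⟨_, rfl⟩
  rw [← hQ] at hq
  have hμ0 : 0 < av (th1 p s ρ) := by
    have h1 : 0 < ∑ δ, th1 p s ρ δ := Finset.sum_pos (fun δ _ => th1_pos hs δ) Finset.univ_nonempty
    rw [sum_eq_av] at h1
    exact (mul_pos_iff_of_pos_left hp).1 h1
  have hQ0 : 0 ≤ Q := hQ ▸ av_nonneg fun δ => Finset.sum_nonneg fun ε _ => by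
    split_ifs
    exacts [(f1_pos hs _ _).le, le_rfl]
  obtain ⟨m, hm⟩ : ∃ m, m = Q / av (th1 p s ρ) := ⟨_, rfl⟩
  have hQm : Q ≤ m := by
    rw [hm, le_div_iff₀ hμ0]
    exact mul_le_of_le_one_right hQ0 hμ
  have hkm : (2 * N₀ : ℝ) ≤ k * m :=
    hk.trans (mul_le_mul_of_nonneg_left (hq.trans hQm) (Nat.cast_nonneg k))
  have hw : ∀ x : ZMod p × Bool, 0 ≤ f1 p s ρ x.1 x.2 := fun x => (f1_pos hs _ _).le
  have hsw : ∑ x : ZMod p × Bool, f1 p s ρ x.1 x.2 = p * av (th1 p s ρ) := by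
    rw [Fintype.sum_prod_type, ← sum_eq_av]
    exact Finset.sum_congr rfl fun δ _ => sum_f1 δ
  have hm' : ∑ x : ZMod p × Bool, f1 p s ρ x.1 x.2 * (far p x.1 x.2 : ℝ) =
      m * ∑ x : ZMod p × Bool, f1 p s ρ x.1 x.2 := by
    have h1 : ∑ x : ZMod p × Bool, f1 p s ρ x.1 x.2 * (far p x.1 x.2 : ℝ) = p * Q := by
      rw [Fintype.sum_prod_type, hQ, ← sum_eq_av]
      refine Finset.sum_congr rfl fun δ _ => Finset.sum_congr rfl fun ε _ => ?_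
      unfold far
      split_ifs <;> simp
    rw [h1, hsw, hm]
    field_simp
  have hV : ∑ x : ZMod p × Bool, f1 p s ρ x.1 x.2 * (far p x.1 x.2 : ℝ) ^ 2 ≤
      m * ∑ x : ZMod p × Bool, f1 p s ρ x.1 x.2 := by
    rw [← hm']
    refine le_of_eq (Finset.sum_congr rfl fun x _ => ?_)
    unfold far
    split_ifs <;> simp
  have hl : 0 < k * m / 2 := by linarith
  have h := wcheb (fun x : ZMod p × Bool => f1 p s ρ x.1 x.2) (fun x => (far p x.1 x.2 : ℝ)) hw m m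
    hm' (var_le hw hm' hV) k hl
  rw [← (Equiv.arrowProdEquivProdArrow (Fin k) (fun _ => ZMod p) fun _ => Bool).symm.sum_comp,
    Fintype.sum_prod_type] at h
  rw [av_pi, ZMod.card, div_le_iff₀ (by positivity)]
  refine le_trans (Finset.sum_le_sum fun δ _ => Finset.sum_le_sum fun ε _ => ?_) (h.trans ?_)
  · simp only [Equiv.arrowProdEquivProdArrow_symm_apply]
    have h0 : 0 ≤ ∏ i, f1 p s ρ (δ i) (ε i) := Finset.prod_nonneg fun i _ => (f1_pos hs _ _).le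
    split_ifs with h1 h2
    · exact le_rfl
    · refine absurd ?_ h2
      have h3 : (∑ i, (far p (δ i) (ε i) : ℝ)) < N₀ := by exact_mod_cast h1
      rw [le_abs]
      right
      linarith
    · exact h0
    · exact le_rfl
  · rw [hsw, mul_pow, mul_comm]
    have h3 : av (th1 p s ρ) ^ k ≤ 1 := pow_le_one₀ hμ0.le hμ
    have h4 : (p : ℝ) ^ k * av (th1 p s ρ) ^ k ≤ (p : ℝ) ^ k :=
      mul_le_of_le_one_right (by positivity) h3
    have h5 : k * m / (k * m / 2) ^ 2 ≤ 2 / N₀ := by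
      rw [div_le_div_iff₀ (by positivity) (by positivity)]
      nlinarith
    exact mul_le_mul h5 h4 (by positivity) (by positivity)

/-- Typical residues. -/
noncomputable def sig (p : ℕ) [Fact p.Prime] (s ρ m l : ℝ) (k : ℕ) : Finset (Fin k → ZMod p) :=
  Finset.univ.filter fun δ => |∑ i, Real.log (th1 p s ρ (δ i)) - k * m| < l

/-- The leaf weights. -/
noncomputable def psi (p : ℕ) [Fact p.Prime] (s ρ m l : ℝ) (k N₀ : ℕ) (δ : Fin k → ZMod p)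
    (ε : Fin k → Bool) : ℝ :=
  if δ ∈ sig p s ρ m l k ∧ N₀ ≤ ∑ i, far p (δ i) (ε i) then ∏ i, f1 p s ρ (δ i) (ε i) else 0

variable {m l : ℝ} {k N₀ : ℕ}

lemma mem_sig {δ : Fin k → ZMod p} :
    δ ∈ sig p s ρ m l k ↔ |∑ i, Real.log (th1 p s ρ (δ i)) - k * m| < l := by
  simp [sig]

lemma sig_bd (hs : 0 < s) {δ : Fin k → ZMod p} (h : δ ∈ sig p s ρ m l k) :
    Real.exp (k * m - l) ≤ ∏ i, th1 p s ρ (δ i) ∧ ∏ i, th1 p s ρ (δ i) ≤ Real.exp (k * m + l) := by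
  have h1 : ∏ i, th1 p s ρ (δ i) = Real.exp (∑ i, Real.log (th1 p s ρ (δ i))) := by
    rw [Real.exp_sum]
    exact Finset.prod_congr rfl fun i _ => (Real.exp_log (th1_pos hs _)).symm
  have h2 := abs_lt.1 (mem_sig.1 h)
  rw [h1]
  exact ⟨Real.exp_le_exp.2 (by linarith [h2.1]), Real.exp_le_exp.2 (by linarith [h2.2])⟩

lemma psi_nonneg (hs : 0 < s) (δ : Fin k → ZMod p) (ε : Fin k → Bool) :
    0 ≤ psi p s ρ m l k N₀ δ ε := by
  unfold psi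
  split_ifs
  exacts [Finset.prod_nonneg fun i _ => (f1_pos hs _ _).le, le_rfl]

lemma psi_le (hs : 0 < s) (δ : Fin k → ZMod p) (ε : Fin k → Bool) :
    psi p s ρ m l k N₀ δ ε ≤ ∏ i, f1 p s ρ (δ i) (ε i) := by
  unfold psi
  split_ifs
  exacts [le_rfl, Finset.prod_nonneg fun i _ => (f1_pos hs _ _).le]

lemma psi_off {δ : Fin k → ZMod p} (h : δ ∉ sig p s ρ m l k) (ε : Fin k → Bool) :
    psi p s ρ m l k N₀ δ ε = 0 := by
  unfold psi
  rw [if_neg fun h' => h h'.1]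

lemma psi_atom (hs : 0 < s) (hρ : 0 ≤ ρ) (δ : Fin k → ZMod p) (ε : Fin k → Bool) :
    psi p s ρ m l k N₀ δ ε ≤ Real.exp (k * m + l) / 2 ^ N₀ := by
  unfold psi
  split_ifs with h
  · exact (prod_f1_le hs hρ δ ε h.2).trans
      (div_le_div_of_nonneg_right (sig_bd hs h.1).2 (by positivity))
  · positivity

lemma sum_psi_le (hs : 0 < s) (δ : Fin k → ZMod p) :
    ∑ ε, psi p s ρ m l k N₀ δ ε ≤ ∏ i, th1 p s ρ (δ i) := by
  rw [← sum_prod_f1]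
  exact Finset.sum_le_sum fun ε _ => psi_le hs δ ε

lemma sum_psi_le_exp (hs : 0 < s) (δ : Fin k → ZMod p) :
    ∑ ε, psi p s ρ m l k N₀ δ ε ≤ Real.exp (k * m + l) := by
  by_cases h : δ ∈ sig p s ρ m l k
  · exact (sum_psi_le hs δ).trans (sig_bd hs h).2
  · simp only [psi_off h, Finset.sum_const_zero]
    positivity

lemma av_psi_le (hs : 0 < s) (hμ : av (th1 p s ρ) ≤ 1) :
    av (fun δ => ∑ ε, psi p s ρ m l k N₀ δ ε) ≤ 1 := by
  refine (av_mono fun δ => sum_psi_le hs δ).trans ?_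
  rw [av_prod_pow]
  exact pow_le_one₀ (av_nonneg fun δ => (th1_pos hs δ).le) hμ

lemma le_sum_psi (hs : 0 < s) (δ : Fin k → ZMod p) :
    ∏ i, th1 p s ρ (δ i) -
      (if l ≤ |∑ i, Real.log (th1 p s ρ (δ i)) - k * m| then ∏ i, th1 p s ρ (δ i) else 0) -
      (∑ ε : Fin k → Bool, if ∑ i, far p (δ i) (ε i) < N₀ then
        ∏ i, f1 p s ρ (δ i) (ε i) else 0) ≤ ∑ ε, psi p s ρ m l k N₀ δ ε := by
  by_cases h : δ ∈ sig p s ρ m l k
  · rw [if_neg (not_le.2 (mem_sig.1 h)), sub_zero, ← sum_prod_f1, ← Finset.sum_sub_distrib]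
    refine Finset.sum_le_sum fun ε _ => ?_
    unfold psi
    by_cases h1 : N₀ ≤ ∑ i, far p (δ i) (ε i)
    · rw [if_neg (not_lt.2 h1), if_pos ⟨h, h1⟩, sub_zero]
    · rw [if_pos (not_le.1 h1), if_neg fun h' => h1 h'.2, sub_self]
  · rw [if_pos (not_lt.1 fun h' => h (mem_sig.2 h')), sub_self, zero_sub]
    simp only [psi_off h, Finset.sum_const_zero, Left.neg_nonpos_iff]
    refine Finset.sum_nonneg fun ε _ => ?_
    split_ifs
    exacts [Finset.prod_nonneg fun i _ => (f1_pos hs _ _).le, le_rfl]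

lemma fr_sig (hs : 0 < s) (hμ : av (th1 p s ρ) ≤ 1) :
    fr (fun δ => δ ∈ sig p s ρ m l k) ≤ Real.exp (-(k * m - l)) := by
  have h1 : fr (fun δ => δ ∈ sig p s ρ m l k) ≤
      fr fun δ : Fin k → ZMod p => Real.exp (k * m - l) ≤ ∏ i, th1 p s ρ (δ i) :=
    fr_mono fun δ h => (sig_bd hs h).1
  have h2 := fr_markov (f := fun δ : Fin k → ZMod p => ∏ i, th1 p s ρ (δ i))
    (fun δ => Finset.prod_nonneg fun i _ => (th1_pos hs _).le) (Real.exp_pos (k * m - l))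
  rw [av_prod_pow] at h2
  have h3 : av (th1 p s ρ) ^ k ≤ 1 := pow_le_one₀ (av_nonneg fun δ => (th1_pos hs δ).le) hμ
  refine h1.trans (h2.trans ?_)
  rw [Real.exp_neg, ← one_div]
  exact div_le_div_of_nonneg_right h3 (Real.exp_pos _).le

end OneD

end BlkMk

set_option maxHeartbeats 400000 in
open BlkMk in
/-- Choose a prime `p > 2 (s e^{k s²} + 1)`, `p ≥ 2 s / ρ`, `p ≥ 2 s²`. `μ₁ = av th1 ∈ [1/2, 1]`,
`m = av (th1 log th1) / μ₁ ∈ [1, s²]`, `θ δ = ∏ i, th1 (δ i)`,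
`Sig = {δ : |log θ δ - k m| < l}`, `σ = exp (-k m + 2 l) ≤ ρ`, `N = ⌈s / σ⌉₊`, `T = Ico (-N) N`,
`om t = σ g1 (σ |t| + σ)`, `rh = ⌊ρ p / s⌋₊`, `cst = 1`,
`Psi δ ε = if δ ∈ Sig ∧ N₀ ≤ #{i : p ≤ 2 |j1 (δ i) (ε i)|} then ∏ i, f1 (δ i) (ε i) else 0`.
`∑ ε ∏ f1 = θ`; `Psi ≤ θ / 2^{N₀}` (`far_half`); `av th ≥ μ₁^k - k s⁴/l² - 2/N₀` by `wcheb` twice
(`X = ZMod p`, `w = th1/p`, `f = log th1`; `X = ZMod p × Bool`, `w = f1/p`, `f` = far indicator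
of mean `q ≥ e^{-s²/8}/(25 s)`, variance `≤ q`, deviation `k q / 2`); `fr Sig ≤ e^{-km + l}` by
Markov (`av θ = μ₁^k ≤ 1`); `∑ om` by `riem_le`, `riem_ge`; for `x, y ∈ [0,1]`,
`x y ≥ x + y - 1`. -/
theorem blk_make (s ρ l : ℝ) (k N₀ : ℕ) (hs : Real.exp 8 ≤ s) (hρ0 : 0 < ρ) (hρ : ρ ≤ 1 / s)
    (hl : 0 < l) (hσ : Real.exp (-k + 2 * l) ≤ ρ) (hN₀ : 1 ≤ N₀)
    (hfar : (2 * N₀ : ℝ) ≤ k * (Real.exp (-s ^ 2 / 8) / (25 * s))) :
    ∃ B : Blk, B.k = k ∧ B.cst = 1 ∧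
      B.Good ((k + 1) * (2 * Real.exp (-s ^ 2 / 2) + 4 * ρ) + k * s ^ 4 / l ^ 2 + 2 / N₀)
        (Real.exp (3 * l) / 2 ^ N₀) (Real.exp (3 * l)) (3 * s * Real.exp (-l)) (2 * s) ∧
      (4 * B.N + 1 : ℝ) ≤ 9 * s * Real.exp (k * s ^ 2) ∧ (B.p : ℝ) / B.rh ≤ 2 * s / ρ := by
  have hs16 : 16 ≤ s := by
    have h1 := Real.add_one_le_exp (4 : ℝ)
    have h2 : Real.exp 8 = Real.exp 4 * Real.exp 4 := by rw [← Real.exp_add]; norm_num
    nlinarith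
  have hs0 : 0 < s := by linarith
  have hs2 : 2 ≤ s := by linarith
  have hlog : 8 ≤ Real.log s := (Real.le_log_iff_exp_le hs0).2 hs
  have hρ16 : ρ ≤ 1 / 16 := hρ.trans (one_div_le_one_div_of_le (by norm_num) hs16)
  have hE1 : 1 ≤ Real.exp (k * s ^ 2) := Real.one_le_exp (by positivity)
  have hexp : Real.exp (-s ^ 2 / 2) ≤ 1 / 8 := by
    have h1 := Real.add_one_le_exp (s ^ 2 / 2)
    have h2 : Real.exp (-s ^ 2 / 2) = 1 / Real.exp (s ^ 2 / 2) := by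
      rw [neg_div, Real.exp_neg, one_div]
    rw [h2]
    exact one_div_le_one_div_of_le (by norm_num) (by nlinarith)
  obtain ⟨p, hp1, hp⟩ := Nat.exists_infinite_primes
    ⌈2 * (s * Real.exp (k * s ^ 2) + 1) + 2 * s / ρ + 2 * s ^ 2⌉₊
  have : Fact p.Prime := ⟨hp⟩
  have hp2 : 2 * (s * Real.exp (k * s ^ 2) + 1) + 2 * s / ρ + 2 * s ^ 2 ≤ p := Nat.ceil_le.1 hp1
  have hpos1 : 0 < 2 * (s * Real.exp (k * s ^ 2) + 1) := by positivity
  have hpos2 : 0 < 2 * s / ρ := by positivity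
  have hpos3 : 0 < 2 * s ^ 2 := by positivity
  have hp0 : (0 : ℝ) < p := p_pos
  have hpρ : 2 * s ≤ p * ρ := (div_le_iff₀ hρ0).1 (by linarith)
  have hsp : s / p ≤ ρ := by
    rw [div_le_iff₀ hp0]
    linarith
  have hrh2 : 2 ≤ ρ * p / s := by
    rw [le_div_iff₀ hs0]
    linarith
  obtain ⟨hμ1, hμ2⟩ := av_th1 (p := p) hs0 hsp
  have hμh : 1 / 2 ≤ av (th1 p s ρ) := by linarith
  have hμ0 : 0 < av (th1 p s ρ) := by linarith
  obtain ⟨m, hm⟩ : ∃ m,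
      m = av (fun δ => th1 p s ρ δ * Real.log (th1 p s ρ δ)) / av (th1 p s ρ) := ⟨_, rfl⟩
  have hm' : av (fun δ => th1 p s ρ δ * Real.log (th1 p s ρ δ)) = m * av (th1 p s ρ) := by
    rw [hm, div_mul_cancel₀ _ hμ0.ne']
  have hm1 : 1 ≤ m := by
    have h1 := mean_log_th1 (p := p) hs2 hsp hμh
    rw [hm'] at h1
    have h2 := le_of_mul_le_mul_right h1 hμ0
    linarith
  have hm2 : m ≤ s ^ 2 := by
    have h1 : av (fun δ => th1 p s ρ δ * Real.log (th1 p s ρ δ)) ≤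
        av fun δ => s ^ 2 * th1 p s ρ δ := av_mono fun δ => by
      have h2 := log_th1 (p := p) hs2 hρ0.le (by linarith) δ
      rw [mul_comm]
      exact mul_le_mul_of_nonneg_right (le_of_abs_le h2.2) h2.1.le
    rw [av_const_mul, hm'] at h1
    exact le_of_mul_le_mul_right h1 hμ0
  have hk0 : (0 : ℝ) ≤ k := Nat.cast_nonneg k
  obtain ⟨σ, hσe⟩ : ∃ σ, σ = Real.exp (-(k * m) + 2 * l) := ⟨_, rfl⟩
  have hσ0 : 0 < σ := hσe ▸ Real.exp_pos _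
  have hσρ : σ ≤ ρ := by
    refine le_trans ?_ hσ
    rw [hσe]
    have h1 : (k : ℝ) * 1 ≤ k * m := mul_le_mul_of_nonneg_left hm1 hk0
    exact Real.exp_le_exp.2 (by linarith)
  have hσ3 : σ * Real.exp (k * m + l) = Real.exp (3 * l) := by
    rw [hσe, ← Real.exp_add]
    congr 1
    ring
  have hσ4 : Real.exp (-(k * m - l)) = σ * Real.exp (-l) := by
    rw [hσe, ← Real.exp_add]
    congr 1
    ring
  have hσ5 : s / σ ≤ s * Real.exp (k * s ^ 2) := by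
    rw [div_eq_mul_inv, hσe, ← Real.exp_neg]
    have h1 : (k : ℝ) * m ≤ k * s ^ 2 := mul_le_mul_of_nonneg_left hm2 hk0
    exact mul_le_mul_of_nonneg_left (Real.exp_le_exp.2 (by linarith)) hs0.le
  obtain ⟨N, hNe⟩ : ∃ N : ℕ, N = ⌈s / σ⌉₊ := ⟨_, rfl⟩
  have hN1 : s / σ ≤ N := hNe ▸ Nat.le_ceil _
  have hN2 : (N : ℝ) < s / σ + 1 := hNe ▸ Nat.ceil_lt_add_one (by positivity)
  have hN3 : s ≤ σ * N := by
    rw [div_le_iff₀ hσ0] at hN1
    linarith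
  have hN4 : σ * N < s + σ := by
    have h1 := mul_lt_mul_of_pos_left hN2 hσ0
    rwa [mul_add, mul_one, mul_div_cancel₀ _ hσ0.ne'] at h1
  obtain ⟨rh, hrh⟩ : ∃ rh : ℕ, rh = ⌊ρ * p / s⌋₊ := ⟨_, rfl⟩
  have hr1 : (rh : ℝ) ≤ ρ * p / s := hrh ▸ Nat.floor_le (by positivity)
  have hr2 : ρ * p / s < rh + 1 := hrh ▸ Nat.lt_floor_add_one _
  have hom0 : ∀ t : ℤ, 0 ≤ σ * g1 (σ * |(t : ℝ)| + σ) := fun t => (mul_pos hσ0 (g1_pos _)).le
  have hom1 : ∀ t : ℤ, σ * g1 (σ * |(t : ℝ)| + σ) ≤ σ := fun t =>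
    mul_le_of_le_one_right hσ0.le (g1_le_one _)
  have hx1 := riem_le hσ0 (le_refl σ) N
  have hx2 := riem_ge hσ0 hσ0.le N
  have hx3 : Real.exp (-(σ * N) ^ 2 / 2) ≤ Real.exp (-s ^ 2 / 2) := by
    have h1 : s ^ 2 ≤ (σ * N) ^ 2 := pow_le_pow_left₀ hs0.le hN3 2
    exact Real.exp_le_exp.2 (by linarith)
  have hy1 : av (fun δ => ∑ ε, psi p s ρ m l k N₀ δ ε) ≤ 1 := av_psi_le hs0 hμ2
  have hy0 : 0 ≤ av (fun δ => ∑ ε, psi p s ρ m l k N₀ δ ε) :=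
    av_nonneg fun δ => Finset.sum_nonneg fun ε _ => psi_nonneg hs0 δ ε
  have hy2 : 1 - k * (2 * Real.exp (-s ^ 2 / 2) + 4 * ρ) - k * s ^ 4 / l ^ 2 - 2 / N₀ ≤
      av (fun δ => ∑ ε, psi p s ρ m l k N₀ δ ε) := by
    refine le_trans ?_ (av_mono fun δ => le_sum_psi hs0 δ)
    rw [av_sub, av_sub, av_prod_pow]
    have h1 := cheb1 (p := p) hs2 hρ0.le (by linarith) hμ2 hm' k hl
    have h2 := cheb2 (p := p) hs0 hμ2 (far_mass hs2 hρ0.le hρ (by linarith)) hN₀ hfar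
    have h3 := one_add_mul_le_pow (a := av (th1 p s ρ) - 1) (by linarith) k
    rw [add_sub_cancel] at h3
    have h4 : (k : ℝ) * (-(2 * Real.exp (-s ^ 2 / 2) + 4 * ρ)) ≤ k * (av (th1 p s ρ) - 1) :=
      mul_le_mul_of_nonneg_left (by linarith) hk0
    linarith
  refine ⟨{
    p := p
    hp := hp
    k := k
    s := s
    σ := σ
    N := N
    T := Finset.Ico (-(N : ℤ)) N
    rh := rh
    om := fun t => σ * g1 (σ * |(t : ℝ)| + σ)
    Psi := psi p s ρ m l k N₀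
    Sig := sig p s ρ m l k
    cst := 1 }, rfl, rfl, {
    s_pos := hs0
    σ_pos := hσ0
    T_sub := fun t ht => ?_
    N_lt := ?_
    rh_pos := ?_
    rh_le := ?_
    cst_pos := one_pos
    α_nonneg := by positivity
    β_nonneg := by positivity
    κ_nonneg := by positivity
    om_nonneg := hom0
    Psi_nonneg := psi_nonneg hs0
    off := fun δ ε h => psi_off h ε
    geo := fun t _ δ ε y₀ y h0 h1 => ?_
    range0 := ?_
    range1 := le_rfl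
    mean_ge := ?_
    mean_le := ?_
    atom := fun t _ δ ε => ?_
    beta := fun t _ δ => ?_
    coll := ?_ }, ?_, ?_⟩
  · have h1 := Finset.mem_Ico.1 ht
    exact abs_le.2 ⟨h1.1, h1.2.le⟩
  · have h1 : (2 * N : ℝ) < p := by linarith
    exact_mod_cast h1
  · have h1 : (1 : ℝ) < rh := by linarith
    exact_mod_cast h1.le
  · have h1 : ρ * p / s ≤ p := by
      rw [div_le_iff₀ hs0, mul_comm]
      exact mul_le_mul_of_nonneg_left (by linarith) hp0.le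
    exact_mod_cast hr1.trans h1
  · change 1 * (σ * g1 (σ * |(t : ℝ)| + σ) * psi p s ρ m l k N₀ δ ε) ≤
      σ * g1 y₀ * ∏ i, s * g1 (y i)
    rw [one_mul]
    have h2 : g1 (σ * |(t : ℝ)| + σ) ≤ g1 y₀ := g1_anti (h0.trans (le_abs_self _))
    refine mul_le_mul (mul_le_mul_of_nonneg_left h2 hσ0.le) ((psi_le hs0 δ ε).trans
      (Finset.prod_le_prod (fun i _ => (f1_pos hs0 _ _).le) fun i _ => ?_)) (psi_nonneg hs0 δ ε)
      (mul_pos hσ0 (g1_pos _)).le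
    have h3 : |y i - s / p * (j1 p (δ i) (ε i) : ℝ)| ≤ s / p * rh := h1 i
    have h4 : s / p * rh ≤ ρ := by
      have h5 := mul_le_mul_of_nonneg_left hr1 (show 0 ≤ s / p by positivity)
      refine h5.trans (le_of_eq ?_)
      field_simp
    have h6 : |y i| ≤ s / p * |(j1 p (δ i) (ε i) : ℝ)| + ρ := by
      have h7 := abs_add_le (y i - s / p * (j1 p (δ i) (ε i) : ℝ)) (s / p * (j1 p (δ i) (ε i) : ℝ))
      rw [sub_add_cancel, abs_mul, abs_of_pos (show 0 < s / p by positivity)] at h7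
      linarith
    exact mul_le_mul_of_nonneg_left (g1_anti (h6.trans (le_abs_self _))) hs0.le
  · change σ * (N + 1) ≤ 2 * s
    linarith
  · change _ ≤ (∑ t ∈ Finset.Ico (-(N : ℤ)) N, σ * g1 (σ * |(t : ℝ)| + σ)) *
      av (fun δ => ∑ ε, psi p s ρ m l k N₀ δ ε)
    have h1 := mul_nonneg (sub_nonneg.2 hx1) (sub_nonneg.2 hy1)
    linarith
  · exact mul_le_one₀ hx1 hy0 hy1
  · change σ * g1 (σ * |(t : ℝ)| + σ) * psi p s ρ m l k N₀ δ ε ≤ _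
    rw [← hσ3, mul_div_assoc]
    exact mul_le_mul (hom1 t) (psi_atom hs0 hρ0.le δ ε) (psi_nonneg hs0 δ ε) hσ0.le
  · change σ * g1 (σ * |(t : ℝ)| + σ) * ∑ ε, psi p s ρ m l k N₀ δ ε ≤ _
    rw [← hσ3]
    exact mul_le_mul (hom1 t) (sum_psi_le_exp hs0 δ)
      (Finset.sum_nonneg fun ε _ => psi_nonneg hs0 δ ε) hσ0.le
  · change (((Finset.Ico (-(N : ℤ)) N).card : ℝ) - 1) * fr (fun δ => δ ∈ sig p s ρ m l k) ≤ _
    have h1 : ((Finset.Ico (-(N : ℤ)) N).card : ℝ) = 2 * N := by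
      have h2 : (Finset.Ico (-(N : ℤ)) N).card = 2 * N := by
        rw [Int.card_Ico]
        omega
      rw [h2]
      push_cast
      rfl
    have h2 := fr_sig (p := p) (m := m) (l := l) (k := k) hs0 hμ2
    rw [hσ4] at h2
    have h3 : 1 ≤ s / σ := by
      rw [le_div_iff₀ hσ0]
      linarith
    rw [h1]
    calc _ ≤ 3 * (s / σ) * (σ * Real.exp (-l)) :=
          mul_le_mul (by linarith) h2 (fr_nonneg _) (by positivity)
      _ = _ := by field_simp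
  · change (4 * N + 1 : ℝ) ≤ _
    have h1 : 1 ≤ s * Real.exp (k * s ^ 2) := one_le_mul_of_one_le_of_one_le (by linarith) hE1
    linarith
  · change (p : ℝ) / rh ≤ _
    have h1 : (0 : ℝ) < rh := by linarith
    rw [div_le_div_iff₀ h1 hρ0]
    have h2 : ρ * p / s ≤ 2 * rh := by linarith
    rw [div_le_iff₀ hs0] at h2
    linarith

end Crest.Agent.R225
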