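import Crest.Agent.R225.BlkMk

/-! Task `R225 BlkNum`: parameters of the blocks. -/

set_option autoImplicit false

namespace Crest.Agent.R225

lemma Blk.Good.mono {B : Blk} {e α β κ Rb e' α' β' κ' Rb' : ℝ} (h : B.Good e α β κ Rb)
    (he : e ≤ e') (hα : α ≤ α') (hβ : β ≤ β') (hκ : κ ≤ κ') (hR : Rb ≤ Rb') :
    B.Good e' α' β' κ' Rb' := by
  exact { h with
    α_nonneg := h.α_nonneg.trans hα
    β_nonneg := h.β_nonneg.trans hβ
    κ_nonneg := h.κ_nonneg.trans hκ
    range0 := h.range0.trans hR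
    range1 := h.range1.trans hR
    mean_ge := le_trans (by linarith) h.mean_ge
    atom := fun t ht δ ε => (h.atom t ht δ ε).trans hα
    beta := fun t ht δ => (h.beta t ht δ).trans hβ
    coll := h.coll.trans hκ }

/-- logarithmic parametrisation `a = e^{5L/7}`, `a^{7/5} = e^L` with `L` huge -/
lemma BlkNum_param : ∃ a₁ : ℝ, ∀ a : ℝ, a₁ ≤ a → ∃ L : ℝ, Real.exp 16 ≤ L ∧
    2000 * L ^ 2 ≤ Real.exp (1 / 100 * L) ∧ a = Real.exp (5 / 7 * L) ∧
    a ^ (7 / 5 : ℝ) = Real.exp L := by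
  refine ⟨Real.exp (Real.exp 16 + 12000000000), fun a ha => ?_⟩
  have ha0 : 0 < a := lt_of_lt_of_le (Real.exp_pos _) ha
  have h1 : Real.exp 16 + 12000000000 ≤ Real.log a := (Real.le_log_iff_exp_le ha0).2 ha
  have h2 := Real.exp_pos 16
  refine ⟨7 / 5 * Real.log a, by linarith, ?_, ?_, ?_⟩
  · generalize hL : 7 / 5 * Real.log a = L
    have h3 : 12000000000 ≤ L := by linarith
    have h4 := Real.pow_div_factorial_le_exp (1 / 100 * L) (by positivity) 3
    refine le_trans ?_ h4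
    norm_num [Nat.factorial]
    nlinarith [sq_nonneg L]
  · rw [show 5 / 7 * (7 / 5 * Real.log a) = Real.log a by ring, Real.exp_log ha0]
  · rw [Real.rpow_def_of_pos ha0, mul_comm]

lemma BlkNum_two_pow {b : ℝ} {N : ℕ} (h : 2 * b ≤ N) : Real.exp b ≤ 2 ^ N := by
  have h1 : (2 : ℝ) ^ N = Real.exp (N * Real.log 2) := by
    rw [Real.exp_nat_mul, Real.exp_log two_pos]
  rw [h1]
  refine Real.exp_le_exp.2 ?_
  have h2 := Real.log_two_gt_d9
  have h3 : (0 : ℝ) ≤ N := Nat.cast_nonneg _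
  nlinarith

/-- `b = a^{7/5}`, `s = √(2.88 log b)` (so `e^{-s²/2} = b^{-1.44}`, `e^{-s²/8} = b^{-0.36}`),
`k = ⌈b^{1.37}⌉₊`, `ρ = b^{-2}`, `l = a / 5` (`a = b^{5/7}`, `l² = b^{10/7}/25`), `N₀ = ⌈2b⌉₊`.
All conditions are of the form `polylog b ≤ b^{c}` eventually (`isLittleO_log_rpow_rpow_atTop`):
`1.37 - 1.44 < -0.04`, `1.37 - 10/7 < -0.04`, `1.37 - 0.36 > 1`. -/
theorem exists_blk : ∃ a₁ : ℝ, ∀ a : ℝ, a₁ ≤ a →
    ∃ B : Blk, B.cst = 1 ∧ B.Intf a (a ^ (7 / 5 : ℝ)) := by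
  obtain ⟨a₁, ha₁⟩ := BlkNum_param
  refine ⟨a₁, fun a ha => ?_⟩
  obtain ⟨L, hL16, hM, rfl, hb⟩ := ha₁ a ha
  rw [hb]
  have h16 : 16 ≤ L := le_trans (by linarith [Real.add_one_le_exp (16 : ℝ)]) hL16
  have hm : ∀ C c : ℝ, C ≤ 2000 → 1 / 100 ≤ c → C * L ^ 2 ≤ Real.exp (c * L) := fun C c hC hc =>
    (mul_le_mul_of_nonneg_right hC (sq_nonneg L)).trans (hM.trans (Real.exp_le_exp.2 (by nlinarith)))
  have hm1 : ∀ C c : ℝ, C ≤ 2000 → 1 / 100 ≤ c → C * L ≤ Real.exp (c * L) := fun C c hC hc =>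
    le_trans (by nlinarith) (hm 2000 c le_rfl hc)
  have hm0 : ∀ C c : ℝ, C ≤ 2000 → 1 / 100 ≤ c → C ≤ Real.exp (c * L) := fun C c hC hc =>
    le_trans (by nlinarith) (hm 2000 c le_rfl hc)
  obtain ⟨s, hs0, hs2⟩ : ∃ s : ℝ, 0 ≤ s ∧ s ^ 2 = 72 / 25 * L :=
    ⟨Real.sqrt (72 / 25 * L), Real.sqrt_nonneg _, Real.sq_sqrt (by positivity)⟩
  have hs8 : Real.exp 8 ≤ s := by
    refine (pow_le_pow_iff_left₀ (Real.exp_pos _).le hs0 two_ne_zero).1 ?_
    rw [hs2, ← Real.exp_nat_mul]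
    norm_num
    linarith
  have hs1 : 1 ≤ s := le_trans (Real.one_le_exp (by norm_num)) hs8
  have hsL : s ≤ 3 * L := by nlinarith
  obtain ⟨k, hk1, hk2⟩ : ∃ k : ℕ, Real.exp (137 / 100 * L) ≤ k ∧
      (k : ℝ) ≤ Real.exp (137 / 100 * L) + 1 :=
    ⟨⌈Real.exp (137 / 100 * L)⌉₊, Nat.le_ceil _, (Nat.ceil_lt_add_one (Real.exp_pos _).le).le⟩
  have hE1 : 1 ≤ Real.exp (137 / 100 * L) := Real.one_le_exp (by positivity)
  have hk3 : (k : ℝ) ≤ 2 * Real.exp (137 / 100 * L) := by linarith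
  obtain ⟨N₀, hN1, hN2⟩ : ∃ N₀ : ℕ, 2 * Real.exp L ≤ N₀ ∧ (N₀ : ℝ) ≤ 2 * Real.exp L + 1 :=
    ⟨⌈2 * Real.exp L⌉₊, Nat.le_ceil _, (Nat.ceil_lt_add_one (by positivity)).le⟩
  have hEL : 1 ≤ Real.exp L := Real.one_le_exp (by positivity)
  have hN0 : 1 ≤ N₀ := by
    have : (1 : ℝ) ≤ N₀ := by linarith
    exact_mod_cast this
  have hsL1 : 2 * s ≤ Real.exp L := by
    have := hm1 6 1 (by norm_num) (by norm_num)
    rw [one_mul] at this
    linarith
  have hρ : Real.exp (-(2 * L)) ≤ 1 / s := by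
    rw [Real.exp_neg, ← one_div]
    refine one_div_le_one_div_of_le (by linarith) ?_
    linarith [hm1 3 2 (by norm_num) (by norm_num)]
  have hσ : Real.exp (-k + 2 * (Real.exp (5 / 7 * L) / 5)) ≤ Real.exp (-(2 * L)) := by
    refine Real.exp_le_exp.2 ?_
    have h1 : Real.exp (5 / 7 * L) ≤ Real.exp (137 / 100 * L) := Real.exp_le_exp.2 (by linarith)
    have h2 := hm1 4 (137 / 100) (by norm_num) (by norm_num)
    linarith
  have e8 : -s ^ 2 / 8 = -(36 / 100 * L) := by rw [hs2]; ring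
  have e2 : -s ^ 2 / 2 = -(144 / 100 * L) := by rw [hs2]; ring
  have hfar : (2 * N₀ : ℝ) ≤ k * (Real.exp (-s ^ 2 / 8) / (25 * s)) := by
    rw [e8, ← mul_div_assoc, le_div_iff₀ (by positivity)]
    have h1 : Real.exp (137 / 100 * L) * Real.exp (-(36 / 100 * L)) =
        Real.exp L * Real.exp (1 / 100 * L) := by
      rw [← Real.exp_add, ← Real.exp_add]; congr 1; ring
    have h2 := hm1 450 (1 / 100) (by norm_num) le_rfl
    calc 2 * (N₀ : ℝ) * (25 * s) ≤ 2 * (3 * Real.exp L) * (25 * (3 * L)) := by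
          gcongr; linarith
      _ = Real.exp L * (450 * L) := by ring
      _ ≤ Real.exp L * Real.exp (1 / 100 * L) := by gcongr
      _ = _ := h1.symm
      _ ≤ k * Real.exp (-(36 / 100 * L)) := by gcongr
  obtain ⟨B, hBk, hBc, hG, hBN, hBp⟩ := blk_make s (Real.exp (-(2 * L)))
    (Real.exp (5 / 7 * L) / 5) k N₀ hs8 (Real.exp_pos _) hρ (by positivity) hσ hN0 hfar
  have hpow : ∀ c : ℝ, Real.exp L ^ c = Real.exp (c * L) := fun c => by
    rw [← Real.exp_mul, mul_comm]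
  have h138 : Real.exp (138 / 100 * L) = Real.exp (137 / 100 * L) * Real.exp (1 / 100 * L) := by
    rw [← Real.exp_add]; congr 1; ring
  refine ⟨B, hBc, hG.mono ?_ ?_ ?_ ?_ hsL1, ?_, ?_, ?_⟩
  · rw [hpow, e2]
    have t1 : ((k : ℝ) + 1) * (2 * Real.exp (-(144 / 100 * L)) + 4 * Real.exp (-(2 * L))) ≤
        Real.exp (-1 / 25 * L) / 3 := by
      have h1 : Real.exp (-(2 * L)) ≤ Real.exp (-(144 / 100 * L)) :=
        Real.exp_le_exp.2 (by linarith)
      have h2 : Real.exp (137 / 100 * L) * Real.exp (-(144 / 100 * L)) *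
          Real.exp (3 / 100 * L) = Real.exp (-1 / 25 * L) := by
        rw [← Real.exp_add, ← Real.exp_add]; congr 1; ring
      have h3 := hm0 54 (3 / 100) (by norm_num) (by norm_num)
      calc _ ≤ (3 * Real.exp (137 / 100 * L)) * (6 * Real.exp (-(144 / 100 * L))) := by
            gcongr <;> linarith
        _ = Real.exp (137 / 100 * L) * Real.exp (-(144 / 100 * L)) * 54 / 3 := by ring
        _ ≤ Real.exp (137 / 100 * L) * Real.exp (-(144 / 100 * L)) *
              Real.exp (3 / 100 * L) / 3 := by gcongr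
        _ = _ := by rw [h2]
    have t2 : (k : ℝ) * s ^ 4 / (Real.exp (5 / 7 * L) / 5) ^ 2 ≤ Real.exp (-1 / 25 * L) / 3 := by
      rw [div_le_iff₀ (by positivity)]
      have h1 : s ^ 4 ≤ 9 * L ^ 2 := by
        have : s ^ 4 = (s ^ 2) ^ 2 := by ring
        rw [this, hs2]
        nlinarith [sq_nonneg L]
      have h2 : Real.exp (137 / 100 * L) * Real.exp (13 / 700 * L) =
          Real.exp (-1 / 25 * L) * Real.exp (5 / 7 * L) ^ 2 := by
        rw [← Real.exp_nat_mul, ← Real.exp_add, ← Real.exp_add]; congr 1; push_cast; ring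
      have h3 := hm 1350 (13 / 700) (by norm_num) (by norm_num)
      calc (k : ℝ) * s ^ 4 ≤ (2 * Real.exp (137 / 100 * L)) * (9 * L ^ 2) := by gcongr
        _ = Real.exp (137 / 100 * L) * (1350 * L ^ 2) / 75 := by ring
        _ ≤ Real.exp (137 / 100 * L) * Real.exp (13 / 700 * L) / 75 := by gcongr
        _ = _ := by rw [h2]; ring
    have t3 : 2 / (N₀ : ℝ) ≤ Real.exp (-1 / 25 * L) / 3 := by
      rw [div_le_iff₀ (by linarith)]
      have h2 : Real.exp (-1 / 25 * L) * Real.exp L = Real.exp (24 / 25 * L) := by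
        rw [← Real.exp_add]; congr 1; ring
      have h3 := hm0 3 (24 / 25) (by norm_num) (by norm_num)
      calc (2 : ℝ) ≤ 2 / 3 * Real.exp (24 / 25 * L) := by linarith
        _ = Real.exp (-1 / 25 * L) / 3 * (2 * Real.exp L) := by rw [← h2]; ring
        _ ≤ _ := by gcongr
    linarith
  · rw [div_le_iff₀ (by positivity)]
    calc Real.exp (3 * (Real.exp (5 / 7 * L) / 5))
        ≤ Real.exp (-(Real.exp L - Real.exp (5 / 7 * L))) * Real.exp (Real.exp L) := by
          rw [← Real.exp_add]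
          exact Real.exp_le_exp.2 (by linarith [Real.exp_pos (5 / 7 * L)])
      _ ≤ _ := mul_le_mul_of_nonneg_left (BlkNum_two_pow hN1) (Real.exp_pos _).le
  · exact Real.exp_le_exp.2 (by linarith)
  · have h1 := hm1 90 (5 / 7) (by norm_num) (by norm_num)
    have h2 := Real.add_one_le_exp (Real.exp (5 / 7 * L) / 10)
    calc 3 * s * Real.exp (-(Real.exp (5 / 7 * L) / 5))
        ≤ Real.exp (Real.exp (5 / 7 * L) / 10) * Real.exp (-(Real.exp (5 / 7 * L) / 5)) := by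
          gcongr; linarith
      _ = _ := by rw [← Real.exp_add]; congr 1; ring
  · rw [hpow, hBk]; exact hk2
  · rw [hpow, h138]
    refine hBN.trans ?_
    have h1 := Real.add_one_le_exp (9 * s)
    have h2 := hm1 33 (1 / 100) (by norm_num) le_rfl
    calc 9 * s * Real.exp (k * s ^ 2) ≤ Real.exp (9 * s) * Real.exp (k * s ^ 2) := by
          gcongr; linarith
      _ = Real.exp (9 * s + k * s ^ 2) := (Real.exp_add _ _).symm
      _ ≤ _ := by
          refine Real.exp_le_exp.2 ?_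
          have h3 : (k : ℝ) * s ^ 2 ≤ 2 * Real.exp (137 / 100 * L) * (3 * L) := by
            gcongr; linarith
          have h4 : 27 * L ≤ Real.exp (137 / 100 * L) * (27 * L) :=
            le_mul_of_one_le_left (by positivity) hE1
          have h5 := mul_le_mul_of_nonneg_left h2 (Real.exp_pos (137 / 100 * L)).le
          linarith
  · rw [hpow, h138, hBk]
    have h1 : (B.p : ℝ) / B.rh ≤ Real.exp (3 * L) := by
      refine hBp.trans ?_
      rw [div_le_iff₀ (Real.exp_pos _), ← Real.exp_add]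
      exact hsL1.trans (le_of_eq (by congr 1; ring))
    have h2 := hm1 6 (1 / 100) (by norm_num) le_rfl
    calc ((B.p : ℝ) / B.rh) ^ k ≤ Real.exp (3 * L) ^ k := by gcongr
      _ = Real.exp (k * (3 * L)) := (Real.exp_nat_mul _ _).symm
      _ ≤ _ := by
          refine Real.exp_le_exp.2 ?_
          have h3 : (k : ℝ) * (3 * L) ≤ 2 * Real.exp (137 / 100 * L) * (3 * L) := by gcongr
          have h5 := mul_le_mul_of_nonneg_left h2 (Real.exp_pos (137 / 100 * L)).le
          linarith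

/-- the deterministic block -/
noncomputable def BlkNum_base (k : ℕ) : Blk where
  p := 2
  hp := Nat.prime_two
  k := k
  s := 1
  σ := 1
  N := 0
  T := {0}
  rh := 1
  om := fun _ => 1
  Psi := fun _ _ => (1 / 2) ^ k
  Sig := Finset.univ
  cst := g1 2 ^ (k + 1)

/-- The deterministic block: `p = 2`, `s = σ = 1`, `N = 0`, `T = {0}`, `rh = 1`, `om = 1`,
`Psi = 2^{-k}`, `Sig = univ`, `cst = g1 2 ^ (k+1)`. -/
theorem exists_base (k : ℕ) : ∃ B : Blk, B.k = k ∧ B.Good 0 ((1 / 2) ^ k) 1 0 2 ∧ B.N = 0 ∧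
    B.p = 2 ∧ B.rh = 1 ∧ ∀ g u, B.mul g u = 1 := by
  have hth : ∀ δ, (BlkNum_base k).th δ = 1 := fun δ => by
    show ∑ _ε : Fin k → Bool, (1 / 2 : ℝ) ^ k = 1
    rw [Finset.sum_const, Finset.card_univ, Fintype.card_fun, Fintype.card_bool, Fintype.card_fin]
    simp
  refine ⟨BlkNum_base k, rfl, ?_, rfl, rfl, rfl, fun g u => ?_⟩
  · have hav : av (BlkNum_base k).th = 1 := by
      rw [show (BlkNum_base k).th = fun _ => 1 from funext hth]
      exact av_const 1
    have hT : (BlkNum_base k).T = {0} := rfl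
    have hom : ∀ t, (BlkNum_base k).om t = 1 := fun _ => rfl
    have hPsi : ∀ δ ε, (BlkNum_base k).Psi δ ε = (1 / 2) ^ k := fun _ _ => rfl
    refine
      { s_pos := one_pos
        σ_pos := one_pos
        T_sub := fun t ht => by simp [BlkNum_base] at ht ⊢; exact ht
        N_lt := by simp [BlkNum_base]
        rh_pos := le_rfl
        rh_le := one_le_two
        cst_pos := pow_pos (g1_pos _) _
        α_nonneg := by positivity
        β_nonneg := zero_le_one
        κ_nonneg := le_rfl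
        om_nonneg := fun _ => zero_le_one
        Psi_nonneg := fun δ ε => by rw [hPsi]; positivity
        off := fun δ ε h => absurd (Finset.mem_univ δ) h
        geo := fun t ht δ ε y₀ y h0 hy => ?_
        range0 := by simp [BlkNum_base]
        range1 := by simp [BlkNum_base]
        mean_ge := by rw [hav, hT]; simp [hom]
        mean_le := by rw [hav, hT]; simp [hom]
        atom := fun t _ δ ε => by rw [hom, hPsi, one_mul]
        beta := fun t _ δ => by rw [hom, hth, one_mul]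
        coll := by rw [hT]; simp }
    obtain rfl : t = 0 := Finset.mem_singleton.1 ht
    have h0' : |y₀| ≤ |(2 : ℝ)| := by
      have : |y₀| ≤ 1 * |((0 : ℤ) : ℝ)| + 1 := h0
      simp at this
      rw [abs_two]; linarith
    have hy' : ∀ i, |y i| ≤ |(2 : ℝ)| := fun i => by
      have h1 : |y i - 1 / ((2 : ℕ) : ℝ) * ((BlkNum_base k).jj δ ε i : ℝ)| ≤
          1 / ((2 : ℕ) : ℝ) * ((1 : ℕ) : ℝ) := hy i
      have h2 : (δ i).val < 2 := ZMod.val_lt (n := 2) (δ i)
      have h3 : (BlkNum_base k).jj δ ε i = ((δ i).val : ℤ) - if ε i then ((2 : ℕ) : ℤ) else 0 := rfl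
      have h4 : -2 ≤ (BlkNum_base k).jj δ ε i ∧ (BlkNum_base k).jj δ ε i ≤ 2 := by
        rw [h3]; split_ifs <;> omega
      have h5 : (-2 : ℝ) ≤ (BlkNum_base k).jj δ ε i := by exact_mod_cast h4.1
      have h6 : ((BlkNum_base k).jj δ ε i : ℝ) ≤ 2 := by exact_mod_cast h4.2
      rw [abs_le] at h1
      push_cast at h1
      rw [abs_two, abs_le]
      constructor <;> linarith [h1.1, h1.2]
    have h7 : g1 2 ^ k ≤ ∏ i : Fin k, 1 * g1 (y i) := by
      have := Finset.prod_le_prod (s := Finset.univ) (f := fun _ : Fin k => g1 2)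
        (g := fun i => 1 * g1 (y i)) (fun _ _ => (g1_pos _).le)
        (fun i _ => by rw [one_mul]; exact g1_anti (hy' i))
      simpa using this
    show g1 2 ^ (k + 1) * (1 * (1 / 2) ^ k) ≤ 1 * g1 y₀ * ∏ i : Fin k, 1 * g1 (y i)
    have h8 : (1 / 2 : ℝ) ^ k ≤ 1 := pow_le_one₀ (by norm_num) (by norm_num)
    have h9 := g1_pos 2
    calc g1 2 ^ (k + 1) * (1 * (1 / 2) ^ k) ≤ g1 2 ^ (k + 1) * (1 * 1) := by gcongr
      _ = 1 * g1 2 * g1 2 ^ k := by ring
      _ ≤ _ := by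
          gcongr
          · exact mul_nonneg zero_le_one (g1_pos _).le
          · exact g1_anti h0'
  · rw [← hth (u - (0 : ℤ) • g)]
    unfold Blk.mul Blk.th Blk.wt
    rw [show (BlkNum_base k).T = {0} from rfl, Finset.sum_singleton]
    refine Finset.sum_congr rfl fun ε _ => ?_
    rw [if_pos fun t' ht' hne => absurd (Finset.mem_singleton.1 ht') hne]
    exact one_mul _

/-- The base block has the numerical interface. -/
theorem exists_base_intf : ∃ a₁ : ℝ, ∀ a : ℝ, a₁ ≤ a →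
    ∃ B : Blk, B.Intf a (a ^ (7 / 5 : ℝ)) ∧ ∀ g u, B.mul g u = 1 := by
  obtain ⟨a₁, ha₁⟩ := BlkNum_param
  refine ⟨a₁, fun a ha => ?_⟩
  obtain ⟨L, hL16, hM, rfl, hb⟩ := ha₁ a ha
  rw [hb]
  have h16 : 16 ≤ L := le_trans (by linarith [Real.add_one_le_exp (16 : ℝ)]) hL16
  obtain ⟨k, hk1, hk2⟩ : ∃ k : ℕ, 2 * Real.exp L ≤ k ∧ (k : ℝ) ≤ 2 * Real.exp L + 1 :=
    ⟨⌈2 * Real.exp L⌉₊, Nat.le_ceil _, (Nat.ceil_lt_add_one (by positivity)).le⟩
  obtain ⟨B, hBk, hG, hN, hp, hrh, hmul⟩ := exists_base k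
  have hpow : ∀ c : ℝ, Real.exp L ^ c = Real.exp (c * L) := fun c => by
    rw [← Real.exp_mul, mul_comm]
  have hEL : 2 ≤ Real.exp L := by linarith [Real.add_one_le_exp L]
  have h3 : ∀ c : ℝ, 137 / 100 ≤ c → 3 * Real.exp L ≤ Real.exp (c * L) := fun c hc => by
    have h1 : Real.exp (c * L) = Real.exp ((c - 1) * L) * Real.exp L := by
      rw [← Real.exp_add]; congr 1; ring
    have h2 : 3 ≤ Real.exp ((c - 1) * L) := by
      have := Real.add_one_le_exp ((c - 1) * L)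
      nlinarith
    rw [h1]
    gcongr
  refine ⟨B, ⟨hG.mono (by positivity) ?_ (Real.one_le_exp (by positivity)) (Real.exp_pos _).le hEL,
    ?_, ?_, ?_⟩, hmul⟩
  · calc (1 / 2 : ℝ) ^ k = (2 ^ k)⁻¹ := by rw [one_div, inv_pow]
      _ ≤ (Real.exp (Real.exp L))⁻¹ := inv_anti₀ (Real.exp_pos _) (BlkNum_two_pow hk1)
      _ = Real.exp (-Real.exp L) := (Real.exp_neg _).symm
      _ ≤ _ := Real.exp_le_exp.2 (by linarith [Real.exp_pos (5 / 7 * L)])
  · rw [hpow, hBk]
    linarith [h3 _ le_rfl]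
  · rw [hN]
    simpa using Real.one_le_exp (x := Real.exp L ^ (138 / 100 : ℝ)) (by positivity)
  · rw [hpow, hBk, hp, hrh]
    have h4 : (2 : ℝ) ≤ Real.exp 1 := by linarith [Real.add_one_le_exp (1 : ℝ)]
    calc (((2 : ℕ) : ℝ) / ((1 : ℕ) : ℝ)) ^ k = 2 ^ k := by norm_num
      _ ≤ Real.exp 1 ^ k := by gcongr
      _ = Real.exp (k * 1) := (Real.exp_nat_mul _ _).symm
      _ ≤ _ := Real.exp_le_exp.2 (by linarith [h3 (138 / 100) (by norm_num)])

end Crest.Agent.R225
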