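import Crest.Agent.R225.SDefs

/-! Task `R225 Bonf`: Bonferroni with linear dependencies. -/

set_option autoImplicit false

namespace Crest.Agent.R225

section Aux

open Finset

lemma bonf_cover {ι κ : Type} (D : Finset ι) (Z : Finset κ) (U : κ → Finset ι) (g : ι → ℝ)
    (hg : ∀ b, 0 ≤ g b) (h : ∀ b ∈ D, ∃ p ∈ Z, b ∈ U p) :
    ∑ b ∈ D, g b ≤ ∑ p ∈ Z, ∑ b ∈ U p, g b := by
  classical
  calc ∑ b ∈ D, g b ≤ ∑ b ∈ D, ∑ p ∈ Z, (if b ∈ U p then g b else 0) := by
        refine sum_le_sum fun b hb => ?_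
        obtain ⟨p, hp, hbp⟩ := h b hb
        refine le_trans ?_ (single_le_sum (f := fun p => if b ∈ U p then g b else 0)
          (fun q _ => by split_ifs; exacts [hg b, le_rfl]) hp)
        simp [hbp]
    _ = ∑ p ∈ Z, ∑ b ∈ D, (if b ∈ U p then g b else 0) := sum_comm
    _ ≤ _ := by
        refine sum_le_sum fun p _ => ?_
        rw [← sum_filter]
        exact sum_le_sum_of_subset_of_nonneg (fun b hb => (mem_filter.1 hb).2) fun b _ _ => hg b

lemma bonf_sum_pow {α : Type} (T : Finset α) (a : ℝ) :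
    ∑ B ∈ T.powerset, a ^ B.card = (a + 1) ^ T.card := by
  simpa using sum_pow_mul_eq_add_pow a 1 T

lemma bonf_alt {α : Type} (T : Finset α) {j : ℕ} (hj : Even j) :
    0 ≤ ∑ B ∈ T.powerset with B.card ≤ j, (-1 : ℝ) ^ B.card := by
  have h1 : ∑ B ∈ T.powerset with B.card ≤ j, (-1 : ℝ) ^ B.card =
      ∑ i ∈ range (j + 1), (-1 : ℝ) ^ i * T.card.choose i := by
    rw [← sum_fiberwise_of_maps_to (g := Finset.card) (t := range (j + 1))
      (fun B hB => mem_range.2 (Nat.lt_succ_of_le (mem_filter.1 hB).2))]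
    refine sum_congr rfl fun i hi => ?_
    have h2 : ({B ∈ T.powerset | B.card ≤ j}.filter fun B => B.card = i) = T.powersetCard i := by
      ext B
      have := mem_range.1 hi
      simp only [mem_filter, mem_powerset, mem_powersetCard]
      constructor
      · rintro ⟨⟨h, -⟩, h'⟩; exact ⟨h, h'⟩
      · rintro ⟨h, h'⟩; exact ⟨⟨h, by omega⟩, h'⟩
    rw [h2, sum_congr rfl (g := fun _ => (-1 : ℝ) ^ i)
      (fun B hB => by rw [(mem_powersetCard.1 hB).2]), sum_const, card_powersetCard,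
      nsmul_eq_mul, mul_comm]
  rw [h1]
  rcases T.card with _ | n
  · rw [sum_range_succ']
    simp
  · have h := @Int.alternating_sum_range_choose_eq_choose n j
    have h' : (∑ i ∈ range (j + 1), (-1 : ℝ) ^ i * (n + 1).choose i) = (-1) ^ j * n.choose j := by
      exact_mod_cast h
    rw [h', hj.neg_one_pow]
    positivity

lemma bonf_trunc {α : Type} (S : Finset α) {x : ℝ} (hx0 : 0 ≤ x) (hx1 : x ≤ 1) (j : ℕ) :
    ∑ B ∈ S.powerset with B.card ≤ j, (-x) ^ B.card ≤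
      Real.exp (-(S.card * x)) + Real.exp (2 * S.card * x) / 2 ^ j := by
  have h1 : ∑ B ∈ S.powerset with B.card ≤ j, (-x) ^ B.card ≤
      ∑ B ∈ S.powerset, ((-x) ^ B.card + (2 * x) ^ B.card / 2 ^ j) := by
    rw [sum_filter]
    refine sum_le_sum fun B _ => ?_
    split_ifs with h
    · exact le_add_of_nonneg_right (by positivity)
    · have h2 : -x ^ B.card ≤ (-x) ^ B.card := by
        have := neg_abs_le ((-x) ^ B.card)
        rwa [abs_pow, abs_neg, abs_of_nonneg hx0] at this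
      have h3 : x ^ B.card ≤ (2 * x) ^ B.card / 2 ^ j := by
        rw [le_div_iff₀ (by positivity), mul_pow, mul_comm]
        exact mul_le_mul_of_nonneg_right (pow_le_pow_right₀ one_le_two (by omega))
          (by positivity)
      linarith
  rw [sum_add_distrib, ← sum_div, bonf_sum_pow, bonf_sum_pow] at h1
  refine h1.trans (add_le_add ?_ (div_le_div_of_nonneg_right ?_ (by positivity)))
  · rw [← mul_neg, Real.exp_nat_mul]
    exact pow_le_pow_left₀ (by linarith) (Real.add_one_le_exp _) _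
  · rw [mul_right_comm, mul_comm (2 * x), Real.exp_nat_mul]
    exact pow_le_pow_left₀ (by linarith) (Real.add_one_le_exp _) _

variable {α V : Type} [DecidableEq α] [AddCommGroup V] [Module ℚ V]

lemma bonf_sup (S C : Finset α) {x : ℝ} (hx0 : 0 ≤ x) :
    ∑ B ∈ (S \ C).powerset.image (C ∪ ·), x ^ B.card ≤
      x ^ C.card * Real.exp (S.card * x) := by
  rw [sum_image]
  · have h1 : ∑ R ∈ (S \ C).powerset, x ^ (C ∪ R).card =
        x ^ C.card * ∑ R ∈ (S \ C).powerset, x ^ R.card := by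
      rw [mul_sum]
      refine sum_congr rfl fun R hR => ?_
      rw [card_union_of_disjoint (disjoint_sdiff.mono_right (mem_powerset.1 hR)), pow_add]
    rw [h1, bonf_sum_pow, Real.exp_nat_mul]
    refine mul_le_mul_of_nonneg_left ?_ (by positivity)
    exact (pow_le_pow_right₀ (by linarith) (card_le_card sdiff_subset)).trans
      (pow_le_pow_left₀ (by linarith) (Real.add_one_le_exp _) _)
  · intro R hR R' hR' h
    have h1 := disjoint_sdiff.mono_right (mem_powerset.1 (mem_coe.1 hR))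
    have h2 := disjoint_sdiff.mono_right (mem_powerset.1 (mem_coe.1 hR'))
    have h3 : (C ∪ R) \ C = (C ∪ R') \ C := congrArg (· \ C) h
    rwa [union_sdiff_cancel_left h1, union_sdiff_cancel_left h2] at h3

lemma bonf_ext (vec : α → V) {B D : Finset α} (hB : LinearIndepOn ℚ vec (B : Set α))
    (hD : ¬ LinearIndepOn ℚ vec (D : Set α)) :
    ∃ C : Finset α, B ⊆ C ∧ C ⊆ B ∪ D ∧ LinearIndepOn ℚ vec (C : Set α) ∧
      ∃ y ∈ D, y ∉ C ∧ vec y ∈ Submodule.span ℚ (vec '' (C : Set α)) := by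
  classical
  obtain ⟨b, hb, hBb, hsp, hi⟩ := exists_linearIndepOn_extension hB
    (t := ((B ∪ D : Finset α) : Set α)) (coe_subset.2 subset_union_left)
  have hC : (((B ∪ D).filter (· ∈ b) : Finset α) : Set α) = b := by
    ext a
    simp only [coe_filter, Set.mem_ofPred_eq]
    exact ⟨fun h => h.2, fun h => ⟨hb h, h⟩⟩
  refine ⟨(B ∪ D).filter (· ∈ b), fun a ha => mem_filter.2 ⟨mem_union_left _ ha, hBb ha⟩,
    filter_subset _ _, by rwa [hC], ?_⟩
  by_contra hn
  refine hD (hi.mono fun y hy => ?_)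
  by_contra hy'
  refine hn ⟨y, hy, fun h => hy' (mem_filter.1 h).2, ?_⟩
  rw [hC]
  exact hsp ⟨y, mem_coe.2 (mem_union_right _ hy), rfl⟩

open Classical in
/-- Pairs (independent set of size `≤ n`, further point in its span). -/
noncomputable def bonfZ (S : Finset α) (vec : α → V) (n : ℕ) : Finset (Finset α × α) :=
  (S.powerset ×ˢ S).filter fun p => p.1.card ≤ n ∧ LinearIndepOn ℚ vec (p.1 : Set α) ∧
    p.2 ∉ p.1 ∧ vec p.2 ∈ Submodule.span ℚ (vec '' (p.1 : Set α))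

lemma mem_bonfZ {S : Finset α} {vec : α → V} {n : ℕ} {p : Finset α × α} :
    p ∈ bonfZ S vec n ↔ (p.1 ⊆ S ∧ p.2 ∈ S) ∧ p.1.card ≤ n ∧ LinearIndepOn ℚ vec (p.1 : Set α) ∧
      p.2 ∉ p.1 ∧ vec p.2 ∈ Submodule.span ℚ (vec '' (p.1 : Set α)) := by
  simp only [bonfZ, mem_filter, mem_product, mem_powerset]

lemma sum_bonfZ (S : Finset α) (vec : α → V) (n : ℕ) (f : ℕ → ℝ) :
    ∑ p ∈ bonfZ S vec n, f p.1.card = ∑ r ∈ range (n + 1), f r * Zp S vec r := by
  classical
  rw [← sum_fiberwise_of_maps_to (g := fun p : Finset α × α => p.1.card) (t := range (n + 1))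
    (fun p hp => mem_range.2 (Nat.lt_succ_of_le (mem_bonfZ.1 hp).2.1))]
  refine sum_congr rfl fun r hr => ?_
  rw [sum_congr rfl (g := fun _ => f r) (fun p hp => by rw [(mem_filter.1 hp).2]), sum_const,
    nsmul_eq_mul, mul_comm, Zp]
  congr 3
  ext p
  have := mem_range.1 hr
  simp only [mem_filter, mem_bonfZ, mem_product, mem_powersetCard]
  constructor
  · rintro ⟨⟨⟨h1, h2⟩, -, h3⟩, h4⟩; exact ⟨⟨⟨h1, h4⟩, h2⟩, h3⟩
  · rintro ⟨⟨⟨h1, h4⟩, h2⟩, h3⟩; exact ⟨⟨⟨h1, h2⟩, by omega, h3⟩, h4⟩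

open Classical in
/-- Independent subsets of size `≤ j`. -/
noncomputable def bonfI (S : Finset α) (vec : α → V) (j : ℕ) : Finset (Finset α) :=
  S.powerset.filter fun B => B.card ≤ j ∧ LinearIndepOn ℚ vec (B : Set α)

omit [DecidableEq α] in
lemma mem_bonfI {S : Finset α} {vec : α → V} {j : ℕ} {B : Finset α} :
    B ∈ bonfI S vec j ↔ B ⊆ S ∧ B.card ≤ j ∧ LinearIndepOn ℚ vec (B : Set α) := by
  simp only [bonfI, mem_filter, mem_powerset]

lemma bonf_det {S T : Finset α} (hT : T ⊆ S) (vec : α → V) {j : ℕ} (hj : Even j) :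
    (if T = ∅ then (1 : ℝ) else 0) ≤ ∑ B ∈ bonfI T vec j, (-1 : ℝ) ^ B.card +
      ∑ p ∈ bonfZ S vec (2 * j) with p.1 ⊆ T, (2 : ℝ) ^ p.1.card := by
  have h0 : 0 ≤ ∑ p ∈ bonfZ S vec (2 * j) with p.1 ⊆ T, (2 : ℝ) ^ p.1.card :=
    sum_nonneg fun _ _ => by positivity
  split_ifs with h
  · have h1 : bonfI T vec j = {∅} := by
      ext B
      rw [mem_bonfI, mem_singleton, h, subset_empty]
      exact ⟨fun h => h.1, fun h => ⟨h, by simp [h], by simp [h]⟩⟩
    rw [h1, sum_singleton, card_empty, pow_zero]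
    linarith
  by_cases hD : ∃ D ⊆ T, D.card ≤ j ∧ ¬ LinearIndepOn ℚ vec (D : Set α)
  · obtain ⟨D, hDT, hDj, hD⟩ := hD
    have h1 := bonf_cover (bonfI T vec j) ((bonfZ S vec (2 * j)).filter fun p => p.1 ⊆ T)
      (fun p => p.1.powerset) (fun _ => 1) (fun _ => zero_le_one) fun B hB => by
        obtain ⟨hBT, hBj, hB⟩ := mem_bonfI.1 hB
        obtain ⟨C, hBC, hC, hCi, y, hy, hyC, hsp⟩ := bonf_ext vec hB hD
        have hCT : C ⊆ T := hC.trans (union_subset hBT hDT)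
        have hcard : C.card ≤ 2 * j := by
          have := (card_le_card hC).trans (card_union_le B D)
          omega
        exact ⟨(C, y), mem_filter.2 ⟨mem_bonfZ.2 ⟨⟨hCT.trans hT, hT (hDT hy)⟩, hcard, hCi, hyC,
          hsp⟩, hCT⟩, mem_powerset.2 hBC⟩
    simp only [sum_const (s := powerset _), card_powerset, nsmul_eq_mul, mul_one, Nat.cast_pow,
      Nat.cast_ofNat] at h1
    have h2 : ∑ B ∈ bonfI T vec j, (-1 : ℝ) ≤ ∑ B ∈ bonfI T vec j, (-1 : ℝ) ^ B.card :=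
      sum_le_sum fun B _ => by rcases neg_one_pow_eq_or ℝ B.card with h | h <;> simp [h]
    rw [sum_neg_distrib] at h2
    linarith
  · push Not at hD
    have h1 : bonfI T vec j = T.powerset.filter fun B => B.card ≤ j := by
      ext B
      rw [mem_bonfI, mem_filter, mem_powerset]
      exact ⟨fun h => ⟨h.1, h.2.1⟩, fun h => ⟨h.1, h.2, hD B h.1 h.2⟩⟩
    rw [h1]
    exact add_nonneg (bonf_alt T hj) h0

lemma bonf_indep (S : Finset α) (vec : α → V) {x : ℝ} (hx0 : 0 ≤ x) (hx1 : x ≤ 1) (j : ℕ)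
    (hx : x * Real.exp (S.card * x) ≤ 1) :
    ∑ B ∈ bonfI S vec j, (-x) ^ B.card ≤
      Real.exp (-(S.card * x)) + Real.exp (2 * S.card * x) / 2 ^ j +
        ∑ p ∈ bonfZ S vec (2 * j), (2 * x) ^ p.1.card := by
  classical
  have h1 := sum_filter_add_sum_filter_not (S.powerset.filter fun B => B.card ≤ j)
    (fun B : Finset α => LinearIndepOn ℚ vec (B : Set α)) (fun B => (-x) ^ B.card)
  have h2 : (S.powerset.filter fun B => B.card ≤ j).filter
      (fun B : Finset α => LinearIndepOn ℚ vec (B : Set α)) = bonfI S vec j := by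
    ext B
    simp only [mem_bonfI, mem_filter, mem_powerset, and_assoc]
  rw [h2] at h1
  obtain ⟨D, hD⟩ : ∃ D, D = (S.powerset.filter fun B => B.card ≤ j).filter
      (fun B : Finset α => ¬ LinearIndepOn ℚ vec (B : Set α)) := ⟨_, rfl⟩
  rw [← hD] at h1
  have h3 : ∑ B ∈ D, -x ^ B.card ≤ ∑ B ∈ D, (-x) ^ B.card := sum_le_sum fun B _ => by
    have := neg_abs_le ((-x) ^ B.card)
    rwa [abs_pow, abs_neg, abs_of_nonneg hx0] at this
  rw [sum_neg_distrib] at h3
  have h4 := bonf_cover D (bonfZ S vec (2 * j))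
    (fun p => (S \ insert p.2 p.1).powerset.image (insert p.2 p.1 ∪ ·)) (fun B => x ^ B.card)
    (fun _ => by positivity) fun B hB => by
      rw [hD, mem_filter, mem_filter, mem_powerset] at hB
      obtain ⟨⟨hBS, hBj⟩, hB⟩ := hB
      obtain ⟨C, -, hC, hCi, y, hy, hyC, hsp⟩ := bonf_ext vec (B := ∅) (by simp) hB
      rw [empty_union] at hC
      have hcard : C.card ≤ 2 * j := by
        have := card_le_card hC
        omega
      refine ⟨(C, y), mem_bonfZ.2 ⟨⟨hC.trans hBS, hBS hy⟩, hcard, hCi, hyC, hsp⟩,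
        mem_image.2 ⟨B \ insert y C, mem_powerset.2 (sdiff_subset_sdiff hBS subset_rfl), ?_⟩⟩
      exact union_sdiff_of_subset (insert_subset hy hC)
  have h5 : ∑ p ∈ bonfZ S vec (2 * j), ∑ B ∈ (S \ insert p.2 p.1).powerset.image
      (insert p.2 p.1 ∪ ·), x ^ B.card ≤ ∑ p ∈ bonfZ S vec (2 * j), (2 * x) ^ p.1.card := by
    refine sum_le_sum fun p hp => (bonf_sup S _ hx0).trans ?_
    rw [card_insert_of_notMem (mem_bonfZ.1 hp).2.2.2.1, pow_succ, mul_assoc]
    exact (mul_le_of_le_one_right (by positivity) hx).trans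
      (pow_le_pow_left₀ hx0 (by linarith) _)
  have h6 := bonf_trunc S hx0 hx1 j
  linarith

end Aux

/-- `Sel o = S.filter (sel o)`. Let `Dep o` be the event: some independent `B' ⊆ Sel o`,
`|B'| ≤ j`, has a point `y ∈ S \ B'` with `vec y ∈ span B'`. If `Zp S vec 0 ≠ 0` the bound is
trivial. Otherwise `1[Sel = ∅] ≤ 1[¬Dep] ∑_{i ≤ j} (-1)^i C(|Sel|, i)`
(`Int.alternating_sum_range_choose_eq_choose`, `j` even); on `¬Dep` all `B ⊆ Sel`, `|B| ≤ j`, are
independent. So the mean is `≤ ∑ (-1)^i C(N,i) x^i + ∑_i Dep_i x^i + E[1_Dep #{indep B ⊆ Sel,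
|B| ≤ j}]`. First sum `≤ (1-x)^N + 2^{-j} (1+2x)^N`. A dependent `i`-set is `B' ∪ {y} ∪ rest`, so
`∑ Dep_i x^i ≤ ∑_r Zp_r x^{r+1} (1+x)^N`. For the last term extend `B` to a maximal independent
`B'' ⊆ B ∪ B'`, `|B''| ≤ 2j`; either `y ∉ B''` or some point of `B' \ B''` lies in `span B''`,
so the count is `≤ ∑_{(B'',y') , B'' ⊆ Sel} 2^{|B''|}`, of mean `∑_r (2x)^r Zp_r`. -/
theorem bonf {O α V : Type} [Fintype O] [Nonempty O] [DecidableEq α] [AddCommGroup V]
    [Module ℚ V] (S : Finset α) (vec : α → V) (sel : O → α → Prop) (x : ℝ) (hx0 : 0 ≤ x)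
    (hx1 : x ≤ 1) (j : ℕ) (hj : Even j)
    (hsel : ∀ B ⊆ S, B.card ≤ 2 * j → LinearIndepOn ℚ vec (B : Set α) →
      fr (fun o => ∀ a ∈ B, sel o a) = x ^ B.card)
    (hx : x * Real.exp (S.card * x) ≤ 1) :
    fr (fun o => ∀ a ∈ S, ¬ sel o a) ≤
      Real.exp (-(S.card * x)) + Real.exp (2 * S.card * x) / 2 ^ j +
        2 * ∑ r ∈ Finset.range (2 * j + 1), (2 * x) ^ r * Zp S vec r := by
  classical
  have key : ∀ o, (if ∀ a ∈ S, ¬ sel o a then (1 : ℝ) else 0) ≤
      ∑ B ∈ bonfI S vec j, (-1 : ℝ) ^ B.card * (if ∀ a ∈ B, sel o a then 1 else 0) +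
      ∑ p ∈ bonfZ S vec (2 * j), (2 : ℝ) ^ p.1.card * (if ∀ a ∈ p.1, sel o a then 1 else 0) := by
    intro o
    have h := bonf_det (Finset.filter_subset (sel o) S) vec hj
    have h1 : bonfI (S.filter (sel o)) vec j =
        (bonfI S vec j).filter fun B => ∀ a ∈ B, sel o a := by
      ext B
      simp only [mem_bonfI, Finset.mem_filter, Finset.subset_iff]
      exact ⟨fun h => ⟨⟨fun a ha => (h.1 ha).1, h.2⟩, fun a ha => (h.1 ha).2⟩,
        fun h => ⟨fun a ha => ⟨h.1.1 ha, h.2 a ha⟩, h.1.2⟩⟩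
    have h2 : ((bonfZ S vec (2 * j)).filter fun p => p.1 ⊆ S.filter (sel o)) =
        (bonfZ S vec (2 * j)).filter fun p => ∀ a ∈ p.1, sel o a :=
      Finset.filter_congr fun p hp => ⟨fun h a ha => (Finset.mem_filter.1 (h ha)).2,
        fun h a ha => Finset.mem_filter.2 ⟨(mem_bonfZ.1 hp).1.1 ha, h a ha⟩⟩
    rw [h1, h2, Finset.sum_filter, Finset.sum_filter] at h
    simp only [Finset.filter_eq_empty_iff] at h
    simpa only [mul_ite, mul_one, mul_zero] using h
  rw [fr_eq_av]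
  refine (av_mono key).trans ?_
  rw [av_add, av_sum, av_sum]
  simp only [av_const_mul, ← fr_eq_av]
  have e1 : ∑ B ∈ bonfI S vec j, (-1 : ℝ) ^ B.card * fr (fun o => ∀ a ∈ B, sel o a) =
      ∑ B ∈ bonfI S vec j, (-x) ^ B.card := Finset.sum_congr rfl fun B hB => by
    obtain ⟨h1, h2, h3⟩ := mem_bonfI.1 hB
    rw [hsel B h1 (by omega) h3, ← mul_pow, neg_one_mul]
  have e2 : ∑ p ∈ bonfZ S vec (2 * j), (2 : ℝ) ^ p.1.card * fr (fun o => ∀ a ∈ p.1, sel o a) =
      ∑ p ∈ bonfZ S vec (2 * j), (2 * x) ^ p.1.card := Finset.sum_congr rfl fun p hp => by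
    obtain ⟨h1, h2, h3, -⟩ := mem_bonfZ.1 hp
    rw [hsel _ h1.1 h2 h3, mul_pow]
  have h3 := bonf_indep S vec hx0 hx1 j hx
  rw [e1, e2, ← sum_bonfZ S vec (2 * j) fun r => (2 * x) ^ r]
  linarith

end Crest.Agent.R225
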