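import Crest.Agent.R225.MDefs
import Crest.Agent.Lib.PrekopaLeindler.Basic

/-! Task `R225 Brunn`: consequences of the midpoint Prékopa–Leindler inequality. -/

set_option autoImplicit false
open MeasureTheory

namespace Crest.Agent.R225

/-- Midpoint Brunn–Minkowski on `κ → ℝ` (`plProp_pi`, transported along
`Fintype.equivFin` / `MeasurableEquiv.piCongrLeft`). -/
theorem bm_mid {κ : Type} [Fintype κ] {A B C : Set (κ → ℝ)} (hA : MeasurableSet A)
    (hB : MeasurableSet B) (hC : MeasurableSet C) (hC' : volume C ≠ ⊤)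
    (h : ∀ x ∈ A, ∀ y ∈ B, (fun i => (x i + y i) / 2) ∈ C) :
    volume.real A * volume.real B ≤ volume.real C ^ 2 := by
  have hP : Lib.PrekopaLeindler.PLProp (volume : Measure (κ → ℝ))
      (fun x y => fun i => (x i + y i) / 2) :=
    Lib.PrekopaLeindler.PLProp.of_measurableEquiv
      (MeasurableEquiv.piCongrLeft (fun _ : κ => ℝ) (Fintype.equivFin κ).symm).symm
      (volume_measurePreserving_piCongrLeft (fun _ : κ => ℝ) (Fintype.equivFin κ).symm).symm
      (fun _ _ => rfl) (Lib.PrekopaLeindler.plProp_pi _)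
  have h1 := hP (A.indicator 1) (B.indicator 1) (C.indicator 1) (measurable_one.indicator hA)
    (measurable_one.indicator hB) (measurable_one.indicator hC) fun x y => by
      by_cases hx : x ∈ A
      · by_cases hy : y ∈ B
        · simp [hx, hy, h x hx y hy]
        · simp [hy]
      · simp [hx]
  rw [lintegral_indicator_one hA, lintegral_indicator_one hB, lintegral_indicator_one hC] at h1
  have h2 := ENNReal.toReal_mono (ENNReal.pow_ne_top hC') h1
  rwa [ENNReal.toReal_mul, ENNReal.toReal_pow] at h2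

/-- A closed midpoint convex set is convex (dyadic approximation). -/
lemma convex_of_mid {ι : Type} [Fintype ι] {s : Set (ι → ℝ)} (hc : IsClosed s)
    (h : ∀ x ∈ s, ∀ y ∈ s, (fun i => (x i + y i) / 2) ∈ s) : Convex ℝ s := by
  intro x hx y hy a b ha hb hab
  by_contra hn
  obtain rfl : a = 1 - b := by linarith
  have hT : IsClosed {t : ℝ | (1 - t) • x + t • y ∈ s} := hc.preimage (by fun_prop)
  obtain ⟨u, ⟨hu1, hu2⟩, hu⟩ := ((isCompact_Icc (a := (0 : ℝ)) (b := b)).inter_right
    hT).exists_isGreatest ⟨0, ⟨le_rfl, hb⟩, by simpa using hx⟩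
  obtain ⟨v, ⟨hv1, hv2⟩, hv⟩ := ((isCompact_Icc (a := b) (b := (1 : ℝ))).inter_right
    hT).exists_isLeast ⟨1, ⟨by linarith, le_rfl⟩, by simpa using hy⟩
  have hub : u < b := lt_of_le_of_ne hu1.2 fun e => hn (by rw [← e]; exact hu2)
  have hbv : b < v := lt_of_le_of_ne hv1.1 fun e => hn (by rw [e]; exact hv2)
  have hm : (1 - (u + v) / 2) • x + ((u + v) / 2) • y ∈ s := by
    convert h _ hu2 _ hv2 using 1
    funext i
    simp only [Pi.add_apply, Pi.smul_apply, smul_eq_mul]
    ring
  rcases le_total ((u + v) / 2) b with h1 | h1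
  · have := hu ⟨⟨by linarith [hu1.1], h1⟩, hm⟩
    linarith
  · have := hv ⟨⟨h1, by linarith [hv1.2]⟩, hm⟩
    linarith

variable {ι κ : Type} [Fintype ι] [Fintype κ] {K : Set (ι ⊕ κ → ℝ)}

lemma slice_compact (hK : IsCompact K) (z : ι → ℝ) : IsCompact (slice K z) := by
  have h1 : IsCompact ((fun (x : ι ⊕ κ → ℝ) (j : κ) => x (Sum.inr j)) '' K) :=
    hK.image (by fun_prop)
  have h2 : Continuous fun y : κ → ℝ => Sum.elim z y :=
    continuous_pi fun i => by
      rcases i with i | i
      · exact continuous_const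
      · exact continuous_apply i
  exact h1.of_isClosed_subset (hK.isClosed.preimage h2) fun y hy => ⟨_, hy, rfl⟩

lemma slice_convex (hK : Convex ℝ K) (z : ι → ℝ) : Convex ℝ (slice K z) := by
  intro x hx y hy a b ha hb hab
  have h1 := hK hx hy ha hb hab
  have h2 : Sum.elim z (a • x + b • y) = a • Sum.elim z x + b • Sum.elim z y := by
    funext i
    rcases i with i | i
    · simp only [Sum.elim_inl, Pi.add_apply, Pi.smul_apply, smul_eq_mul]
      rw [← add_mul, hab, one_mul]
    · rfl
  show Sum.elim z (a • x + b • y) ∈ K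
  rwa [h2]

/-- Upper semicontinuity: for `z' → z` the slice lies in a thickening of `slice K z`
(compactness), `tendsto_measure_cthickening_of_isCompact`. -/
lemma slice_closed (hK : IsCompact K) (t : ℝ) :
    IsClosed {z : ι → ℝ | t ≤ volume.real (slice K z)} := by
  rw [← isOpen_compl_iff, isOpen_iff_mem_nhds]
  intro z hz
  have hz' : volume.real (slice K z) < t := not_le.1 hz
  have ht : 0 ≤ t := measureReal_nonneg.trans hz'.le
  obtain ⟨U, hU1, hU2, hU3⟩ := (slice K z).exists_isOpen_lt_of_lt (μ := volume) (ENNReal.ofReal t)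
    ((ENNReal.lt_ofReal_iff_toReal_lt (slice_compact hK z).measure_ne_top).2 hz')
  have h1 : IsCompact ((fun (x : ι ⊕ κ → ℝ) (i : ι) => x (Sum.inl i)) ''
      (K \ (fun (x : ι ⊕ κ → ℝ) (j : κ) => x (Sum.inr j)) ⁻¹' U)) :=
    (hK.diff (hU2.preimage (by fun_prop))).image (by fun_prop)
  have h2 : z ∉ (fun (x : ι ⊕ κ → ℝ) (i : ι) => x (Sum.inl i)) ''
      (K \ (fun (x : ι ⊕ κ → ℝ) (j : κ) => x (Sum.inr j)) ⁻¹' U) := by
    rintro ⟨x, ⟨hx1, hx2⟩, rfl⟩
    refine hx2 (hU1 ?_)
    show Sum.elim (x ∘ Sum.inl) (x ∘ Sum.inr) ∈ K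
    rwa [Sum.elim_comp_inl_inr]
  filter_upwards [h1.isClosed.isOpen_compl.mem_nhds h2] with w hw
  have h3 : slice K w ⊆ U := fun y hy => by
    by_contra hyU
    exact hw ⟨Sum.elim w y, ⟨hy, hyU⟩, rfl⟩
  exact not_le.2 (ENNReal.toReal_lt_of_lt_ofReal ((measure_mono h3).trans_lt hU3))

theorem slice_superlevel (hK : IsCompact K) (hc : Convex ℝ K) (t : ℝ) :
    Convex ℝ {z : ι → ℝ | t ≤ volume.real (slice K z)} := by
  refine convex_of_mid (slice_closed hK t) fun x hx y hy => ?_
  have h1 := bm_mid (slice_compact hK x).measurableSet (slice_compact hK y).measurableSet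
    (slice_compact hK fun i => (x i + y i) / 2).measurableSet (slice_compact hK _).measure_ne_top
    fun u hu v hv => by
      have h2 := hc hu hv (a := 1 / 2) (b := 1 / 2) (by norm_num) (by norm_num) (by norm_num)
      show Sum.elim _ _ ∈ K
      convert h2 using 1
      funext i
      rcases i with i | i <;>
        simp only [Sum.elim_inl, Sum.elim_inr, Pi.add_apply, Pi.smul_apply, smul_eq_mul] <;> ring
  rcases le_total t 0 with ht | ht
  · exact ht.trans measureReal_nonneg
  · refine (pow_le_pow_iff_left₀ ht measureReal_nonneg two_ne_zero).1 (le_trans ?_ h1)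
    rw [sq]
    exact mul_le_mul hx hy ht measureReal_nonneg

/-- Fubini (`MeasurableEquiv.sumPiEquivProdPi`, `volume_measurePreserving_sumPiEquivProdPi`). -/
lemma vol_eq_integral_slice (hK : IsCompact K) {Q : Set (ι → ℝ)} (hQ : MeasurableSet Q) :
    IntegrableOn (fun z => volume.real (slice K z)) Q ∧
    volume.real {x ∈ K | (fun i => x (Sum.inl i)) ∈ Q} = ∫ z in Q, volume.real (slice K z) := by
  have he := volume_measurePreserving_sumPiEquivProdPi_symm (fun _ : ι ⊕ κ => ℝ)
  set e := (MeasurableEquiv.sumPiEquivProdPi (fun _ : ι ⊕ κ => ℝ)).symm with he'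
  have hap : ∀ (z : ι → ℝ) (y : κ → ℝ), e (z, y) = Sum.elim z y := fun z y => by
    funext i
    rcases i with i | i <;> rfl
  have hm : Measurable fun z => volume (slice K z) := by
    have := measurable_measure_prodMk_left (ν := (volume : Measure (κ → ℝ)))
      (e.measurable hK.measurableSet)
    convert this using 3 with z
    ext y
    simp only [slice, Set.mem_ofPred_eq, Set.mem_preimage, hap]
  have hS : MeasurableSet {x ∈ K | (fun i => x (Sum.inl i)) ∈ Q} :=
    hK.measurableSet.inter ((by fun_prop : Measurable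
      fun (x : ι ⊕ κ → ℝ) (i : ι) => x (Sum.inl i)) hQ)
  have h1 : volume {x ∈ K | (fun i => x (Sum.inl i)) ∈ Q} = ∫⁻ z in Q, volume (slice K z) := by
    rw [← he.measure_preimage hS.nullMeasurableSet, Measure.volume_eq_prod,
      Measure.prod_apply (e.measurable hS), ← lintegral_indicator hQ]
    refine lintegral_congr fun z => ?_
    by_cases hz : z ∈ Q
    · rw [Set.indicator_of_mem hz]
      congr 1
      ext y
      simp only [slice, Set.mem_ofPred_eq, Set.mem_preimage, hap, Sum.elim_inl]
      exact and_iff_left hz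
    · rw [Set.indicator_of_notMem hz]
      convert measure_empty (μ := (volume : Measure (κ → ℝ)))
      ext y
      simp only [Set.mem_ofPred_eq, Set.mem_preimage, hap, Sum.elim_inl]
      exact iff_of_false (fun h => hz h.2) id
  refine ⟨integrable_toReal_of_lintegral_ne_top hm.aemeasurable ?_, ?_⟩
  · rw [← h1]
    exact ne_top_of_le_ne_top hK.measure_ne_top (measure_mono fun x hx => hx.1)
  · rw [measureReal_def, h1]
    exact (integral_toReal hm.aemeasurable
      (Filter.Eventually.of_forall fun z => (slice_compact hK z).measure_lt_top)).symm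

/-- A convex set meeting every closed orthant at `z` contains `z` (induction over the set of
coordinates already made equal to those of `z`). -/
lemma orthant [DecidableEq ι] {C : Set (ι → ℝ)} (hC : Convex ℝ C) (z : ι → ℝ)
    (h : ∀ σ : ι → Bool, ∃ w ∈ C, ∀ i, if σ i then z i ≤ w i else w i ≤ z i) : z ∈ C := by
  have key : ∀ s : Finset ι, ∀ σ : ι → Bool, ∃ w ∈ C, (∀ i ∈ s, w i = z i) ∧
      ∀ i, if σ i then z i ≤ w i else w i ≤ z i := by
    intro s
    induction s using Finset.induction_on with
    | empty =>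
      intro σ
      obtain ⟨w, hw, hw'⟩ := h σ
      exact ⟨w, hw, by simp, hw'⟩
    | insert j s _ ih =>
      intro σ
      obtain ⟨u, hu, hu1, hu2⟩ := ih (Function.update σ j false)
      obtain ⟨v, hv, hv1, hv2⟩ := ih (Function.update σ j true)
      have h1 : u j ≤ z j := by simpa using hu2 j
      have h2 : z j ≤ v j := by simpa using hv2 j
      obtain ⟨a, b, ha, hb, hab, he⟩ := (Convex.mem_Icc (h1.trans h2)).1 ⟨h1, h2⟩
      have hz : ∀ i, a * z i + b * z i = z i := fun i => by rw [← add_mul, hab, one_mul]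
      refine ⟨a • u + b • v, hC hu hv ha hb hab, fun i hi => ?_, fun i => ?_⟩
      · rcases Finset.mem_insert.1 hi with rfl | hi
        · exact he
        · show a * u i + b * v i = z i
          rw [hu1 i hi, hv1 i hi, hz]
      · show if σ i then z i ≤ a * u i + b * v i else a * u i + b * v i ≤ z i
        by_cases hij : i = j
        · subst hij
          rw [he]
          split_ifs <;> exact le_rfl
        · have h3 := hu2 i
          have h4 := hv2 i
          rw [Function.update_of_ne hij] at h3 h4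
          split_ifs at h3 h4 ⊢
          · rw [← hz i]; gcongr
          · rw [← hz i]; gcongr
  obtain ⟨w, hw, hw', -⟩ := key Finset.univ fun _ => true
  rwa [show z = w from funext fun i => (hw' i (Finset.mem_univ i)).symm]

/-- From cells to points. -/
theorem cells_to_point [DecidableEq ι] (hK : IsCompact K) (hc : Convex ℝ K) {δ t : ℝ}
    (hδ : 0 < δ) (z : ι → ℝ)
    (h : ∀ σ : ι → Bool, ∃ lo : ι → ℝ, (∀ i, if σ i then z i ≤ lo i else lo i + δ ≤ z i) ∧
      t * δ ^ Fintype.card ι ≤
        volume.real {x ∈ K | (fun i => x (Sum.inl i)) ∈ Set.Icc lo (fun i => lo i + δ)}) :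
    t ≤ volume.real (slice K z) := by
  refine orthant (slice_superlevel hK hc t) z fun σ => ?_
  obtain ⟨lo, h1, h2⟩ := h σ
  obtain ⟨h3, h4⟩ := vol_eq_integral_slice hK
    (measurableSet_Icc (a := lo) (b := fun i => lo i + δ))
  have h5 : volume.real (Set.Icc lo fun i => lo i + δ) = δ ^ Fintype.card ι := by
    rw [measureReal_def, Real.volume_Icc_pi_toReal fun i => by simp [hδ.le]]
    simp
  have h6 : (0 : ℝ) < δ ^ Fintype.card ι := pow_pos hδ _
  obtain ⟨w, hw, h7⟩ := exists_setAverage_le (fun h0 => by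
    rw [measureReal_def, h0] at h5
    exact h6.ne h5) isCompact_Icc.measure_ne_top h3
  rw [setAverage_eq, h5, ← h4, smul_eq_mul, inv_mul_le_iff₀ h6] at h7
  refine ⟨w, le_of_mul_le_mul_left ((mul_comm _ _).trans_le (h2.trans h7)) h6, fun i => ?_⟩
  have h8 := h1 i
  split_ifs at h8 ⊢
  · exact h8.trans (hw.1 i)
  · exact (hw.2 i).trans h8

end Crest.Agent.R225
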