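import Crest.Agent.R225.MDefs

/-! Task `R225 CovAff`: affine invariance, reindexing, the parallelepiped sandwich. -/

set_option autoImplicit false
open MeasureTheory

namespace Crest.Agent.R225

variable {κ : Type} [Fintype κ] [DecidableEq κ] {K : Set (κ → ℝ)}

lemma Body.vol_pos (h : Body K) : 0 < volume.real K := by
  exact ENNReal.toReal_pos (Measure.measure_pos_of_nonempty_interior volume h.2.2).ne'
    h.1.measure_lt_top.ne

/-- A compact convex set of positive volume has interior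
(`Convex.interior_nonempty_iff_affineSpan_eq_top`, `Measure.addHaar_affineSubspace`). -/
lemma body_of_vol (hc : IsCompact K) (hv : Convex ℝ K) (h : 0 < volume.real K) : Body K := by
  refine ⟨hc, hv, hv.interior_nonempty_iff_affineSpan_eq_top.2 ?_⟩
  by_contra hne
  have h0 : volume K = 0 := measure_mono_null (subset_affineSpan ℝ K)
    (Measure.addHaar_affineSubspace volume _ hne)
  simp [measureReal_def, h0] at h

lemma vol_affine (A : Matrix κ κ ℝ) (b : κ → ℝ) (K : Set (κ → ℝ)) :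
    volume.real ((fun x => A.mulVec x + b) '' K) = |A.det| * volume.real K := by
  have h1 : (fun x => A.mulVec x + b) '' K = (fun x => x + b) '' (Matrix.toLin' A '' K) := by
    rw [Set.image_image]; rfl
  rw [h1, Set.image_add_right, measureReal_def, measure_preimage_add_right,
    Measure.addHaar_image_linearMap, LinearMap.det_toLin', ENNReal.toReal_mul,
    ENNReal.toReal_ofReal (abs_nonneg _), measureReal_def]

lemma Body.affine (h : Body K) {A : Matrix κ κ ℝ} (hA : A.det ≠ 0) (b : κ → ℝ) :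
    Body ((fun x => A.mulVec x + b) '' K) := by
  refine body_of_vol (h.1.image (by fun_prop)) ?_ ?_
  · rintro _ ⟨x, hx, rfl⟩ _ ⟨y, hy, rfl⟩ s t hs ht hst
    refine ⟨s • x + t • y, h.2.1 hx hy hs ht hst, ?_⟩
    simp only [Matrix.mulVec_add, Matrix.mulVec_smul, smul_add]
    rw [add_add_add_comm, ← add_smul, hst, one_smul]
  · rw [vol_affine]
    exact mul_pos (abs_pos.2 hA) h.vol_pos

lemma Cov.mono {θ θ' : ℝ} (h : Cov K θ) (hθ : θ ≤ θ') : Cov K θ' := by
  obtain ⟨g, h1, h2, h3⟩ := h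
  exact ⟨g, h1, h2, h3.trans hθ⟩

lemma cov_of_affine {A : Matrix κ κ ℝ} (hA : A.det ≠ 0) (b : κ → ℝ) {θ : ℝ}
    (h : Cov ((fun x => A.mulVec x + b) '' K) θ) : Cov K θ := by
  obtain ⟨g, h1, h2, h3⟩ := h
  have hU : IsUnit A.det := hA.isUnit
  have hd : (A⁻¹ * g).det = (A.det)⁻¹ * g.det := by
    rw [Matrix.det_mul, Matrix.det_nonsing_inv, Ring.inverse_eq_inv']
  refine ⟨A⁻¹ * g, by rw [hd]; exact mul_ne_zero (inv_ne_zero hA) h1, fun x => ?_, ?_⟩
  · obtain ⟨z, k, hk, e⟩ := h2 (A.mulVec x + b)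
    refine ⟨z, ?_⟩
    have e1 : A.mulVec k = A.mulVec x - g.mulVec fun i => (z i : ℝ) := by
      rw [← add_left_inj b, ← add_sub_right_comm]; exact e
    have e2 := congrArg A⁻¹.mulVec e1
    rw [Matrix.mulVec_sub, Matrix.mulVec_mulVec, Matrix.mulVec_mulVec, Matrix.mulVec_mulVec,
      Matrix.nonsing_inv_mul _ hU, Matrix.one_mulVec, Matrix.one_mulVec] at e2
    rwa [← e2]
  · rw [vol_affine] at h3
    refine le_trans (le_of_eq ?_) h3
    rw [hd, abs_mul, abs_inv]
    have := abs_pos.2 hA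
    have := abs_pos.2 h1
    field_simp

lemma Body.reindex {κ' : Type} [Fintype κ'] (e : κ ≃ κ') (h : Body K) :
    Body {x : κ' → ℝ | (fun i => x (e i)) ∈ K} := by
  let φ : (κ' → ℝ) ≃ₜ (κ → ℝ) :=
    (LinearEquiv.funCongrLeft ℝ ℝ e).toContinuousLinearEquiv.toHomeomorph
  have h1 : {x : κ' → ℝ | (fun i => x (e i)) ∈ K} = φ ⁻¹' K := rfl
  refine ⟨h1 ▸ φ.isCompact_preimage.2 h.1, fun x hx y hy s t hs ht hst => h.2.1 hx hy hs ht hst, ?_⟩
  rw [h1, ← φ.preimage_interior]
  exact h.2.2.preimage φ.surjective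

lemma cov_of_reindex {κ' : Type} [Fintype κ'] [DecidableEq κ'] (e : κ ≃ κ') {θ : ℝ}
    (h : Cov {x : κ' → ℝ | (fun i => x (e i)) ∈ K} θ) : Cov K θ := by
  obtain ⟨g, h1, h2, h3⟩ := h
  refine ⟨g.submatrix e e, by rwa [Matrix.det_submatrix_equiv_self], fun x => ?_, ?_⟩
  · obtain ⟨z, hz⟩ := h2 fun j => x (e.symm j)
    refine ⟨fun i => z (e i), ?_⟩
    convert hz using 1
    rw [Set.mem_setOf_eq, Matrix.submatrix_mulVec_equiv]
    refine iff_of_eq (congrArg (· ∈ K) ?_)
    funext i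
    simp [Function.comp_def]
  · rw [Matrix.det_submatrix_equiv_self]
    refine le_trans (le_of_eq ?_) h3
    congr 1
    have hm := volume_preserving_arrowCongr' e.symm (MeasurableEquiv.refl ℝ)
      (MeasurePreserving.id volume)
    rw [measureReal_def, measureReal_def, ← hm.measure_preimage_equiv K]
    rfl

/-- Maximise `|det (p j - q j)_j|` over `p q : κ → K` (compact); Cramer: every `w ∈ K - K` has
coordinates `≤ 1`; `x₀ = (1/n) ∑ (p j + q j) / 2`. -/
theorem sandwich [Nonempty κ] (h : Body K) : ∃ (A : Matrix κ κ ℝ) (x₀ : κ → ℝ), A.det ≠ 0 ∧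
    (∀ y : κ → ℝ, (∀ i, |y i| ≤ 1 / (2 * Fintype.card κ)) → A.mulVec y + x₀ ∈ K) ∧
    ∀ x ∈ K, ∃ y : κ → ℝ, (∀ i, |y i| ≤ 1) ∧ x = A.mulVec y + x₀ := by
  let F : (κ → κ → ℝ) × (κ → κ → ℝ) → Matrix κ κ ℝ := fun w => Matrix.of fun i j => w.1 j i - w.2 j i
  have hF : Continuous fun w => |(F w).det| := by
    refine (Continuous.matrix_det ?_).abs
    refine continuous_matrix fun i j => ?_
    simp only [F, Matrix.of_apply]
    fun_prop
  have hS : IsCompact ((Set.univ.pi fun _ : κ => K) ×ˢ (Set.univ.pi fun _ : κ => K)) :=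
    (isCompact_univ_pi fun _ => h.1).prod (isCompact_univ_pi fun _ => h.1)
  obtain ⟨c, hc⟩ := h.2.2
  obtain ⟨r, hr, hball⟩ := Metric.mem_nhds_iff.1 (mem_interior_iff_mem_nhds.1 hc)
  have hw₀ : ((fun j => c + Pi.single j (r / 2), fun _ => c) : (κ → κ → ℝ) × (κ → κ → ℝ)) ∈
      (Set.univ.pi fun _ : κ => K) ×ˢ (Set.univ.pi fun _ : κ => K) := by
    refine ⟨fun j _ => hball ?_, fun _ _ => interior_subset hc⟩
    rw [mem_ball_iff_norm, add_sub_cancel_left, Pi.norm_single, Real.norm_of_nonneg (by linarith)]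
    linarith
  obtain ⟨⟨p, q⟩, ⟨hp, hq⟩, hmax⟩ := hS.exists_isMaxOn ⟨_, hw₀⟩ hF.continuousOn
  have hp' : ∀ j, p j ∈ K := fun j => hp j trivial
  have hq' : ∀ j, q j ∈ K := fun j => hq j trivial
  set A := F (p, q) with hA
  have hpos : 0 < |A.det| := by
    refine lt_of_lt_of_le ?_ (hmax hw₀)
    have : F (fun j => c + Pi.single j (r / 2), fun _ => c) = Matrix.diagonal fun _ => r / 2 := by
      ext i j
      simp [F, Matrix.diagonal_apply, Pi.single_apply]
    simp only [this, Matrix.det_diagonal, Finset.prod_const]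
    positivity
  have hn : (0 : ℝ) < Fintype.card κ := Nat.cast_pos.2 Fintype.card_pos
  have hin : ∀ y : κ → ℝ, (∀ i, |y i| ≤ 1 / (2 * Fintype.card κ)) →
      A.mulVec y + ∑ j, (1 / (2 * Fintype.card κ) : ℝ) • (p j + q j) ∈ K := by
    intro y hy
    have h1 : A.mulVec y + ∑ j, (1 / (2 * Fintype.card κ) : ℝ) • (p j + q j) =
        ∑ j, (1 / Fintype.card κ : ℝ) • ((1 / 2 + Fintype.card κ * y j) • p j +
          (1 / 2 - Fintype.card κ * y j) • q j) := by
      funext i
      simp only [hA, F, Matrix.mulVec, dotProduct, Matrix.of_apply, Pi.add_apply, Finset.sum_apply,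
        Pi.smul_apply, smul_eq_mul, ← Finset.sum_add_distrib]
      refine Finset.sum_congr rfl fun j _ => ?_
      field_simp
      ring
    rw [h1]
    refine h.2.1.sum_mem (fun _ _ => by positivity) (by simp [hn.ne']) fun j _ => ?_
    have h2 := hy j
    rw [le_div_iff₀ (by positivity)] at h2
    have h3 := mul_le_mul_of_nonneg_left (le_abs_self (y j)) hn.le
    have h4 := mul_le_mul_of_nonneg_left (neg_abs_le (y j)) hn.le
    exact h.2.1 (hp' j) (hq' j) (by linarith) (by linarith) (by ring)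
  refine ⟨A, _, abs_pos.1 hpos, hin, fun x hx => ?_⟩
  have hx₀ := hin 0 fun i => by simp
  rw [Matrix.mulVec_zero, zero_add] at hx₀
  set x₀ := ∑ j, (1 / (2 * Fintype.card κ) : ℝ) • (p j + q j)
  refine ⟨(A.det)⁻¹ • A.cramer (x - x₀), fun i => ?_, ?_⟩
  · have h1 : A.updateCol i (x - x₀) = F (Function.update p i x, Function.update q i x₀) := by
      ext a j
      by_cases hj : j = i
      · subst hj; simp [F]
      · simp [F, hA, hj]
    have h2 : |(A.updateCol i (x - x₀)).det| ≤ |A.det| := by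
      rw [h1]
      refine hmax ⟨fun j _ => ?_, fun j _ => ?_⟩ <;> by_cases hj : j = i
      · subst hj; simpa using hx
      · simpa [hj] using hp' j
      · subst hj; simpa using hx₀
      · simpa [hj] using hq' j
    rw [Pi.smul_apply, smul_eq_mul, abs_mul, abs_inv, Matrix.cramer_apply,
      inv_mul_le_iff₀ hpos, mul_one]
    exact h2
  · rw [Matrix.mulVec_smul, Matrix.mulVec_cramer, smul_smul, inv_mul_cancel₀ (abs_pos.1 hpos),
      one_smul, sub_add_cancel]

/-- The lattice `n⁻¹ A ℤⁿ`. -/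
theorem cov_small [Nonempty κ] (h : Body K) :
    Cov K ((2 * Fintype.card κ : ℝ) ^ Fintype.card κ) := by
  obtain ⟨A, x₀, hA, h1, h2⟩ := sandwich h
  have hn : (0 : ℝ) < Fintype.card κ := Nat.cast_pos.2 Fintype.card_pos
  have hd : (((Fintype.card κ : ℝ)⁻¹) • A).det = ((Fintype.card κ : ℝ)⁻¹) ^ Fintype.card κ * A.det :=
    Matrix.det_smul _ _
  refine ⟨((Fintype.card κ : ℝ)⁻¹) • A, by rw [hd]; positivity, fun x => ?_, ?_⟩
  · set y := A⁻¹.mulVec (x - x₀) with hy
    refine ⟨fun i => round (Fintype.card κ * y i), ?_⟩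
    have h3 := h1 (y - (Fintype.card κ : ℝ)⁻¹ • fun i => (round (Fintype.card κ * y i) : ℝ))
      fun i => by
        have h4 := abs_sub_round (Fintype.card κ * y i)
        have h5 : y i - (Fintype.card κ : ℝ)⁻¹ * round (Fintype.card κ * y i) =
            (Fintype.card κ : ℝ)⁻¹ * (Fintype.card κ * y i - round (Fintype.card κ * y i)) := by
          field_simp
        rw [Pi.sub_apply, Pi.smul_apply, smul_eq_mul, h5, abs_mul, abs_of_pos (inv_pos.2 hn),
          inv_mul_le_iff₀ hn]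
        refine h4.trans_eq ?_
        field_simp
    convert h3 using 1
    rw [Matrix.mulVec_sub, hy, Matrix.mulVec_mulVec, Matrix.mul_nonsing_inv _ hA.isUnit,
      Matrix.one_mulVec, Matrix.mulVec_smul, Matrix.smul_mulVec]
    abel
  · have h3 : K ⊆ (fun x => A.mulVec x + x₀) '' Metric.closedBall 0 1 := by
      intro x hx
      obtain ⟨y, hy, rfl⟩ := h2 x hx
      exact ⟨y, mem_closedBall_zero_iff.2 ((pi_norm_le_iff_of_nonneg zero_le_one).2 hy), rfl⟩
    have h4 := measureReal_mono (μ := volume) h3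
      ((isCompact_closedBall _ _).image (by fun_prop)).measure_lt_top.ne
    rw [vol_affine, measureReal_def _ (Metric.closedBall _ _),
      Real.volume_pi_closedBall _ zero_le_one, ENNReal.toReal_ofReal (by positivity)] at h4
    have h5 := abs_pos.2 hA
    rw [hd, abs_mul, abs_of_pos (by positivity), div_le_iff₀ (by positivity)]
    refine h4.trans_eq ?_
    rw [mul_pow 2 (Fintype.card κ : ℝ), inv_pow, mul_one]
    field_simp

end Crest.Agent.R225
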