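import Mathlib

/-! Row 225 (lattice coverings `C n log n`, translative coverings `c n log n`): shared definitions
and the tiny calculus of uniform averages on finite types. -/

set_option autoImplicit false
open MeasureTheory

namespace Crest.Agent.R225

/-- Lattice covering of density at most `θ`. -/
def Cov {κ : Type} [Fintype κ] [DecidableEq κ] (K : Set (κ → ℝ)) (θ : ℝ) : Prop :=
  ∃ g : Matrix κ κ ℝ, g.det ≠ 0 ∧
    (∀ x : κ → ℝ, ∃ z : κ → ℤ, x - g.mulVec (fun i => (z i : ℝ)) ∈ K) ∧
    volume.real K / |g.det| ≤ θ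

/-- Convex body. -/
def Body {κ : Type} [Fintype κ] (K : Set (κ → ℝ)) : Prop :=
  IsCompact K ∧ Convex ℝ K ∧ (interior K).Nonempty

/-- Standard Gaussian density on `ℝ`. -/
noncomputable def g1 (x : ℝ) : ℝ := Real.exp (-x ^ 2 / 2) / Real.sqrt (2 * Real.pi)

/-- Standard Gaussian density on `ι → ℝ`. -/
noncomputable def gd {ι : Type} [Fintype ι] (z : ι → ℝ) : ℝ := ∏ i, g1 (z i)

/-- Horizontal slice over the vertical point `z`. -/
def slice {ι κ : Type} (K : Set (ι ⊕ κ → ℝ)) (z : ι → ℝ) : Set (κ → ℝ) :=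
  {y | Sum.elim z y ∈ K}

lemma g1_pos (x : ℝ) : 0 < g1 x := by unfold g1; positivity

lemma gd_pos {ι : Type} [Fintype ι] (z : ι → ℝ) : 0 < gd z :=
  Finset.prod_pos fun _ _ => g1_pos _

lemma g1_anti {x y : ℝ} (h : |x| ≤ |y|) : g1 y ≤ g1 x := by
  unfold g1
  have : x ^ 2 ≤ y ^ 2 := sq_le_sq.2 h
  gcongr

lemma g1_neg (x : ℝ) : g1 (-x) = g1 x := by simp [g1]

lemma g1_abs (x : ℝ) : g1 |x| = g1 x := by simp [g1]

lemma g1_le_one (x : ℝ) : g1 x ≤ 1 := by
  unfold g1
  have h1 : Real.exp (-x ^ 2 / 2) ≤ 1 := Real.exp_le_one_iff.2 (by nlinarith [sq_nonneg x])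
  have h2 : 1 ≤ Real.sqrt (2 * Real.pi) := Real.one_le_sqrt.2 (by nlinarith [Real.pi_gt_three])
  exact (div_le_one (by positivity)).2 (h1.trans h2)

lemma g1_eq_pdf (x : ℝ) : g1 x = ProbabilityTheory.gaussianPDFReal 0 1 x := by
  simp [g1, ProbabilityTheory.gaussianPDFReal, div_eq_inv_mul]

/-- A finite labelled family of integer points which can be cut, in at most `D` rounds, by
coordinate hyperplanes separating the consecutive values `w`, `w + 1`. -/
inductive Tree {α ι : Type} [DecidableEq α] (pos : α → ι → ℤ) : ℕ → Finset α → Prop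
  | single (a : α) : Tree pos 0 {a}
  | mono {D : ℕ} {B : Finset α} : Tree pos D B → Tree pos (D + 1) B
  | split {D : ℕ} {B₀ B₁ : Finset α} (i : ι) (w : ℤ) : Tree pos D B₀ → Tree pos D B₁ →
      (∀ a ∈ B₀, pos a i = w) → (∀ a ∈ B₁, pos a i = w + 1) → Tree pos (D + 1) (B₀ ∪ B₁)

/-! ### Uniform averages and frequencies on finite types -/

/-- Uniform average. -/
noncomputable def av {X : Type} [Fintype X] (f : X → ℝ) : ℝ := (∑ x, f x) / Fintype.card X

open Classical in
/-- Uniform probability. -/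
noncomputable def fr {X : Type} [Fintype X] (p : X → Prop) : ℝ :=
  av fun x => if p x then 1 else 0

section AvFr
variable {X Y : Type} [Fintype X] [Fintype Y]

lemma av_mono {f g : X → ℝ} (h : ∀ x, f x ≤ g x) : av f ≤ av g :=
  div_le_div_of_nonneg_right (Finset.sum_le_sum fun x _ => h x) (Nat.cast_nonneg _)

lemma av_nonneg {f : X → ℝ} (h : ∀ x, 0 ≤ f x) : 0 ≤ av f :=
  div_nonneg (Finset.sum_nonneg fun x _ => h x) (Nat.cast_nonneg _)

lemma av_add (f g : X → ℝ) : av (fun x => f x + g x) = av f + av g := by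
  simp [av, Finset.sum_add_distrib, add_div]

lemma av_sub (f g : X → ℝ) : av (fun x => f x - g x) = av f - av g := by
  simp [av, Finset.sum_sub_distrib, sub_div]

lemma av_const_mul (c : ℝ) (f : X → ℝ) : av (fun x => c * f x) = c * av f := by
  simp [av, ← Finset.mul_sum, mul_div_assoc]

lemma av_mul_const (c : ℝ) (f : X → ℝ) : av (fun x => f x * c) = av f * c := by
  simp only [mul_comm _ c, av_const_mul]

lemma av_const [Nonempty X] (c : ℝ) : av (fun _ : X => c) = c := by
  have : (Fintype.card X : ℝ) ≠ 0 := Nat.cast_ne_zero.2 Fintype.card_ne_zero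
  simp only [av, Finset.sum_const, Finset.card_univ, nsmul_eq_mul]
  field_simp

lemma av_sum {J : Type*} (s : Finset J) (f : J → X → ℝ) :
    av (fun x => ∑ j ∈ s, f j x) = ∑ j ∈ s, av (f j) := by
  simp only [av]
  rw [Finset.sum_comm, Finset.sum_div]

lemma av_prod (f : X × Y → ℝ) : av f = av fun x => av fun y => f (x, y) := by
  simp only [av, Fintype.card_prod, Nat.cast_mul]
  rw [Fintype.sum_prod_type, ← Finset.sum_div, div_div, mul_comm]

lemma av_comm (f : X → Y → ℝ) :
    av (fun x => av fun y => f x y) = av fun y => av fun x => f x y := by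
  simp only [av, ← Finset.sum_div]
  rw [Finset.sum_comm, div_div, div_div, mul_comm]

lemma av_equiv (e : X ≃ Y) (f : Y → ℝ) : av (fun x => f (e x)) = av f := by
  simp only [av]
  rw [Equiv.sum_comp e f, Fintype.card_congr e]

lemma exists_le_av [Nonempty X] (f : X → ℝ) : ∃ x, f x ≤ av f := by
  by_contra h
  push Not at h
  have h1 : ∑ _x : X, av f < ∑ x, f x :=
    Finset.sum_lt_sum_of_nonempty Finset.univ_nonempty fun x _ => h x
  have h2 : (0 : ℝ) < Fintype.card X := Nat.cast_pos.2 Fintype.card_pos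
  simp only [Finset.sum_const, Finset.card_univ, nsmul_eq_mul] at h1
  have : (Fintype.card X : ℝ) * av f = ∑ x, f x := by unfold av; field_simp
  linarith

lemma exists_av_le [Nonempty X] (f : X → ℝ) : ∃ x, av f ≤ f x := by
  obtain ⟨x, hx⟩ := exists_le_av fun x => -1 * f x
  rw [av_const_mul] at hx
  exact ⟨x, by linarith⟩

lemma fr_eq_av (p : X → Prop) [DecidablePred p] : fr p = av fun x => if p x then 1 else 0 := by
  unfold fr; congr 1; funext x; congr

lemma fr_eq_card (p : X → Prop) [DecidablePred p] :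
    fr p = ((Finset.univ.filter p).card : ℝ) / Fintype.card X := by
  rw [fr_eq_av]; simp [av]

lemma fr_nonneg (p : X → Prop) : 0 ≤ fr p :=
  av_nonneg fun x => by split_ifs <;> norm_num

lemma fr_mono {p q : X → Prop} (h : ∀ x, p x → q x) : fr p ≤ fr q :=
  av_mono fun x => by
    by_cases hp : p x
    · simp [hp, h x hp]
    · simp only [hp, if_false]; split_ifs <;> norm_num

lemma fr_congr {p q : X → Prop} (h : ∀ x, p x ↔ q x) : fr p = fr q :=
  le_antisymm (fr_mono fun x => (h x).1) (fr_mono fun x => (h x).2)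

lemma fr_true [Nonempty X] {p : X → Prop} (h : ∀ x, p x) : fr p = 1 := by
  unfold fr; simp only [h, if_true]; exact av_const 1

lemma fr_false {p : X → Prop} (h : ∀ x, ¬ p x) : fr p = 0 := by
  unfold fr; simp [h, av]

lemma fr_le_one (p : X → Prop) : fr p ≤ 1 := by
  rcases isEmpty_or_nonempty X with hX | hX
  · rw [fr_false fun x => hX.elim x]; norm_num
  · exact (fr_mono fun _ _ => trivial).trans (fr_true fun _ => trivial).le

lemma fr_not [Nonempty X] (p : X → Prop) : fr (fun x => ¬ p x) = 1 - fr p := by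
  have : fr (fun x => ¬ p x) + fr p = 1 := by
    unfold fr; rw [← av_add]
    refine Eq.trans ?_ (av_const (X := X) 1)
    congr 1; funext x
    by_cases hp : p x <;> simp [hp]
  linarith

lemma fr_or_le (p q : X → Prop) : fr (fun x => p x ∨ q x) ≤ fr p + fr q := by
  unfold fr; rw [← av_add]
  refine av_mono fun x => ?_
  by_cases hp : p x <;> by_cases hq : q x <;> simp [hp, hq]

lemma fr_exists_le {J : Type*} (s : Finset J) (p : J → X → Prop) :
    fr (fun x => ∃ j ∈ s, p j x) ≤ ∑ j ∈ s, fr (p j) := by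
  classical
  unfold fr; rw [← av_sum]
  refine av_mono fun x => ?_
  split_ifs with h
  · obtain ⟨j, hj, hp⟩ := h
    refine le_trans ?_ (Finset.single_le_sum
      (f := fun j => @ite ℝ (p j x) (Classical.propDecidable _) 1 0)
      (fun i _ => by split_ifs <;> norm_num) hj)
    simp [hp]
  · exact Finset.sum_nonneg fun i _ => by split_ifs <;> norm_num

lemma fr_prod (p : X × Y → Prop) : fr p = av fun x => fr fun y => p (x, y) := av_prod _

lemma fr_equiv (e : X ≃ Y) (p : Y → Prop) : fr (fun x => p (e x)) = fr p := by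
  classical
  exact av_equiv e fun y => @ite ℝ (p y) (Classical.propDecidable _) 1 0

lemma exists_of_fr_pos {p : X → Prop} (h : 0 < fr p) : ∃ x, p x := by
  by_contra hh
  push Not at hh
  rw [fr_false hh] at h
  exact lt_irrefl _ h

/-- Markov. -/
lemma fr_markov {f : X → ℝ} (hf : ∀ x, 0 ≤ f x) {t : ℝ} (ht : 0 < t) :
    fr (fun x => t ≤ f x) ≤ av f / t := by
  rw [div_eq_mul_inv, ← av_mul_const]
  refine av_mono fun x => ?_
  split_ifs with h
  · rw [← div_eq_mul_inv, le_div_iff₀ ht]; linarith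
  · exact mul_nonneg (hf x) (inv_nonneg.2 ht.le)

end AvFr

end Crest.Agent.R225
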