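import Crest.Agent.R225.BlkFacts

/-! Task `R225 Extend`: the extended state. -/

set_option autoImplicit false

namespace Crest.Agent.R225

namespace St
variable (S : St) (B : Blk) (T : S.ι → B.A) (g : B.A)

lemma red_lin (a : S.ι → ℤ) : B.red (S.lin B T a) = ∑ j, a j • T j := by
  funext i
  simp [Blk.red, lin, Blk.lift, Finset.sum_apply]

lemma red_uu (h : S.ι ⊕ Option (Fin B.k) → ℝ) (x : S.Ξ × B.Box) (a : S.Lab) :
    B.red (S.uu B T g h x a) = B.red (S.v1 B g h) + B.red (B.box x.2) -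
      ∑ j, S.pos (fun i => h (Sum.inl i)) x.1 a j • T j := by
  rw [uu, Blk.red_sub, Blk.red_add, red_lin]

lemma card_ext : Fintype.card (S.ext B T g).ι = Fintype.card S.ι + B.k + 1 := by
  change Fintype.card (S.ι ⊕ Option (Fin B.k)) = _
  simp [add_assoc]

lemma card_extΩ : (S.ext B T g).Ω.card ≤ S.Ω.card * (4 * B.N + 1) * 4 ^ B.k := by
  change (S.extΩ B T g).card ≤ _
  refine Finset.card_image_le.trans (le_of_eq ?_)
  rw [Finset.card_product, Finset.card_product, Fintype.card_piFinset, mul_assoc]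
  congr 2
  · rw [Int.card_Icc]; omega
  · simp

/-- Block triangular (`Matrix.det_fromBlocks_zero₁₂`). -/
lemma det_ext : (S.ext B T g).M.det = S.M.det * (B.σ * B.s ^ B.k) := by
  change (S.extM B T g).det = _
  rw [extM, Matrix.det_fromBlocks_zero₁₂]
  congr 1
  rw [← Matrix.det_reindex_self ((Equiv.optionEquivSumPUnit.{0} (Fin B.k)).trans
    (Equiv.sumComm _ _))]
  have : Matrix.reindex ((Equiv.optionEquivSumPUnit.{0} (Fin B.k)).trans (Equiv.sumComm _ _))
      ((Equiv.optionEquivSumPUnit.{0} (Fin B.k)).trans (Equiv.sumComm _ _))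
      (Matrix.of fun (o o' : Option (Fin B.k)) => o.elim (o'.elim B.σ fun _ => 0) fun i =>
        o'.elim (B.s / B.p * B.lift g i) fun i' => if i = i' then B.s else 0) =
      Matrix.fromBlocks (Matrix.diagonal fun _ => B.σ) 0
        (Matrix.of fun i _ => B.s / B.p * B.lift g i) (Matrix.diagonal fun _ => B.s) := by
    ext i j
    rcases i with i | i <;> rcases j with j | j <;> simp [Matrix.diagonal_apply]
  rw [this, Matrix.det_fromBlocks_zero₁₂]
  simp

/-- Total weight of the extended state. -/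
lemma sum_W_ext (h : S.ι ⊕ Option (Fin B.k) → ℝ) (x : S.Ξ × B.Box) :
    ∑ l, (S.ext B T g).W h x l = ∑ a, S.W (fun i => h (Sum.inl i)) x.1 a *
      B.mul g (B.red (S.v1 B g h) + B.red (B.box x.2) -
        ∑ j, S.pos (fun i => h (Sum.inl i)) x.1 a j • T j) := by
  change ∑ l : S.Lab × (B.T × (Fin B.k → Bool)), S.W (fun i => h (Sum.inl i)) x.1 l.1 *
    B.wt g (B.red (S.uu B T g h x l.1)) l.2.1 l.2.2 = _
  rw [Fintype.sum_prod_type]
  refine Finset.sum_congr rfl fun a _ => ?_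
  rw [← red_uu, Blk.mul, ← Finset.sum_coe_sort B.T, Fintype.sum_prod_type, Finset.mul_sum]
  simp only [Finset.mul_sum]

/-- The offset of a particle of the extended state. -/
noncomputable def off (h : S.ι ⊕ Option (Fin B.k) → ℝ) (x : S.Ξ × B.Box)
    (l : S.Lab × (B.T × (Fin B.k → Bool))) : S.ι ⊕ Option (Fin B.k) → ℝ :=
  h - (S.extM B T g).mulVec fun i => ((S.ext B T g).pos h x l i : ℝ)

lemma ext_off_inl (h : S.ι ⊕ Option (Fin B.k) → ℝ) (x : S.Ξ × B.Box)
    (l : S.Lab × (B.T × (Fin B.k → Bool))) (i : S.ι) :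
    S.off B T g h x l (Sum.inl i) = ((fun i => h (Sum.inl i)) -
      S.M.mulVec fun i => (S.pos (fun i => h (Sum.inl i)) x.1 l.1 i : ℝ)) i := by
  simp [off, extM, ext, Matrix.mulVec, dotProduct, Fintype.sum_sum_type]

lemma ext_off_none (hσ : 0 < B.σ) (h : S.ι ⊕ Option (Fin B.k) → ℝ) (x : S.Ξ × B.Box)
    (l : S.Lab × (B.T × (Fin B.k → Bool))) :
    |S.off B T g h x l (Sum.inr none)| ≤ B.σ * |((l.2.1 : ℤ) : ℝ)| + B.σ := by
  have e : S.off B T g h x l (Sum.inr none) =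
      B.σ * Int.fract (h (Sum.inr none) / B.σ) - B.σ * ((l.2.1 : ℤ) : ℝ) := by
    have e1 : S.off B T g h x l (Sum.inr none) =
        h (Sum.inr none) - B.σ * (((l.2.1 : ℤ) : ℝ) + S.t0 B h) := by
      simp [off, extM, ext, Matrix.mulVec, dotProduct, Fintype.sum_sum_type,
        Fintype.sum_option, Blk.kid]
    rw [e1]
    simp only [Int.fract, t0]
    field_simp
    ring
  rw [e]
  have h1 := Int.fract_nonneg (h (Sum.inr none) / B.σ)
  have h2 := Int.fract_lt_one (h (Sum.inr none) / B.σ)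
  have h3 := le_abs_self ((l.2.1 : ℤ) : ℝ)
  have h4 := neg_abs_le ((l.2.1 : ℤ) : ℝ)
  rw [abs_le]
  constructor <;> nlinarith

lemma ext_off_some (hs : 0 < B.s) (hrh : 1 ≤ B.rh) (h : S.ι ⊕ Option (Fin B.k) → ℝ)
    (x : S.Ξ × B.Box) (l : S.Lab × (B.T × (Fin B.k → Bool))) (i : Fin B.k) :
    |S.off B T g h x l (Sum.inr (some i)) -
      B.s / B.p * B.jj (B.red (S.uu B T g h x l.1) - (l.2.1 : ℤ) • g) l.2.2 i| ≤
      B.s / B.p * B.rh := by
  have hp : (0 : ℝ) < B.p := Nat.cast_pos.2 B.hp.pos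
  have e0 : S.off B T g h x l (Sum.inr (some i)) = h (Sum.inr (some i)) -
      B.s / B.p * ((S.lin B T (S.pos (fun i => h (Sum.inl i)) x.1 l.1) i +
        B.lift g i * (l.2.1 + S.t0 B h) +
        B.p * B.kid g (S.uu B T g h x l.1) l.2.1 l.2.2 (some i) : ℤ) : ℝ) := by
    have e1 : B.kid g (S.uu B T g h x l.1) l.2.1 l.2.2 none = l.2.1 := rfl
    simp only [off, extM, ext, Matrix.mulVec, dotProduct, Fintype.sum_sum_type,
      Fintype.sum_option, Pi.sub_apply, lin]
    simp only [Matrix.fromBlocks_apply₂₁, Matrix.fromBlocks_apply₂₂, Matrix.of_apply,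
      Option.elim_some, Option.elim_none, Sum.elim_inl, Sum.elim_inr, ite_mul, zero_mul,
      Finset.sum_ite_eq, Finset.mem_univ, if_true, add_zero, e1]
    push_cast
    have e2 : ∑ j, B.s / B.p * (B.lift (T j) i : ℝ) *
        (S.pos (fun i => h (Sum.inl i)) x.1 l.1 j : ℝ) = B.s / B.p *
        ∑ j, (S.pos (fun i => h (Sum.inl i)) x.1 l.1 j : ℝ) * (B.lift (T j) i : ℝ) := by
      rw [Finset.mul_sum]
      exact Finset.sum_congr rfl fun j _ => by ring
    rw [e2]
    field_simp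
    ring
  have e : S.off B T g h x l (Sum.inr (some i)) -
      B.s / B.p * B.jj (B.red (S.uu B T g h x l.1) - (l.2.1 : ℤ) • g) l.2.2 i =
      B.s / B.p * (Int.fract (B.p * h (Sum.inr (some i)) / B.s) - ((x.2 i : ℕ) : ℝ)) := by
    rw [e0, Blk.jj_eq]
    generalize B.kid g (S.uu B T g h x l.1) l.2.1 l.2.2 (some i) = z
    simp only [uu, v1, Blk.box, Pi.sub_apply, Pi.add_apply, Int.fract]
    push_cast
    field_simp
    ring
  rw [e, abs_mul, abs_of_pos (div_pos hs hp)]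
  refine mul_le_mul_of_nonneg_left ?_ (div_pos hs hp).le
  have h1 := Int.fract_nonneg (B.p * h (Sum.inr (some i)) / B.s)
  have h2 := Int.fract_lt_one (B.p * h (Sum.inr (some i)) / B.s)
  have h3 : ((x.2 i : ℕ) : ℝ) ≤ B.rh := by exact_mod_cast (x.2 i).2.le
  have h4 : (0 : ℝ) ≤ ((x.2 i : ℕ) : ℝ) := Nat.cast_nonneg _
  have h5 : (1 : ℝ) ≤ B.rh := by exact_mod_cast hrh
  rw [abs_le]
  constructor <;> linarith

/-- Offsets: on `inl` the old offset; at `inr none`, `y₀ = h₀ - σ (t + t0)`,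
`|y₀| ≤ σ|t| + σ`; at `inr (some i)`, `(p/s) y i = jj + (frac (p h/s) - r i)` (`jj_eq`), so
`Good.geo` applies and `|y i| ≤ 2 s`. Tree: `Tree.graft`; over a fixed parent all kids have the
same `t` (`wt_unique`) and form part of a Boolean cell (`tree_cube`, `Tree.subset`,
`Tree.image` with `φ = some`). Differences: `p (z - z') = -(lin b + (t - t') g) - (jj - jj')`,
`|jj - jj'| < 2p`. -/
theorem Geo.ext {c₀ αS tot R e α β κ Rb : ℝ} {D : ℕ} (hS : S.Geo c₀ D αS tot R)
    (hB : B.Good e α β κ Rb) :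
    (S.ext B T g).Geo (c₀ * B.cst) (D + B.k) (αS * α) (tot * β) (max R Rb) := by
  have hp : (0 : ℝ) < B.p := Nat.cast_pos.2 B.hp.pos
  have hne : ∀ (h : S.ι ⊕ Option (Fin B.k) → ℝ) (x : S.Ξ × B.Box)
      (l : S.Lab × (B.T × (Fin B.k → Bool))), (S.ext B T g).W h x l ≠ 0 →
      S.W (fun i => h (Sum.inl i)) x.1 l.1 ≠ 0 ∧
        B.wt g (B.red (S.uu B T g h x l.1)) l.2.1 l.2.2 ≠ 0 := fun h x l hl =>
    mul_ne_zero_iff.1 hl
  have hsp : 0 < B.s / B.p := div_pos hB.s_pos hp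
  refine
    { det_ne := ?_
      ne := ?_
      c_pos := mul_pos hS.c_pos hB.cst_pos
      W_nonneg := fun h x l => mul_nonneg (hS.W_nonneg _ _ _) (hB.wt_nonneg _ _ _ _)
      W_le := fun h x l => mul_le_mul (hS.W_le _ _ _) (hB.wt_le _ _ l.2.1.2 _)
        (hB.wt_nonneg _ _ _ _) hS.α_nonneg
      α_nonneg := mul_nonneg hS.α_nonneg hB.α_nonneg
      tot_le := fun h x => ?_
      tree := fun h x C hC hW => ?_
      cmp := fun h x l hl => ?_
      range := fun h x l hl o => ?_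
      diff := fun h x l l' hl hl' => ?_ }
  · rw [det_ext]
    exact mul_ne_zero hS.det_ne (mul_ne_zero hB.σ_pos.ne' (pow_ne_zero _ hB.s_pos.ne'))
  · obtain ⟨ξ⟩ := hS.ne
    exact ⟨(ξ, fun _ => ⟨0, hB.rh_pos⟩)⟩
  · refine (S.sum_W_ext B T g h x).trans_le ?_
    refine le_trans (Finset.sum_le_sum fun a _ =>
      mul_le_mul_of_nonneg_left (hB.mul_le _ _) (hS.W_nonneg _ _ _)) ?_
    rw [← Finset.sum_mul]
    exact mul_le_mul_of_nonneg_right (hS.tot_le _ _) hB.β_nonneg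
  · refine Tree.graft (α := S.Lab) (β := B.T × (Fin B.k → Bool))
      (pos := S.pos (fun i => h (Sum.inl i)) x.1)
      (fun a y o => B.kid g (S.uu B T g h x a) y.1 y.2 o + o.elim (S.t0 B h) fun _ => 0) C
      (hS.tree _ _ _ (hC.image _) ?_) ?_
    · intro a ha
      obtain ⟨l, hl, rfl⟩ := Finset.mem_image.1 ha
      exact (hne h x l (hW l hl)).1
    · intro a ha
      obtain ⟨l, hl, rfl⟩ := Finset.mem_image.1 ha
      refine Tree.subset (B := Finset.univ.image fun ε => (l.2.1, ε))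
        ((tree_cube B.k fun i => (S.uu B T g h x l.1 i - l.2.1 * B.lift g i) / B.p).image _ some 0
          ?_) ?_ ⟨l.2, Finset.mem_image.2 ⟨l, Finset.mem_filter.2 ⟨hl, rfl⟩, rfl⟩⟩
      · intro ε _ i
        simp [Blk.kid]
      · intro y hy
        obtain ⟨l', hl', rfl⟩ := Finset.mem_image.1 hy
        obtain ⟨hl'1, hl'2⟩ := Finset.mem_filter.1 hl'
        have h1 := (hne h x l (hW l hl)).2
        have h2 := (hne h x l' (hW l' hl'1)).2
        rw [hl'2] at h2
        have h3 : l.2.1 = l'.2.1 := Subtype.ext (hB.wt_unique _ _ l.2.1.2 l'.2.1.2 h1 h2)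
        exact Finset.mem_image.2 ⟨l'.2.2, Finset.mem_univ _, by rw [h3]⟩
  · obtain ⟨h1, h2⟩ := hne h x l hl
    have c1 := hS.cmp _ _ _ h1
    have c2 := hB.geo l.2.1 l.2.1.2 (B.red (S.uu B T g h x l.1) - (l.2.1 : ℤ) • g) l.2.2 _ _
      (S.ext_off_none B T g hB.σ_pos h x l) (S.ext_off_some B T g hB.s_pos hB.rh_pos h x l)
    rw [← B.wt_eq_of_ne _ _ _ _ h2] at c2
    have c3 := mul_le_mul c1 c2 (mul_nonneg hB.cst_pos.le (hB.wt_nonneg _ _ _ _))
      (mul_nonneg (abs_nonneg _) (gd_pos _).le)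
    refine le_trans (le_of_eq ?_) (c3.trans (le_of_eq ?_))
    · change c₀ * B.cst * (S.W (fun i => h (Sum.inl i)) x.1 l.1 *
        B.wt g (B.red (S.uu B T g h x l.1)) l.2.1 l.2.2) = _
      ring
    · rw [det_ext, abs_mul, abs_of_pos (mul_pos hB.σ_pos (pow_pos hB.s_pos _))]
      have e1 : gd (h - (S.ext B T g).M.mulVec fun i => ((S.ext B T g).pos h x l i : ℝ)) =
          ∏ o : S.ι ⊕ Option (Fin B.k), g1 (S.off B T g h x l o) := rfl
      rw [e1, Fintype.prod_sum_type, Fintype.prod_option, Finset.prod_mul_distrib,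
        Finset.prod_const, Finset.card_univ, Fintype.card_fin, gd]
      rw [Finset.prod_congr rfl fun i _ => congrArg g1 (S.ext_off_inl B T g h x l i)]
      ring
  · obtain ⟨h1, h2⟩ := hne h x l hl
    change |S.off B T g h x l o| ≤ _
    rcases o with i | _ | i
    · exact (congrArg abs (S.ext_off_inl B T g h x l i)).trans_le
        ((hS.range _ _ _ h1 i).trans (le_max_left _ _))
    · refine (S.ext_off_none B T g hB.σ_pos h x l).trans (le_trans ?_ (le_max_right _ _))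
      refine le_trans ?_ hB.range0
      have h3 : |((l.2.1 : ℤ) : ℝ)| ≤ B.N := by exact_mod_cast hB.T_sub _ l.2.1.2
      nlinarith [hB.σ_pos]
    · refine le_trans ?_ (hB.range1.trans (le_max_right _ _))
      have h3 := S.ext_off_some B T g hB.s_pos hB.rh_pos h x l i
      obtain ⟨h4, h5⟩ := Blk.jj_range (B.red (S.uu B T g h x l.1) - (l.2.1 : ℤ) • g) l.2.2 i
      have h4' : -(B.p : ℝ) ≤ B.jj (B.red (S.uu B T g h x l.1) - (l.2.1 : ℤ) • g) l.2.2 i := by
        exact_mod_cast h4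
      have h5' : (B.jj (B.red (S.uu B T g h x l.1) - (l.2.1 : ℤ) • g) l.2.2 i : ℝ) ≤ B.p := by
        exact_mod_cast h5.le
      have h6 : (B.rh : ℝ) ≤ B.p := by exact_mod_cast hB.rh_le
      have h7 : B.s / B.p * B.p = B.s := div_mul_cancel₀ _ hp.ne'
      rw [abs_le] at h3 ⊢
      constructor <;> nlinarith [h3.1, h3.2]
  · obtain ⟨h1, -⟩ := hne h x l hl
    obtain ⟨h1', -⟩ := hne h x l' hl'
    have hp' : (0 : ℤ) < B.p := Nat.cast_pos.2 B.hp.pos
    set j : Fin B.k → ℤ := fun i =>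
      B.jj (B.red (S.uu B T g h x l.1) - (l.2.1 : ℤ) • g) l.2.2 i -
        B.jj (B.red (S.uu B T g h x l'.1) - (l'.2.1 : ℤ) • g) l'.2.2 i with hj
    change _ ∈ S.extΩ B T g
    refine Finset.mem_image.2 ⟨(S.pos (fun i => h (Sum.inl i)) x.1 l.1 -
      S.pos (fun i => h (Sum.inl i)) x.1 l'.1, (l.2.1 : ℤ) - l'.2.1, fun i => -(j i / B.p)),
      Finset.mem_product.2 ⟨hS.diff _ _ _ _ h1 h1', Finset.mem_product.2 ⟨?_, ?_⟩⟩, ?_⟩
    · have h3 := abs_le.1 (hB.T_sub _ l.2.1.2)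
      have h4 := abs_le.1 (hB.T_sub _ l'.2.1.2)
      simp only [Finset.mem_Icc]
      omega
    · refine Fintype.mem_piFinset.2 fun i => ?_
      obtain ⟨h4, h5⟩ := Blk.jj_range (B.red (S.uu B T g h x l.1) - (l.2.1 : ℤ) • g) l.2.2 i
      obtain ⟨h6, h7⟩ := Blk.jj_range (B.red (S.uu B T g h x l'.1) - (l'.2.1 : ℤ) • g) l'.2.2 i
      have h8 : j i / B.p < 2 := Int.ediv_lt_of_lt_mul hp' (by simp only [hj]; omega)
      have h9 : -2 ≤ j i / B.p := Int.le_ediv_of_mul_le hp' (by simp only [hj]; omega)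
      simp only [Finset.mem_Icc]
      omega
    · funext o
      rcases o with i | _ | i
      · rfl
      · change (l.2.1 : ℤ) - l'.2.1 = (l.2.1 + S.t0 B h) - (l'.2.1 + S.t0 B h)
        ring
      · change -(S.lin B T (S.pos (fun i => h (Sum.inl i)) x.1 l.1 -
            S.pos (fun i => h (Sum.inl i)) x.1 l'.1) i + ((l.2.1 : ℤ) - l'.2.1) * B.lift g i) / B.p
            + -(j i / B.p) = (B.kid g (S.uu B T g h x l.1) l.2.1 l.2.2 (some i) + 0) -
              (B.kid g (S.uu B T g h x l'.1) l'.2.1 l'.2.2 (some i) + 0)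
        have e1 : -(S.lin B T (S.pos (fun i => h (Sum.inl i)) x.1 l.1 -
            S.pos (fun i => h (Sum.inl i)) x.1 l'.1) i + ((l.2.1 : ℤ) - l'.2.1) * B.lift g i) =
            j i + B.p * (B.kid g (S.uu B T g h x l.1) l.2.1 l.2.2 (some i) -
              B.kid g (S.uu B T g h x l'.1) l'.2.1 l'.2.2 (some i)) := by
          simp only [hj, Blk.jj_eq, uu, lin, Pi.sub_apply, Pi.add_apply, sub_mul,
            Finset.sum_sub_distrib]
          ring
        rw [e1, Int.add_mul_ediv_left _ _ hp'.ne']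
        ring

lemma Geo.mono {S : St} {c₀ αS tot R αS' tot' R' : ℝ} {D D' : ℕ} (hS : S.Geo c₀ D αS tot R)
    (hD : D ≤ D') (hα : αS ≤ αS') (ht : tot ≤ tot') (hR : R ≤ R') : S.Geo c₀ D' αS' tot' R' := by
  exact { hS with
    W_le := fun h ξ a => (hS.W_le h ξ a).trans hα
    α_nonneg := hS.α_nonneg.trans hα
    tot_le := fun h ξ => (hS.tot_le h ξ).trans ht
    tree := fun h ξ C hC hW => (hS.tree h ξ C hC hW).le hD
    range := fun h ξ a ha i => (hS.range h ξ a ha i).trans hR }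

lemma Nxt.mono {S : St} {B : Blk} {c π τ c' π' τ' : ℝ} (h : S.Nxt B c π τ) (hc : c' ≤ c)
    (hπ : π ≤ π') (hτ : τ ≤ τ') : S.Nxt B c' π' τ' := by
  refine le_trans (by linarith) (le_trans h (fr_mono fun row hr h' v => ?_))
  refine le_trans (by linarith) (le_trans (hr h' v) (fr_mono fun x hx => hc.trans hx))

/-- A good row gives, for every target, an alternative of total weight `≥ c`. -/
lemma RowGood.exists_total {S : St} {B : Blk} {T : S.ι → B.A} {g : B.A} {c τ : ℝ}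
    (h : S.RowGood B T g c τ) (hτ : τ < 1) (h' : (S.ext B T g).ι → ℝ) :
    ∃ x : (S.ext B T g).Ξ, c ≤ ∑ l, (S.ext B T g).W h' x l := by
  obtain ⟨x, hx⟩ := exists_of_fr_pos
    (lt_of_lt_of_le (by linarith) (h (fun i => h' (Sum.inl i)) (B.red (S.v1 B g h'))))
  exact ⟨x, hx.trans_eq (S.sum_W_ext B T g h' x).symm⟩

end St

/-- Forget the labels (`pos` is injective on the support by `Tree.sep`), `u = c₀ W`, reindex by
`Fintype.equivFin`. -/
theorem vertP_of_geo (S : St) {c₀ αS tot R : ℝ} {D : ℕ} (hS : S.Geo c₀ D αS tot R)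
    (htot : ∀ h, ∃ ξ, 1 / 2 ≤ ∑ a, S.W h ξ a) :
    ∃ (M : Matrix (Fin (Fintype.card S.ι)) (Fin (Fintype.card S.ι)) ℝ)
      (Ω : Finset (Fin (Fintype.card S.ι) → ℤ)), Ω.card = S.Ω.card ∧
      VertP M Ω D R c₀ (c₀ * αS) := by
  classical
  let e := Fintype.equivFin S.ι
  have hinj : Function.Injective fun (a : S.ι → ℤ) => a ∘ e.symm := fun a b hab => by
    funext i
    simpa using congrFun hab (e i)
  refine ⟨S.M.submatrix e.symm e.symm, S.Ω.image fun a => a ∘ e.symm,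
    Finset.card_image_of_injective _ hinj, ?_, fun h => ?_⟩
  · rw [Matrix.det_submatrix_equiv_self]; exact hS.det_ne
  obtain ⟨ξ, hξ⟩ := htot (h ∘ e)
  let C : Finset S.Lab := Finset.univ.filter fun a => S.W (h ∘ e) ξ a ≠ 0
  have hC : ∀ a, a ∈ C ↔ S.W (h ∘ e) ξ a ≠ 0 := fun a => by simp [C]
  have hsum : ∑ a ∈ C, S.W (h ∘ e) ξ a = ∑ a, S.W (h ∘ e) ξ a := Finset.sum_filter_ne_zero _
  have hne : C.Nonempty := by
    rw [Finset.nonempty_iff_ne_empty]
    intro h0
    rw [← hsum, h0, Finset.sum_empty] at hξ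
    norm_num at hξ
  have hT := hS.tree (h ∘ e) ξ C hne fun a ha => (hC a).1 ha
  let f : S.Lab → Fin (Fintype.card S.ι) → ℤ := fun a => S.pos (h ∘ e) ξ a ∘ e.symm
  have hf : ∀ a ∈ C, ∀ b ∈ C, f a = f b → a = b := fun a ha b hb hab => by
    by_contra hne
    obtain ⟨i, hi⟩ := hT.sep ha hb hne
    have := congrFun (hinj hab) i
    omega
  let u : (Fin (Fintype.card S.ι) → ℤ) → ℝ := fun z =>
    ∑ a ∈ C with f a = z, c₀ * S.W (h ∘ e) ξ a
  have hu : ∀ a ∈ C, u (f a) = c₀ * S.W (h ∘ e) ξ a := fun a ha => by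
    have : C.filter (fun b => f b = f a) = {a} := by
      ext b
      simp only [Finset.mem_filter, Finset.mem_singleton]
      exact ⟨fun hb => hf b hb.1 a ha hb.2, fun hb => by subst hb; exact ⟨ha, rfl⟩⟩
    simp only [u, this, Finset.sum_singleton]
  have hoff : ∀ a i, (h - (S.M.submatrix e.symm e.symm).mulVec fun i => (f a i : ℝ)) i =
      (h ∘ e - S.M.mulVec fun i => (S.pos (h ∘ e) ξ a i : ℝ)) (e.symm i) := fun a i => by
    simp only [Pi.sub_apply, Function.comp_apply, Equiv.apply_symm_apply, Matrix.mulVec,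
      dotProduct, Matrix.submatrix_apply, f]
    congr 1
    exact Equiv.sum_comp e.symm fun j => S.M (e.symm i) j * (S.pos (h ∘ e) ξ a j : ℝ)
  refine ⟨C.image f, u, hT.image f e 0 (by simp [f]), ?_, fun z hz => ?_⟩
  · rw [Finset.sum_image hf, Finset.sum_congr rfl hu, ← Finset.mul_sum, hsum]
    nlinarith [hS.c_pos]
  · obtain ⟨a, ha, rfl⟩ := Finset.mem_image.1 hz
    have ha' := (hC a).1 ha
    rw [hu a ha]
    refine ⟨mul_nonneg hS.c_pos.le (hS.W_nonneg _ _ _),
      mul_le_mul_of_nonneg_left (hS.W_le _ _ _) hS.c_pos.le, ?_, fun i => ?_, fun z' hz' => ?_⟩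
    · refine (hS.cmp _ _ _ ha').trans (le_of_eq ?_)
      rw [Matrix.det_submatrix_equiv_self]
      congr 1
      simp only [gd, hoff]
      exact (Equiv.prod_comp e.symm fun j =>
        g1 ((h ∘ e - S.M.mulVec fun i => (S.pos (h ∘ e) ξ a i : ℝ)) j)).symm
    · rw [hoff]
      exact hS.range _ _ _ ha' _
    · obtain ⟨b, hb, rfl⟩ := Finset.mem_image.1 hz'
      exact Finset.mem_image.2 ⟨_, hS.diff _ _ _ _ ha' ((hC b).1 hb), rfl⟩

end Crest.Agent.R225
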