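import Crest.Agent.R225.SDefs

/-! Task `R225 GridLim`: grid points near a compact set. -/

set_option autoImplicit false
open MeasureTheory Filter Topology

namespace Crest.Agent.R225

variable {m : ℕ} {S : Set (Fin m → ℝ)}

lemma gridS_mono {S' : Set (Fin m → ℝ)} (h : S ⊆ S') (η : ℝ) : gridS S η ⊆ gridS S' η := by
  rintro y ⟨s, hs, hy⟩
  exact ⟨s, h hs, hy⟩

lemma GridLim_bd (hS : IsCompact S) : ∃ R : ℝ, 0 ≤ R ∧ ∀ s ∈ S, ∀ i, |s i| ≤ R := by
  obtain ⟨R, hR, h⟩ := hS.isBounded.exists_pos_norm_le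
  exact ⟨R, hR.le, fun s hs i => (norm_le_pi_norm s i).trans (h s hs)⟩

lemma GridLim_abs {R η : ℝ} (hR : ∀ s ∈ S, ∀ i, |s i| ≤ R) (hη : 0 < η) {y : Fin m → ℤ}
    (hy : y ∈ gridS S η) (i : Fin m) : |(y i : ℝ)| ≤ (R + η) / η := by
  obtain ⟨s, hs, h⟩ := hy
  rw [le_div_iff₀ hη, mul_comm, ← abs_of_pos hη, ← abs_mul, abs_of_pos hη]
  have h1 := abs_le.mp (h i)
  have h2 := abs_le.mp (hR s hs i)
  rw [abs_le]
  constructor <;> linarith [h1.1, h1.2, h2.1, h2.2]

lemma gridS_finite (hS : IsCompact S) {η : ℝ} (hη : 0 < η) : (gridS S η).Finite := by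
  obtain ⟨R, -, hR⟩ := GridLim_bd hS
  refine (Set.Finite.pi' (t := fun _ : Fin m => Set.Icc (-⌈(R + η) / η⌉) ⌈(R + η) / η⌉)
    fun _ => Set.finite_Icc _ _).subset fun y hy i => ?_
  have h := (GridLim_abs hR hη hy i).trans (Int.le_ceil _)
  rw [← Int.cast_abs, Int.cast_le] at h
  exact abs_le.mp h

lemma gridS_bound (hS : IsCompact S) : ∃ ρ : ℝ, 1 ≤ ρ ∧ ∀ η : ℝ, 0 < η → η ≤ 1 →
    ∀ y ∈ gridS S η, ∀ i, |(y i : ℝ)| ≤ ρ / η := by
  obtain ⟨R, hR0, hR⟩ := GridLim_bd hS
  refine ⟨R + 1, by linarith, fun η hη hη1 y hy i => (GridLim_abs hR hη hy i).trans ?_⟩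
  gcongr

lemma GridLim_cell {η : ℝ} (hη : 0 < η) (y : Fin m → ℤ) :
    volume.real (Set.pi Set.univ fun i => Set.Ico (η * y i) (η * y i + η)) = η ^ m := by
  rw [measureReal_def, Real.volume_pi_Ico_toReal (fun i => by simp [hη.le])]
  simp

lemma GridLim_mem {η : ℝ} (hη : 0 < η) (y : Fin m → ℤ) (x : Fin m → ℝ) :
    x ∈ (Set.pi Set.univ fun i => Set.Ico (η * y i) (η * y i + η)) ↔
      ∀ i, ⌊x i / η⌋ = y i := by
  simp only [Set.mem_pi, Set.mem_univ, true_imp_iff, Set.mem_Ico, Int.floor_eq_iff,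
    le_div_iff₀ hη, div_lt_iff₀ hη]
  refine forall_congr' fun i => ?_
  rw [mul_comm η, add_mul, one_mul]

/-- The cells `η y + [0, η)^m` of the grid points cover `S`. -/
lemma vol_le_gridS (hS : IsCompact S) {η : ℝ} (hη : 0 < η) (G : Finset (Fin m → ℤ))
    (hG : (G : Set (Fin m → ℤ)) = gridS S η) : volume.real S ≤ G.card * η ^ m := by
  have hsub : S ⊆ ⋃ y ∈ G, Set.pi Set.univ fun i => Set.Ico (η * y i) (η * y i + η) := by
    intro s hs
    have hm := (GridLim_mem hη (fun i => ⌊s i / η⌋) s).2 fun _ => rfl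
    refine Set.mem_biUnion (x := fun i => ⌊s i / η⌋) ?_ hm
    rw [hG]
    refine ⟨s, hs, fun i => ?_⟩
    have := hm i (Set.mem_univ i)
    rw [abs_le]
    constructor <;> linarith [this.1, this.2]
  have hfin : volume (⋃ y ∈ G, Set.pi Set.univ fun i => Set.Ico (η * y i) (η * y i + η)) ≠ ⊤ := by
    refine ((measure_biUnion_finset_le _ _).trans_lt ?_).ne
    refine ENNReal.sum_lt_top.2 fun y _ => ?_
    rw [Real.volume_pi_Ico]
    exact ENNReal.prod_lt_top fun _ _ => ENNReal.ofReal_lt_top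
  refine (measureReal_mono hsub hfin).trans ((measureReal_biUnion_finset_le _ _).trans ?_)
  simp only [GridLim_cell hη, Finset.sum_const, nsmul_eq_mul, le_refl]

/-- The disjoint cells lie in `cthickening ((W + 2) η) S`;
`tendsto_measure_cthickening_of_isCompact`. -/
lemma thick_gridS_le (hS : IsCompact S) (W : ℕ) {ε : ℝ} (hε : 0 < ε) :
    ∃ η₀ : ℝ, 0 < η₀ ∧ ∀ η : ℝ, 0 < η → η ≤ η₀ → ∀ G : Finset (Fin m → ℤ),
      (G : Set (Fin m → ℤ)) = gridS S η →
      ((thick G W).card : ℝ) * η ^ m ≤ volume.real S + ε := by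
  have h1 : Tendsto (fun r => volume.real (Metric.cthickening r S)) (𝓝 0) (𝓝 (volume.real S)) :=
    (ENNReal.tendsto_toReal hS.measure_lt_top.ne).comp (tendsto_measure_cthickening_of_isCompact hS)
  have h2 := h1.eventually (gt_mem_nhds (lt_add_of_pos_right (volume.real S) hε))
  obtain ⟨δ, hδ, h3⟩ := Metric.eventually_nhds_iff.1 h2
  have hW : (0 : ℝ) < W + 2 := by positivity
  refine ⟨δ / 2 / (W + 2), by positivity, fun η hη hη₀ G hG => ?_⟩
  rw [le_div_iff₀ hW] at hη₀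
  have h4 : volume.real (Metric.cthickening (η * (W + 2)) S) < volume.real S + ε := by
    apply h3
    rw [Real.dist_eq, sub_zero, abs_of_pos (by positivity)]
    linarith
  refine le_trans ?_ h4.le
  have hsub : (⋃ y ∈ thick G W, Set.pi Set.univ fun i => Set.Ico (η * y i) (η * y i + η)) ⊆
      Metric.cthickening (η * (W + 2)) S := by
    refine Set.iUnion₂_subset fun y hy x hx => ?_
    obtain ⟨z, hz, hyz⟩ := Finset.mem_biUnion.1 hy
    have hz' : z ∈ gridS S η := by rw [← hG]; exact hz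
    obtain ⟨s, hs, hzs⟩ := hz'
    refine Metric.mem_cthickening_of_dist_le x s _ S hs ((dist_pi_le_iff (by positivity)).2 fun i => ?_)
    have a1 := hx i (Set.mem_univ i)
    have a2 := abs_le.mp (hzs i)
    have a3 := Finset.mem_Icc.1 (Fintype.mem_piFinset.1 hyz i)
    have a4 : (z i : ℝ) - W ≤ y i := by exact_mod_cast a3.1
    have a5 : (y i : ℝ) ≤ z i + W := by exact_mod_cast a3.2
    have a6 := mul_le_mul_of_nonneg_left a4 hη.le
    have a7 := mul_le_mul_of_nonneg_left a5 hη.le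
    rw [Real.dist_eq, abs_le]
    constructor <;> nlinarith [a1.1, a1.2, a2.1, a2.2]
  refine le_trans (le_of_eq ?_) (measureReal_mono hsub hS.cthickening.measure_lt_top.ne)
  rw [measureReal_biUnion_finset ?_ ?_ ?_]
  · simp only [GridLim_cell hη, Finset.sum_const, nsmul_eq_mul]
  · intro y _ z _ hyz
    refine Set.disjoint_left.2 fun x hx hx' => hyz (funext fun i => ?_)
    rw [← (GridLim_mem hη y x).1 hx i, (GridLim_mem hη z x).1 hx' i]
  · exact fun y _ => MeasurableSet.univ_pi fun _ => measurableSet_Ico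
  · intro y _
    rw [Real.volume_pi_Ico]
    exact (ENNReal.prod_lt_top fun _ _ => ENNReal.ofReal_lt_top).ne

lemma card_thick_le (G : Finset (Fin m → ℤ)) (X W : ℕ) (hX : ∀ y ∈ G, ∀ l, |y l| ≤ X) :
    (thick G W).card ≤ (2 * (X + W) + 1) ^ m := by
  have hsub : thick G W ⊆ Fintype.piFinset fun _ : Fin m =>
      Finset.Icc (-((X + W : ℕ) : ℤ)) ((X + W : ℕ) : ℤ) := by
    intro y hy
    obtain ⟨z, hz, hyz⟩ := Finset.mem_biUnion.1 hy
    refine Fintype.mem_piFinset.2 fun i => ?_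
    have a3 := Finset.mem_Icc.1 (Fintype.mem_piFinset.1 hyz i)
    have a4 := abs_le.mp (hX z hz i)
    rw [Finset.mem_Icc]
    push_cast
    constructor <;> linarith [a3.1, a3.2, a4.1, a4.2]
  refine (Finset.card_le_card hsub).trans (le_of_eq ?_)
  rw [Fintype.card_piFinset]
  simp only [Int.card_Icc, Finset.prod_const, Finset.card_univ, Fintype.card_fin]
  congr 1
  omega

/-- `ρ ↦ vol (S ∩ closedBall 0 ρ)` is continuous (even Lipschitz on bounded sets); IVT. -/
lemma exists_subset_vol (hm : 1 ≤ m) (hS : IsCompact S) {v : ℝ} (hv : 0 ≤ v)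
    (hvS : v ≤ volume.real S) : ∃ S' ⊆ S, IsCompact S' ∧ volume.real S' = v := by
  obtain ⟨R, hR0, hR⟩ := GridLim_bd hS
  let i : Fin m := ⟨0, hm⟩
  have hmeas : Measurable fun x : Fin m → ℝ => x i := measurable_pi_apply i
  obtain ⟨μ, hμ⟩ : ∃ μ : Measure ℝ, ∀ A, MeasurableSet A →
      μ A = volume ((fun x : Fin m → ℝ => x i) ⁻¹' A ∩ S) :=
    ⟨(volume.restrict S).map fun x => x i, fun A hA => by
      rw [Measure.map_apply hmeas hA, Measure.restrict_apply (hmeas hA)]⟩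
  have : NullSingletonClass μ := ⟨fun x => by
    rw [hμ _ (measurableSet_singleton x)]
    exact measure_mono_null Set.inter_subset_left
      (Measure.pi_hyperplane (fun _ : Fin m => (volume : Measure ℝ)) i x)⟩
  have : IsFiniteMeasure μ := ⟨by
    rw [hμ _ MeasurableSet.univ]
    exact (measure_mono Set.inter_subset_right).trans_lt hS.measure_lt_top⟩
  have hc : ContinuousOn (fun x => ∫ _t in Set.Icc (-R) x, (1 : ℝ) ∂μ) (Set.Icc (-R) R) :=
    intervalIntegral.continuousOn_primitive_Icc (integrable_const _)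
  have hval : ∀ x, ∫ _t in Set.Icc (-R) x, (1 : ℝ) ∂μ =
      volume.real ((fun x : Fin m → ℝ => x i) ⁻¹' Set.Icc (-R) x ∩ S) := fun x => by
    rw [setIntegral_const, smul_eq_mul, mul_one, measureReal_def, hμ _ measurableSet_Icc,
      measureReal_def]
  have hlo : ∫ _t in Set.Icc (-R) (-R), (1 : ℝ) ∂μ ≤ v := by
    simp only [Set.Icc_self, setIntegral_const, measureReal_def, measure_singleton]
    simpa using hv
  have hhi : v ≤ ∫ _t in Set.Icc (-R) R, (1 : ℝ) ∂μ := by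
    have hsub : S ⊆ (fun x : Fin m → ℝ => x i) ⁻¹' Set.Icc (-R) R :=
      fun s hs => abs_le.mp (hR s hs i)
    rw [hval, Set.inter_eq_right.2 hsub]
    exact hvS
  obtain ⟨x, -, hx⟩ := intermediate_value_Icc (by linarith : -R ≤ R) hc
    (show v ∈ Set.Icc _ _ from ⟨hlo, hhi⟩)
  exact ⟨_, Set.inter_subset_right, hS.inter_left (isClosed_Icc.preimage (continuous_apply i)),
    (hval x).symm.trans hx⟩

end Crest.Agent.R225
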