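import Crest.Agent.R225.SDefs

/-! Task `R225 ModP`: independence mod `p`, congruence lattices, choice of `ℓ`. -/

set_option autoImplicit false

namespace Crest.Agent.R225

theorem modp_fr_ker {G H : Type} [AddCommGroup G] [AddCommGroup H] [Fintype G] [Fintype H]
    (φ : G →+ H) (hφ : Function.Surjective φ) :
    fr (fun x => φ x = 0) = 1 / (Fintype.card H : ℝ) := by
  classical
  have h1 : Nat.card φ.ker * Nat.card H = Nat.card G := by
    rw [← φ.ker.card_mul_index, AddSubgroup.index_ker, AddMonoidHom.range_eq_top.2 hφ,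
      AddSubgroup.card_top]
  have h2 : Nat.card φ.ker = (Finset.univ.filter fun x => φ x = 0).card := by
    rw [← Fintype.card_subtype, ← Nat.card_eq_fintype_card]
    rfl
  rw [h2, Nat.card_eq_fintype_card, Nat.card_eq_fintype_card] at h1
  have h3 : (0 : ℝ) < Fintype.card G := Nat.cast_pos.2 Fintype.card_pos
  have h4 : (0 : ℝ) < Fintype.card H := Nat.cast_pos.2 Fintype.card_pos
  rw [fr_eq_card, div_eq_div_iff h3.ne' h4.ne', one_mul]
  exact_mod_cast h1

/-- The integer matrix with rows `(1, y)`. -/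
def modpM {m : ℕ} (B : Finset (Fin m → ℤ)) : Matrix B (Option (Fin m)) ℤ :=
  fun y o => o.elim 1 fun i => y.1 i

theorem modp_det_ne {m : ℕ} (B : Finset (Fin m → ℤ))
    (hB : LinearIndepOn ℚ hatQ (B : Set (Fin m → ℤ))) :
    (modpM B * (modpM B).transpose).det ≠ 0 := by
  classical
  intro h0
  set M : Matrix B (Option (Fin m)) ℚ := (modpM B).map (Int.castRingHom ℚ) with hM
  have h1 : (M * M.transpose).det = 0 := by
    rw [hM, ← Matrix.transpose_map, ← Matrix.map_mul, ← RingHom.mapMatrix_apply,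
      ← RingHom.map_det, h0, map_zero]
  obtain ⟨v, hv, h2⟩ := Matrix.exists_mulVec_eq_zero_iff.2 h1
  have h3 : M.transpose.mulVec v = 0 := by
    rw [← dotProduct_self_eq_zero, Matrix.dotProduct_mulVec, Matrix.vecMul_transpose,
      Matrix.mulVec_mulVec, h2, zero_dotProduct]
  refine hv (funext (Fintype.linearIndependent_iff.1 hB v ?_))
  funext o
  have h4 := congrFun h3 o
  rw [Finset.sum_apply]
  refine Eq.trans ?_ h4
  rw [Matrix.mulVec, dotProduct]
  refine Finset.sum_congr rfl fun y _ => ?_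
  cases o <;> simp [hM, modpM, hatQ, mul_comm]

theorem modp_det_le {m : ℕ} (B : Finset (Fin m → ℤ)) (X : ℝ) (hX1 : 1 ≤ X)
    (hX : ∀ y ∈ B, ∀ i, |(y i : ℝ)| ≤ X) :
    |(((modpM B * (modpM B).transpose).det : ℤ) : ℝ)| ≤
      (B.card.factorial : ℝ) * ((m + 1) * X ^ 2) ^ B.card := by
  classical
  have h1 : ∀ (y : B) o, |((modpM B y o : ℤ) : ℝ)| ≤ X := fun y o => by
    cases o with
    | none => simpa [modpM] using hX1
    | some i => exact hX y.1 y.2 i
  have h2 := Matrix.det_le (A := (modpM B * (modpM B).transpose).map (Int.castRingHom ℝ))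
    (abv := AbsoluteValue.abs) (x := (m + 1) * X ^ 2) fun y y' => by
      simp only [Matrix.map_apply, Matrix.mul_apply, Matrix.transpose_apply, eq_intCast,
        AbsoluteValue.abs_apply, Int.cast_sum, Int.cast_mul]
      refine (Finset.abs_sum_le_sum_abs _ _).trans ((Finset.sum_le_card_nsmul _ _ (X ^ 2)
        fun o _ => ?_).trans_eq (by simp))
      rw [abs_mul, sq]
      exact mul_le_mul (h1 y o) (h1 y' o) (abs_nonneg _) (by linarith)
  rw [← RingHom.mapMatrix_apply, ← RingHom.map_det] at h2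
  simpa using h2

/-- The integer Gram determinant is nonzero and `< p` in absolute value (`Matrix.det_le`), so the
vectors `(1, y)` stay independent over `ZMod p`; the linear map `(ℓ, t) ↦ (ℓ · y - t)_{y ∈ B}` is
onto, its kernel has index `p^{|B|}`. -/
theorem fr_sel {m p : ℕ} [Fact p.Prime] (B : Finset (Fin m → ℤ)) (X : ℝ) (hX1 : 1 ≤ X)
    (hX : ∀ y ∈ B, ∀ i, |(y i : ℝ)| ≤ X) (hB : LinearIndepOn ℚ hatQ (B : Set (Fin m → ℤ)))
    (hp : (B.card.factorial : ℝ) * ((m + 1) * X ^ 2) ^ B.card < p) :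
    fr (fun q : (Fin m → ZMod p) × ZMod p => ∀ y ∈ B, dotp q.1 y = q.2) =
      (1 / (p : ℝ)) ^ B.card := by
  classical
  set M : Matrix B (Option (Fin m)) (ZMod p) := (modpM B).map (Int.castRingHom (ZMod p)) with hM
  have h1 : (M * M.transpose).det ≠ 0 := by
    rw [hM, ← Matrix.transpose_map, ← Matrix.map_mul, ← RingHom.mapMatrix_apply,
      ← RingHom.map_det, eq_intCast, Ne, ZMod.intCast_zmod_eq_zero_iff_dvd]
    intro hd
    refine modp_det_ne B hB (Int.eq_zero_of_abs_lt_dvd hd ?_)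
    exact_mod_cast (modp_det_le B X hX1 hX).trans_lt hp
  have h2 : Function.Surjective M.mulVec := fun w => by
    obtain ⟨u, hu⟩ := Matrix.mulVec_surjective_iff_isUnit.2
      ((Matrix.isUnit_iff_isUnit_det _).2 h1.isUnit) w
    exact ⟨M.transpose.mulVec u, by rw [Matrix.mulVec_mulVec, hu]⟩
  let φ : (Fin m → ZMod p) × ZMod p →+ (B → ZMod p) :=
    AddMonoidHom.mk' (fun q y => dotp q.1 y.1 - q.2) fun q q' => by
      funext y
      simp only [dotp, Prod.fst_add, Prod.snd_add, Pi.add_apply, add_mul, Finset.sum_add_distrib]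
      ring
  have h3 : Function.Surjective φ := fun w => by
    obtain ⟨u, hu⟩ := h2 w
    refine ⟨(fun i => u (some i), -u none), funext fun y => ?_⟩
    rw [← hu]
    simp [φ, dotp, Matrix.mulVec, dotProduct, hM, modpM, Fintype.sum_option, mul_comm, add_comm]
  have h4 := modp_fr_ker φ h3
  rw [Fintype.card_fun, ZMod.card, Fintype.card_coe, Nat.cast_pow, ← one_div_pow] at h4
  rw [← h4]
  refine fr_congr fun q => ?_
  simp [φ, funext_iff, sub_eq_zero]

/-- Basis of the congruence lattice: the identity matrix with row `inr i₀` (`ℓ i₀ ≠ 0`) replaced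
by integer lifts of `ℓ i₀⁻¹ T j`, `-ℓ i₀⁻¹ ℓ j`, and `p` on the diagonal. -/
theorem lat_basis {ι : Type} [Fintype ι] [DecidableEq ι] {m p : ℕ} [Fact p.Prime]
    (l : Fin m → ZMod p) (hl : l ≠ 0) (T : ι → ZMod p) :
    ∃ G : Matrix (ι ⊕ Fin m) (ι ⊕ Fin m) ℤ, G.det = p ∧
      ∀ (a : ι → ℤ) (y : Fin m → ℤ), dotp l y = ∑ i, a i • T i →
        ∃ z : ι ⊕ Fin m → ℤ, G.mulVec z = Sum.elim a y := by
  classical
  obtain ⟨i₀, hi₀⟩ := Function.ne_iff.1 hl
  have hi₀' : l i₀ ≠ 0 := hi₀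
  let r : ι ⊕ Fin m → ℤ := Sum.elim (fun j => (((l i₀)⁻¹ * T j).val : ℤ))
    fun j => if j = i₀ then 0 else ((-((l i₀)⁻¹ * l j)).val : ℤ)
  have hr : r (Sum.inr i₀) = 0 := by simp [r]
  refine ⟨(1 : Matrix _ _ ℤ).updateRow (Sum.inr i₀) (r + Pi.single (Sum.inr i₀) (p : ℤ)), ?_,
    fun a y h => ?_⟩
  · rw [← Matrix.cramer_transpose_apply, Matrix.transpose_one, Matrix.cramer_one]
    simp [hr]
  · have h1 : (p : ℤ) ∣ y i₀ - r ⬝ᵥ Sum.elim a y := by
      rw [← ZMod.intCast_zmod_eq_zero_iff_dvd]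
      refine mul_left_cancel₀ hi₀' ?_
      have h2 : ∑ j, l i₀ * (((if j = i₀ then 0 else ((-((l i₀)⁻¹ * l j)).val : ℤ)) * y j : ℤ) :
          ZMod p) = l i₀ * y i₀ - dotp l y := by
        rw [dotp, ← Finset.add_sum_erase _ _ (Finset.mem_univ i₀),
          ← Finset.add_sum_erase _ (fun i => l i * (y i : ZMod p)) (Finset.mem_univ i₀),
          sub_add_cancel_left, ← Finset.sum_neg_distrib]
        simp only [if_true, zero_mul, Int.cast_zero, mul_zero, zero_add]
        refine Finset.sum_congr rfl fun j hj => ?_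
        rw [if_neg (Finset.ne_of_mem_erase hj)]
        push_cast
        rw [ZMod.natCast_zmod_val]
        field_simp
      have h3 : ∑ j, l i₀ * (((((l i₀)⁻¹ * T j).val : ℤ) * a j : ℤ) : ZMod p) = ∑ i, a i • T i := by
        refine Finset.sum_congr rfl fun j _ => ?_
        push_cast
        rw [ZMod.natCast_zmod_val, zsmul_eq_mul]
        field_simp
      simp only [dotProduct, Fintype.sum_sum_type, r, Sum.elim_inl, Sum.elim_inr, Int.cast_sub,
        Int.cast_add, Int.cast_sum, mul_sub, mul_add, Finset.mul_sum]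
      rw [h2, h3, h]
      ring
    obtain ⟨k, hk⟩ := h1
    refine ⟨Function.update (Sum.elim a y) (Sum.inr i₀) k, funext fun j => ?_⟩
    by_cases hj : j = Sum.inr i₀
    · subst hj
      have h4 : r ⬝ᵥ Function.update (Sum.elim a y) (Sum.inr i₀) k = r ⬝ᵥ Sum.elim a y := by
        refine Finset.sum_congr rfl fun j _ => ?_
        by_cases hj : j = Sum.inr i₀
        · rw [hj, hr, zero_mul, zero_mul]
        · rw [Function.update_of_ne hj]
      rw [Matrix.mulVec, Matrix.updateRow_self, add_dotProduct, h4, single_dotProduct,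
        Function.update_self, Sum.elim_inr]
      linarith
    · rw [Matrix.mulVec, Matrix.updateRow_ne hj]
      change (1 : Matrix _ _ ℤ).mulVec _ j = _
      rw [Matrix.one_mulVec, Function.update_of_ne hj]

theorem modp_card_le {α β : Type} [DecidableEq α] [DecidableEq β] (C : Finset α) (f : α → β) :
    C.card ≤ (C.image f).card + (C.offDiag.filter fun x => f x.1 = f x.2).card := by
  rcases C.eq_empty_or_nonempty with rfl | ⟨a, -⟩
  · simp
  have : Nonempty α := ⟨a⟩
  have hg : ∀ y ∈ C, Function.invFunOn f C (f y) ∈ C ∧ f (Function.invFunOn f C (f y)) = f y :=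
    fun y hy => Function.invFunOn_pos ⟨y, hy, rfl⟩
  rw [← Finset.card_filter_add_card_filter_not (s := C) fun y => Function.invFunOn f C (f y) = y]
  refine add_le_add (Finset.card_le_card_of_injOn f (fun y hy => ?_) fun y hy y' hy' h => ?_)
    (Finset.card_le_card_of_injOn (fun y => (y, Function.invFunOn f C (f y))) (fun y hy => ?_)
      fun y _ y' _ h => congrArg Prod.fst h)
  · exact Finset.mem_coe.2 (Finset.mem_image_of_mem f (Finset.mem_filter.1 hy).1)
  · rw [← (Finset.mem_filter.1 hy).2, ← (Finset.mem_filter.1 hy').2, h]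
  · obtain ⟨h1, h2⟩ := Finset.mem_filter.1 hy
    exact Finset.mem_coe.2 (Finset.mem_filter.2
      ⟨Finset.mem_offDiag.2 ⟨h1, (hg y h1).1, fun h => h2 h.symm⟩, (hg y h1).2.symm⟩)

theorem modp_pair {m p : ℕ} [Fact p.Prime] {y y' : Fin m → ℤ}
    (h : ¬ ∀ i, (y i : ZMod p) = y' i) :
    fr (fun l : Fin m → ZMod p => dotp l y = dotp l y') = 1 / (p : ℝ) := by
  classical
  obtain ⟨i, hi⟩ := not_forall.1 h
  have hi' : (y i : ZMod p) - y' i ≠ 0 := sub_ne_zero.2 hi
  let φ : (Fin m → ZMod p) →+ ZMod p :=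
    AddMonoidHom.mk' (fun l => dotp l y - dotp l y') fun q q' => by
      simp only [dotp, Pi.add_apply, add_mul, Finset.sum_add_distrib]
      ring
  have h3 : Function.Surjective φ := fun w => by
    refine ⟨Pi.single i (w / ((y i : ZMod p) - y' i)), ?_⟩
    simp only [φ, dotp, AddMonoidHom.mk'_apply, Pi.single_apply, ite_mul, zero_mul,
      Finset.sum_ite_eq', Finset.mem_univ, if_true]
    field_simp
  have h4 := modp_fr_ker φ h3
  rw [ZMod.card] at h4
  rw [← h4]
  exact fr_congr fun l => sub_eq_zero.symm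

/-- Markov for each `Q` (failure `≤ 1/(4|𝒬|)`), and for the number of colliding pairs of `𝒞`
(each pair collides with probability `1/p`; the image has at least `|𝒞| - #pairs` points). -/
theorem choose_l {m p : ℕ} [Fact p.Prime] {J : Type} (𝒬 : Finset J)
    (U : J → (Fin m → ZMod p) × ZMod p → Prop) (ε : J → ℝ) (hε0 : ∀ Q ∈ 𝒬, 0 < ε Q)
    (hε : ∀ Q ∈ 𝒬, fr (U Q) ≤ ε Q) (𝒞 : Finset (Fin m → ℤ)) (h4 : 4 ≤ 𝒞.card)
    (hp : 4 * 𝒞.card ≤ p)
    (hinj : ∀ y ∈ 𝒞, ∀ y' ∈ 𝒞, (∀ i, (y i : ZMod p) = y' i) → y = y') :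
    ∃ l : Fin m → ZMod p, l ≠ 0 ∧
      (∀ Q ∈ 𝒬, fr (fun t => U Q (l, t)) ≤ 4 * 𝒬.card * ε Q) ∧
      𝒞.card ≤ 2 * (𝒞.image (dotp l)).card := by
  classical
  have hc : (4 : ℝ) ≤ 𝒞.card := by exact_mod_cast h4
  have hp' : 4 * (𝒞.card : ℝ) ≤ p := by exact_mod_cast hp
  let N : (Fin m → ZMod p) → ℝ := fun l =>
    ((𝒞.offDiag.filter fun x => dotp l x.1 = dotp l x.2).card : ℝ)
  have hN : av N ≤ 𝒞.card / 4 := by
    have h1 : N = fun l => ∑ x ∈ 𝒞.offDiag, if dotp l x.1 = dotp l x.2 then (1 : ℝ) else 0 := by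
      funext l
      rw [Finset.sum_boole]
    rw [h1, av_sum]
    refine (Finset.sum_le_card_nsmul _ _ (1 / (p : ℝ)) fun x hx => ?_).trans ?_
    · obtain ⟨x1, x2, x3⟩ := Finset.mem_offDiag.1 hx
      rw [← fr_eq_av, modp_pair fun h => x3 (hinj _ x1 _ x2 h)]
    · have h2 : (𝒞.offDiag.card : ℝ) ≤ 𝒞.card * 𝒞.card := by
        rw [Finset.offDiag_card]
        exact_mod_cast Nat.sub_le _ _
      rw [nsmul_eq_mul, mul_one_div, div_le_div_iff₀ (by linarith) (by norm_num)]
      nlinarith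
  have h1 : fr (fun l => (𝒞.card : ℝ) / 2 ≤ N l) ≤ 1 / 2 := by
    refine (fr_markov (fun l => Nat.cast_nonneg _) (by linarith)).trans ?_
    rw [div_le_iff₀ (by linarith)]
    linarith
  have h2 : fr (fun l : Fin m → ZMod p =>
      ∃ Q ∈ 𝒬, 4 * 𝒬.card * ε Q ≤ fr (fun t => U Q (l, t))) ≤ 1 / 4 := by
    refine (fr_exists_le _ _).trans ((Finset.sum_le_card_nsmul _ _ (1 / (4 * (𝒬.card : ℝ)))
      fun Q hQ => ?_).trans ?_)
    · have h3 : (0 : ℝ) < 𝒬.card := Nat.cast_pos.2 (Finset.card_pos.2 ⟨Q, hQ⟩)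
      have h5 := hε0 Q hQ
      refine (fr_markov (fun l => fr_nonneg _) (by positivity)).trans ?_
      rw [← fr_prod, div_le_div_iff₀ (by positivity) (by positivity)]
      nlinarith [hε Q hQ]
    · rcases Nat.eq_zero_or_pos 𝒬.card with h | h
      · simp [h]
      · have h3 : (0 : ℝ) < 𝒬.card := Nat.cast_pos.2 h
        rw [nsmul_eq_mul]
        exact le_of_eq (by field_simp)
  obtain ⟨l, hl⟩ := exists_of_fr_pos (p := fun l : Fin m → ZMod p => ¬ ((𝒞.card : ℝ) / 2 ≤ N l ∨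
      ∃ Q ∈ 𝒬, 4 * 𝒬.card * ε Q ≤ fr (fun t => U Q (l, t)))) (by
    rw [fr_not]
    linarith [fr_or_le (fun l => (𝒞.card : ℝ) / 2 ≤ N l) fun l : Fin m → ZMod p =>
      ∃ Q ∈ 𝒬, 4 * 𝒬.card * ε Q ≤ fr (fun t => U Q (l, t))])
  rw [not_or] at hl
  have h3 : 𝒞.card ≤ 2 * (𝒞.image (dotp l)).card := by
    have h5 : (𝒞.card : ℝ) ≤ (𝒞.image (dotp l)).card + N l := by
      simp only [N]
      exact_mod_cast modp_card_le 𝒞 (dotp l)
    have h6 := not_le.1 hl.1
    have h7 : (𝒞.card : ℝ) ≤ 2 * (𝒞.image (dotp l)).card := by linarith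
    exact_mod_cast h7
  refine ⟨l, ?_, fun Q hQ => (not_le.1 fun h => hl.2 ⟨Q, hQ, h⟩).le, h3⟩
  rintro rfl
  have h5 : (𝒞.image (dotp (0 : Fin m → ZMod p))).card ≤ 1 :=
    Finset.card_le_one.2 fun a ha b hb => by
      obtain ⟨y, -, rfl⟩ := Finset.mem_image.1 ha
      obtain ⟨y', -, rfl⟩ := Finset.mem_image.1 hb
      simp [dotp]
  omega

end Crest.Agent.R225
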