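import Crest.Agent.R225.Tree

/-! Task `R225 Split`: for a random homomorphism `T : ℤ^ι → G`, translates of sets along a tree
are almost independent. -/

set_option autoImplicit false

namespace Crest.Agent.R225

namespace SplitAux

lemma markov {X : Type} [Fintype X] {f : X → ℝ} (hf : ∀ x, 0 ≤ f x) {b M : ℝ} (hb : 0 ≤ b)
    (hM : 0 < M) (h : av f ≤ b) : fr (fun x => M * b < f x) ≤ 1 / M := by
  rcases hb.eq_or_lt with rfl | hb
  · refine (fr_false fun x hx => ?_).le.trans (by positivity)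
    rw [mul_zero] at hx
    have h1 : f x ≤ ∑ y, f y := Finset.single_le_sum (fun y _ => hf y) (Finset.mem_univ x)
    have : Nonempty X := ⟨x⟩
    have h2 : (0 : ℝ) < Fintype.card X := Nat.cast_pos.2 Fintype.card_pos
    exact absurd (div_pos (hx.trans_le h1) h2) (not_lt.2 h)
  · refine (fr_mono fun x hx => le_of_lt hx).trans ((fr_markov hf (mul_pos hM hb)).trans ?_)
    rw [div_le_div_iff₀ (mul_pos hM hb) hM, one_mul, mul_comm]
    exact mul_le_mul_of_nonneg_left h hM.le

variable {G ι Ω : Type} [AddCommGroup G] [Fintype G] [Fintype ι] [DecidableEq ι]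

lemma fr_sub (p : G → Prop) (c : G) : fr (fun x => p (x - c)) = fr p :=
  fr_equiv (Equiv.subRight c) p

lemma fr_update (i : ι) (p : (ι → G) → Prop) :
    fr p = av fun T : ι → G => fr fun t : G => p (Function.update T i t) := by
  have hinv : Function.Involutive fun z : (ι → G) × G => (Function.update z.1 i z.2, z.1 i) := by
    intro z
    simp
  have h1 := fr_equiv (hinv.toPerm _) fun z : (ι → G) × G => p z.1
  rw [← fr_prod fun z : (ι → G) × G => p (Function.update z.1 i z.2)]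
  refine Eq.trans ?_ h1.symm
  rw [fr_prod]
  unfold fr
  exact congrArg av (funext fun T => (av_const _).symm)

lemma av_corr (p q : G → Prop) (c : G) :
    av (fun t : G => fr fun y : G => p y ∧ q (y - (t - c))) = fr p * fr q := by
  classical
  simp only [fr_eq_av]
  rw [av_comm, ← av_mul_const]
  congr 1
  funext y
  by_cases hp : p y
  · simp only [hp, true_and, if_true, one_mul]
    have := av_equiv (Equiv.subLeft (y + c)) fun z => if q z then (1 : ℝ) else 0
    rw [← this]
    congr 1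
    funext t
    rw [Equiv.subLeft_apply, show y - (t - c) = y + c - t by abel]
  · simp only [hp, false_and, if_false, zero_mul]
    exact av_const 0

omit [Fintype G] in
lemma sum_update (a : ι → ℤ) (T : ι → G) (i : ι) (t : G) :
    ∑ j, a j • Function.update T i t j = ∑ j, a j • T j + a i • (t - T i) := by
  rw [← Finset.add_sum_erase _ _ (Finset.mem_univ i),
    ← Finset.add_sum_erase _ (fun j => a j • T j) (Finset.mem_univ i), Function.update_self,
    Finset.sum_congr rfl fun j hj => by rw [Function.update_of_ne (Finset.ne_of_mem_erase hj)],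
    smul_sub]
  abel

/-- frequency of the intersection -/
noncomputable def F (pos : Ω → ι → ℤ) (U : Ω → G → Prop) (B : Finset Ω) (T : ι → G) : ℝ :=
  fr (fun x : G => ∀ ω ∈ B, U ω (x - ∑ i, pos ω i • T i))

variable {pos : Ω → ι → ℤ} {U : Ω → G → Prop}

lemma F_update {B : Finset Ω} {i : ι} {w : ℤ} (h : ∀ a ∈ B, pos a i = w) (T : ι → G) (t : G) :
    F pos U B (Function.update T i t) = F pos U B T := by
  unfold F
  rw [← fr_sub (fun x : G => ∀ ω ∈ B, U ω (x - ∑ i, pos ω i • T i)) (w • (t - T i))]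
  refine fr_congr fun x => forall₂_congr fun ω hω => ?_
  rw [sum_update, h ω hω, sub_sub, add_comm]

lemma av_F [DecidableEq Ω] {B₀ B₁ : Finset Ω} {i : ι} {w : ℤ} (h₀ : ∀ a ∈ B₀, pos a i = w)
    (h₁ : ∀ a ∈ B₁, pos a i = w + 1) (T : ι → G) :
    av (fun t => F pos U (B₀ ∪ B₁) (Function.update T i t)) = F pos U B₀ T * F pos U B₁ T := by
  unfold F
  rw [← av_corr _ _ (T i)]
  congr 1
  funext t
  rw [← fr_sub (fun y : G => (∀ ω ∈ B₀, U ω (y - ∑ i, pos ω i • T i)) ∧
    ∀ ω ∈ B₁, U ω (y - (t - T i) - ∑ i, pos ω i • T i)) (w • (t - T i))]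
  refine fr_congr fun x => ?_
  rw [Finset.forall_mem_union]
  refine and_congr (forall₂_congr fun ω hω => ?_) (forall₂_congr fun ω hω => ?_)
  · rw [sum_update, h₀ ω hω, sub_sub, add_comm]
  · rw [sum_update, h₁ ω hω, add_smul, one_smul, sub_sub, sub_sub, add_comm, add_assoc]

lemma split_step [DecidableEq Ω] {B₀ B₁ : Finset Ω} {i : ι} {w : ℤ} (h₀ : ∀ a ∈ B₀, pos a i = w)
    (h₁ : ∀ a ∈ B₁, pos a i = w + 1) {b₀ b₁ M : ℝ} (hM : 0 < M) :
    fr (fun T : ι → G => F pos U B₀ T ≤ b₀ ∧ F pos U B₁ T ≤ b₁ ∧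
      M * (b₀ * b₁) < F pos U (B₀ ∪ B₁) T) ≤ 1 / M := by
  rw [fr_update i]
  refine (av_mono fun T => ?_).trans (av_const (1 / M)).le
  simp only [F_update h₀, F_update h₁]
  by_cases h : F pos U B₀ T ≤ b₀ ∧ F pos U B₁ T ≤ b₁
  · have a0 : 0 ≤ b₀ := (fr_nonneg _).trans h.1
    have a1 : 0 ≤ b₁ := (fr_nonneg _).trans h.2
    refine (fr_mono fun t ht => ht.2.2).trans (markov (fun t => fr_nonneg _) (mul_nonneg a0 a1) hM ?_)
    exact (av_F h₀ h₁ T).trans_le (mul_le_mul h.1 h.2 (fr_nonneg _) a0)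
  · exact (fr_false fun t ht => h ⟨ht.1, ht.2.1⟩).le.trans (by positivity)

lemma sum_le [Fintype Ω] [DecidableEq Ω] {N : ℝ} (hN : (Fintype.card Ω : ℝ) ≤ N) (hN1 : 1 ≤ N) :
    ∑ B ∈ (Finset.univ : Finset Ω).powerset.erase ∅, 1 / N ^ B.card ≤ 2 * Fintype.card Ω / N := by
  have h0 : 0 < N := by linarith
  have h1 := Finset.prod_one_add (f := fun _ : Ω => 1 / N) Finset.univ
  simp only [Finset.prod_const, Finset.card_univ] at h1
  rw [← Finset.add_sum_erase _ _ (Finset.empty_mem_powerset _), Finset.card_empty, pow_zero] at h1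
  have h2 : (1 + 1 / N) ^ Fintype.card Ω ≤ Real.exp (Fintype.card Ω * (1 / N)) := by
    rw [Real.exp_nat_mul]
    exact pow_le_pow_left₀ (by positivity) (by linarith [Real.add_one_le_exp (1 / N)]) _
  have h3 : |Fintype.card Ω * (1 / N)| = Fintype.card Ω / N := by
    rw [abs_of_nonneg (by positivity), mul_one_div]
  have h4 := Real.abs_exp_sub_one_le (x := Fintype.card Ω * (1 / N))
    (by rw [h3, div_le_one h0]; exact hN)
  rw [h3] at h4
  simp only [one_div_pow] at h1
  rw [mul_div_assoc]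
  linarith [le_abs_self (Real.exp (Fintype.card Ω * (1 / N)) - 1)]

end SplitAux

/-- Call `(D', B)` good for `T` if the inequality holds. If some tree of depth `D` is bad take the
least `D' ≤ D` carrying a bad tree `B`. Fix once and for all (choice, independent of `T`) a last
step of a derivation of `Tree pos D' B`; it is neither `single` (translation invariance) nor
`mono`, so `B = B₀ ∪ B₁` split at coordinate `i` with both halves good at `D' - 1`. The
frequencies of the two halves do not depend on `T i` (translation by `w • T i`), and averaging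
over `T i` the frequency for `B` is their product, so by Markov this event has probability
`≤ N^{-|B|}`. Sum: `D ∑_{s ≥ 1} C(|Ω|, s) N^{-s} ≤ D ((1 + 1/N)^{|Ω|} - 1) ≤ 2 D |Ω| / N`. -/
theorem split_lemma {G ι Ω : Type} [AddCommGroup G] [Fintype G] [Fintype ι] [DecidableEq ι]
    [Fintype Ω] [DecidableEq Ω] (pos : Ω → ι → ℤ) (U : Ω → G → Prop) (ε : Ω → ℝ)
    (hε : ∀ ω, fr (U ω) ≤ ε ω) (N : ℝ) (hN : (Fintype.card Ω : ℝ) ≤ N) (hN1 : 1 ≤ N) (D : ℕ) :
    fr (fun T : ι → G => ¬ ∀ B : Finset Ω, Tree pos D B →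
      fr (fun x : G => ∀ ω ∈ B, U ω (x - ∑ i, pos ω i • T i)) ≤
        N ^ (D * B.card) * ∏ ω ∈ B, ε ω) ≤ 2 * D * Fintype.card Ω / N := by
  have hε0 : ∀ ω, 0 ≤ ε ω := fun ω => (fr_nonneg _).trans (hε ω)
  have hP : ∀ B : Finset Ω, 0 ≤ ∏ ω ∈ B, ε ω := fun B => Finset.prod_nonneg fun ω _ => hε0 ω
  have h0 : 0 < N := by linarith
  change fr (fun T : ι → G => ¬ ∀ B : Finset Ω, Tree pos D B →
    SplitAux.F pos U B T ≤ N ^ (D * B.card) * ∏ ω ∈ B, ε ω) ≤ _
  induction D with
  | zero =>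
    refine (fr_false fun T h => h fun B hB => ?_).le.trans (by positivity)
    cases hB with
    | single a =>
      rw [zero_mul, pow_zero, one_mul, Finset.prod_singleton]
      refine le_trans (le_of_eq ?_) (hε a)
      rw [← SplitAux.fr_sub (U a) (∑ i, pos a i • T i)]
      exact fr_congr fun x => by simp only [Finset.mem_singleton, forall_eq]
  | succ D ih =>
    have key : ∀ B : Finset Ω, fr (fun T : ι → G => (∀ B : Finset Ω, Tree pos D B →
        SplitAux.F pos U B T ≤ N ^ (D * B.card) * ∏ ω ∈ B, ε ω) ∧ Tree pos (D + 1) B ∧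
        N ^ ((D + 1) * B.card) * ∏ ω ∈ B, ε ω < SplitAux.F pos U B T) ≤ 1 / N ^ B.card := by
      intro B
      by_cases hB : Tree pos (D + 1) B
      swap
      · exact (fr_false fun T h => hB h.2.1).le.trans (by positivity)
      cases hB with
      | mono hB =>
        refine (fr_false fun T h => ?_).le.trans (by positivity)
        refine absurd h.2.2 (not_lt.2 ((h.1 B hB).trans (mul_le_mul_of_nonneg_right
          (pow_le_pow_right₀ hN1 (Nat.mul_le_mul_right _ (Nat.le_succ _))) (hP B))))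
      | @split _ B₀ B₁ i w t₀ t₁ h₀ h₁ =>
        have hd : Disjoint B₀ B₁ := Finset.disjoint_left.2 fun a ha hb => by
          have := h₀ a ha
          have := h₁ a hb
          omega
        refine (fr_mono fun T h => ?_).trans (SplitAux.split_step (U := U) h₀ h₁
          (b₀ := N ^ (D * B₀.card) * ∏ ω ∈ B₀, ε ω) (b₁ := N ^ (D * B₁.card) * ∏ ω ∈ B₁, ε ω)
          (pow_pos h0 _))
        refine ⟨h.1 _ t₀, h.1 _ t₁, lt_of_eq_of_lt ?_ h.2.2⟩
        rw [Finset.prod_union hd, Finset.card_union_of_disjoint hd]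
        ring
    refine le_trans (fr_mono fun T h => ?_) ((fr_or_le _ _).trans ((add_le_add ih
      ((fr_exists_le ((Finset.univ : Finset Ω).powerset.erase ∅) _).trans
        ((Finset.sum_le_sum fun B _ => key B).trans (SplitAux.sum_le hN hN1)))).trans_eq ?_))
    · refine or_iff_not_imp_left.2 fun h' => ?_
      push Not at h
      obtain ⟨B, hB, hB'⟩ := h
      exact ⟨B, Finset.mem_erase.2 ⟨hB.nonempty.ne_empty,
        Finset.mem_powerset.2 (Finset.subset_univ _)⟩, not_not.1 h', hB, hB'⟩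
    · push_cast
      ring

/-- Version for `G = H ⧸ Γ` presented by a finite transversal `τ : S → H`. -/
theorem split_quot {H S ι Ω : Type} [AddCommGroup H] [Fintype S] [Fintype ι] [DecidableEq ι]
    [Fintype Ω] [DecidableEq Ω] (Γ : AddSubgroup H) (τ : S → H)
    (hτ : ∀ h : H, ∃! σ : S, h - τ σ ∈ Γ) (pos : Ω → ι → ℤ) (U : H → Prop)
    (hU : ∀ h, ∀ γ ∈ Γ, U (h + γ) ↔ U h) (ε : ℝ) (hε : fr (fun σ => U (τ σ)) ≤ ε)
    (N : ℝ) (hN : (Fintype.card Ω : ℝ) ≤ N) (hN1 : 1 ≤ N) (D : ℕ) :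
    fr (fun T : ι → S => ¬ ∀ B : Finset Ω, Tree pos D B → ∀ w : H,
      fr (fun σ : S => ∀ ω ∈ B, U (τ σ + w - ∑ i, pos ω i • τ (T i))) ≤
        N ^ (D * B.card) * ε ^ B.card) ≤ 2 * D * Fintype.card Ω / N := by
  have hb : Function.Bijective fun σ : S => (QuotientAddGroup.mk (τ σ) : H ⧸ Γ) := by
    refine ⟨fun σ σ' h => (hτ (τ σ)).unique (by rw [sub_self]; exact Γ.zero_mem) ?_, fun g => ?_⟩
    · exact QuotientAddGroup.eq_iff_sub_mem.1 h
    · obtain ⟨h, rfl⟩ := QuotientAddGroup.mk_surjective g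
      obtain ⟨σ, hσ, -⟩ := hτ h
      exact ⟨σ, (QuotientAddGroup.eq_iff_sub_mem.2 hσ).symm⟩
  set e := Equiv.ofBijective _ hb with he
  have he' : ∀ σ, e σ = QuotientAddGroup.mk (τ σ) := fun σ => rfl
  let _ : Fintype (H ⧸ Γ) := Fintype.ofEquiv S e
  have hU' : ∀ h : H, U (τ (e.symm (QuotientAddGroup.mk h))) ↔ U h := fun h => by
    have h1 : h - τ (e.symm (QuotientAddGroup.mk h)) ∈ Γ :=
      QuotientAddGroup.eq_iff_sub_mem.1 (by rw [← he', e.apply_symm_apply])
    rw [← hU _ _ h1, add_sub_cancel]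
  have h1 := split_lemma (G := H ⧸ Γ) pos (fun _ g => U (τ (e.symm g))) (fun _ => ε)
    (fun _ => (fr_equiv e.symm fun σ => U (τ σ)).trans_le hε) N hN hN1 D
  rw [← fr_equiv (Equiv.piCongrRight fun _ : ι => e)] at h1
  refine le_trans (fr_mono fun T h => ?_) h1
  refine fun h' => h fun B hB w => ?_
  have h2 := h' B hB
  rw [Finset.prod_const, ← fr_equiv (e.trans (Equiv.addRight (QuotientAddGroup.mk w)))] at h2
  refine le_trans (le_of_eq (fr_congr fun σ => forall₂_congr fun ω _ => ?_)) h2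
  rw [← hU']
  simp only [Equiv.trans_apply, Equiv.coe_addRight, Equiv.piCongrRight_apply, Pi.map_apply, he',
    QuotientAddGroup.mk_sub, QuotientAddGroup.mk_add, QuotientAddGroup.mk_sum,
    QuotientAddGroup.mk_zsmul]

end Crest.Agent.R225
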