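import Crest.Agent.R225.Norm
import Crest.Agent.R225.Split
import Crest.Agent.R225.ModP
import Crest.Agent.R225.GridLim

/-! Task `R225 HCore`: the covering lattice `{(M a, η y) : ℓ · y ≡ T · a mod p}`. -/

set_option autoImplicit false
open MeasureTheory
open scoped Pointwise

namespace Crest.Agent.R225

/-- Geometry. `zQ` is within `lam` of `z`, `s ∈ slice K zQ`; then
`(z, (1 - lam) s + lam y') = (1 - lam) (zQ, s) + lam (zQ + (z - zQ)/lam, y')`. -/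
lemma hole_fill {d m : ℕ} {K : Set (Fin d ⊕ Fin m → ℝ)} (hK : Convex ℝ K) {R ϱ lam : ℝ}
    (hl0 : 0 < lam) (hl1 : lam ≤ 1)
    (hbox : ∀ (z : Fin d → ℝ) (y : Fin m → ℝ), (∀ i, |z i| ≤ R + 1) → (∀ i, |y i| ≤ ϱ) →
      Sum.elim z y ∈ K) {z zQ : Fin d → ℝ} (hQ : ∀ i, |zQ i| ≤ R) (hz : ∀ i, |z i - zQ i| ≤ lam)
    {s e : Fin m → ℝ} (hs : s ∈ slice K zQ) (he : ∀ i, |e i| ≤ lam * ϱ) :
    Sum.elim z ((1 - lam) • s + e) ∈ K := by
  have h1 : Sum.elim zQ s ∈ K := hs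
  have h2 := hbox (fun i => zQ i + (z i - zQ i) / lam) (fun i => e i / lam)
    (fun i => (abs_add_le _ _).trans (add_le_add (hQ i) (by
      rw [abs_div, abs_of_pos hl0, div_le_one hl0]; exact hz i)))
    fun i => by rw [abs_div, abs_of_pos hl0, div_le_iff₀' hl0]; exact he i
  have h3 := hK h1 h2 (sub_nonneg.2 hl1) hl0.le (sub_add_cancel 1 lam)
  convert h3 using 1
  funext j
  rcases j with i | i
  · simp only [Sum.elim_inl, Pi.add_apply, Pi.smul_apply, smul_eq_mul]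
    field_simp
    ring
  · simp only [Sum.elim_inr, Pi.add_apply, Pi.smul_apply, smul_eq_mul]
    field_simp

/-- A set `𝒞` of small integer vectors, pairwise distinct mod `p`, for large `p`
(`η = p^{-1/m}`; the cube `|y i| ≤ t / η` has at least `(t / η)^m = t^m p` points). -/
lemma exists_small_set {m : ℕ} (hm : 2 ≤ m) {t : ℝ} (ht : 0 < t) : ∃ p₀ : ℕ, ∀ p : ℕ, p₀ ≤ p →
    (p : ℝ) ^ (-1 / m : ℝ) ≤ t / 2 ∧
    ∃ 𝒞 : Finset (Fin m → ℤ), 4 ≤ 𝒞.card ∧ 4 * 𝒞.card ≤ p ∧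
      min (t ^ m) (1 / 8) * p ≤ 𝒞.card ∧
      (∀ y ∈ 𝒞, ∀ i, |(p : ℝ) ^ (-1 / m : ℝ) * y i| ≤ t) ∧
      ∀ y ∈ 𝒞, ∀ y' ∈ 𝒞, (∀ i, (y i : ZMod p) = y' i) → y = y' := by
  have hμ : 0 < min (t ^ m) (1 / 8) := lt_min (by positivity) (by norm_num)
  have hμ8 : min (t ^ m) (1 / 8) ≤ 1 / 8 := min_le_right _ _
  have hμt : min (t ^ m) (1 / 8) ≤ t ^ m := min_le_left _ _
  generalize min (t ^ m) (1 / 8) = μ at *
  refine ⟨⌈(2 * t + 1 + 2 / t) ^ m + 8 + 4 / μ⌉₊, fun p hp => ?_⟩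
  have hp' := Nat.ceil_le.1 hp
  have a1 : 0 < 2 / t := by positivity
  have a2 : 0 < (2 * t + 1 + 2 / t) ^ m := by positivity
  have a3 : 0 < 4 / μ := by positivity
  have hp0 : (0 : ℝ) < p := by linarith
  have hm0 : m ≠ 0 := by omega
  obtain ⟨s, hs0, hsm, hη⟩ : ∃ s : ℝ, 0 < s ∧ s ^ m = p ∧ (p : ℝ) ^ (-1 / m : ℝ) = s⁻¹ :=
    ⟨(p : ℝ) ^ ((m : ℝ)⁻¹), by positivity, Real.rpow_inv_natCast_pow hp0.le hm0, by
      rw [← Real.rpow_neg hp0.le, neg_div, one_div]⟩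
  have hs : 2 * t + 1 + 2 / t ≤ s :=
    le_of_pow_le_pow_left₀ hm0 hs0.le (by rw [hsm]; linarith)
  have hs2 : s ^ 2 ≤ p := hsm ▸ pow_le_pow_right₀ (by linarith) hm
  rw [hη]
  refine ⟨?_, ?_⟩
  · rw [inv_le_comm₀ hs0 (by positivity), inv_div]
    linarith
  have hk : (⌊t * s⌋₊ : ℝ) ≤ t * s := Nat.floor_le (by positivity)
  have hk' := Nat.lt_floor_add_one (t * s)
  generalize ⌊t * s⌋₊ = k at hk hk'
  have hA : ⌈μ * p⌉₊ ≤ (Fintype.piFinset fun _ : Fin m => Finset.Icc (-(k : ℤ)) k).card := by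
    rw [Nat.ceil_le, Fintype.card_piFinset, Finset.prod_const, Int.card_Icc,
      show (k : ℤ) + 1 - -k = ((2 * k + 1 : ℕ) : ℤ) by push_cast; ring, Int.toNat_natCast,
      Finset.card_univ, Fintype.card_fin]
    push_cast
    calc μ * p ≤ t ^ m * p := by gcongr
      _ = (t * s) ^ m := by rw [mul_pow, hsm]
      _ ≤ _ := pow_le_pow_left₀ (by positivity) (by linarith [Nat.cast_nonneg (α := ℝ) k]) m
  obtain ⟨𝒞, h𝒞, hc⟩ := Finset.exists_subset_card_eq hA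
  have hb : ∀ y ∈ 𝒞, ∀ i, |y i| ≤ k := fun y hy i =>
    abs_le.2 (Finset.mem_Icc.1 (Fintype.mem_piFinset.1 (h𝒞 hy) i))
  have b1 := Nat.le_ceil (μ * p)
  have b2 := Nat.ceil_lt_add_one (a := μ * p) (by positivity)
  have b3 : 4 ≤ μ * p := (div_le_iff₀' hμ).1 (by linarith)
  have b4 : μ * p ≤ 1 / 8 * p := by gcongr
  refine ⟨𝒞, ?_, ?_, by rw [hc]; exact b1, fun y hy i => ?_, fun y hy y' hy' h => ?_⟩
  · rw [hc]
    exact_mod_cast b3.trans b1
  · rw [hc]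
    have : 4 * (⌈μ * p⌉₊ : ℝ) ≤ p := by linarith
    exact_mod_cast this
  · have : |(y i : ℝ)| ≤ k := by exact_mod_cast hb y hy i
    rw [abs_mul, abs_of_pos (inv_pos.2 hs0), inv_mul_le_iff₀ hs0]
    linarith
  · funext i
    have c1 : (p : ℤ) ∣ y' i - y i := (ZMod.intCast_eq_intCast_iff_dvd_sub _ _ _).1 (h i)
    have c2 : 2 * (k : ℝ) < p := by nlinarith
    have c3 : 2 * (k : ℤ) < p := by exact_mod_cast c2
    have c4 := abs_le.1 (hb y hy i)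
    have c5 := abs_le.1 (hb y' hy' i)
    have := Int.eq_zero_of_abs_lt_dvd c1 (abs_lt.2 ⟨by linarith, by linarith⟩)
    linarith

lemma HCore_trunc {lam : ℝ} (hl : 0 < lam) (x : ℝ) :
    ∃ n : ℤ, |lam * n| ≤ |x| ∧ |x - lam * n| ≤ lam := by
  have key : ∀ x : ℝ, 0 ≤ x → ∃ n : ℤ, |lam * n| ≤ |x| ∧ |x - lam * n| ≤ lam := fun x hx => by
    have h1 := (le_div_iff₀' hl).1 (Int.floor_le (x / lam))
    have h2 := (div_lt_iff₀' hl).1 (Int.lt_floor_add_one (x / lam))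
    have h3 : (0 : ℝ) ≤ ⌊x / lam⌋ := by exact_mod_cast Int.floor_nonneg.2 (by positivity)
    refine ⟨⌊x / lam⌋, ?_, abs_le.2 ⟨by linarith, by linarith⟩⟩
    rwa [abs_of_nonneg (by positivity), abs_of_nonneg hx]
  rcases le_total 0 x with h | h
  · exact key x h
  · obtain ⟨n, h1, h2⟩ := key (-x) (by linarith)
    refine ⟨-n, ?_, ?_⟩
    · rwa [Int.cast_neg, mul_neg, abs_neg, ← abs_neg x]
    · rwa [Int.cast_neg, mul_neg, ← abs_neg, show -(x - -(lam * n)) = -x - lam * n by ring]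

/-- The cells. -/
lemma HCore_cells (d : ℕ) {R lam : ℝ} (hR : 0 ≤ R) (hl : 0 < lam) :
    ∃ 𝒬 : Finset (Fin d → ℤ), 𝒬.Nonempty ∧ (𝒬.card : ℝ) ≤ (2 * R / lam + 1) ^ d ∧
      ∀ z : Fin d → ℝ, (∀ i, |z i| ≤ R) →
        ∃ q ∈ 𝒬, (∀ i, |lam * q i| ≤ |z i|) ∧ ∀ i, |z i - lam * q i| ≤ lam := by
  refine ⟨Fintype.piFinset fun _ => Finset.Icc (-(⌊R / lam⌋₊ : ℤ)) ⌊R / lam⌋₊,
    ⟨0, Fintype.mem_piFinset.2 fun i => by simp⟩, ?_, fun z hz => ?_⟩
  · have hk : (⌊R / lam⌋₊ : ℝ) ≤ R / lam := Nat.floor_le (by positivity)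
    generalize ⌊R / lam⌋₊ = k at hk
    rw [Fintype.card_piFinset, Finset.prod_const, Int.card_Icc,
      show (k : ℤ) + 1 - -k = ((2 * k + 1 : ℕ) : ℤ) by push_cast; ring, Int.toNat_natCast,
      Finset.card_univ, Fintype.card_fin, mul_div_assoc]
    push_cast
    gcongr
  · choose q h1 h2 using fun i => HCore_trunc hl (z i)
    refine ⟨q, Fintype.mem_piFinset.2 fun i => Finset.mem_Icc.2 (abs_le.1 ?_), h1, h2⟩
    have h3 := (h1 i).trans (hz i)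
    rw [abs_mul, abs_of_pos hl, ← le_div_iff₀' hl, ← Int.cast_abs] at h3
    rw [Int.natCast_floor_eq_floor (by positivity)]
    exact Int.le_floor.2 h3

/-- The numerical bound. -/
lemma HCore_num {α : Type} (P : Finset α) (f : α → ℝ) {L n c : ℝ} (hL : 0 ≤ L)
    (hn : (P.card : ℝ) ≤ n) (hc : c ≤ ∑ a ∈ P, f a) :
    ∏ a ∈ P.filter (fun a => 1 ≤ f a), Real.exp (L - f a) ≤ Real.exp (n * (L + 1) - c) := by
  rw [← Real.exp_sum, Finset.sum_filter]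
  refine Real.exp_le_exp.2 ?_
  calc _ ≤ ∑ a ∈ P, (L + 1 - f a) := Finset.sum_le_sum fun a _ => by
        split_ifs with h
        · linarith
        · linarith [not_le.1 h]
    _ = P.card * (L + 1) - ∑ a ∈ P, f a := by
        rw [Finset.sum_sub_distrib, Finset.sum_const, nsmul_eq_mul]
    _ ≤ _ := by gcongr

lemma HCore_dotp_sub {m p : ℕ} (l : Fin m → ZMod p) (y y' : Fin m → ℤ) :
    dotp l (y - y') = dotp l y - dotp l y' := by
  simp only [dotp, Pi.sub_apply, Int.cast_sub, mul_sub, Finset.sum_sub_distrib]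

/-- The lattice. -/
lemma HCore_lat {d m p : ℕ} [Fact p.Prime] (hm : 2 ≤ m) (M : Matrix (Fin d) (Fin d) ℝ)
    (l : Fin m → ZMod p) (hl : l ≠ 0) (T : Fin d → ZMod p) :
    ∃ g : Matrix (Fin d ⊕ Fin m) (Fin d ⊕ Fin m) ℝ, g.det = M.det ∧
      ∀ (a : Fin d → ℤ) (y : Fin m → ℤ), dotp l y = ∑ i, a i • T i → ∃ z : Fin d ⊕ Fin m → ℤ,
        g.mulVec (fun i => (z i : ℝ)) = Sum.elim (M.mulVec fun i => (a i : ℝ))
          fun i => (p : ℝ) ^ (-1 / m : ℝ) * y i := by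
  obtain ⟨G, hG, h⟩ := lat_basis l hl T
  have hp0 : (0 : ℝ) < p := Nat.cast_pos.2 (Fact.out : p.Prime).pos
  refine ⟨Matrix.fromBlocks M 0 0 ((p : ℝ) ^ (-1 / m : ℝ) • 1) * (Int.castRingHom ℝ).mapMatrix G,
    ?_, fun a y hy => ?_⟩
  · have hm0 : (m : ℝ) ≠ 0 := Nat.cast_ne_zero.2 (by omega)
    rw [Matrix.det_mul, Matrix.det_fromBlocks_zero₂₁, ← RingHom.map_det, hG, Matrix.det_smul,
      Matrix.det_one, Fintype.card_fin, ← Real.rpow_natCast, ← Real.rpow_mul hp0.le,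
      div_mul_cancel₀ _ hm0, Real.rpow_neg_one]
    simp only [eq_intCast, Int.cast_natCast]
    field_simp
  · obtain ⟨z, hz⟩ := h a y hy
    have h1 : ((Int.castRingHom ℝ).mapMatrix G).mulVec (fun i => (z i : ℝ)) =
        Sum.elim (fun i => (a i : ℝ)) fun i => (y i : ℝ) := by
      funext j
      have := RingHom.map_mulVec (Int.castRingHom ℝ) G z j
      rw [hz] at this
      refine this.symm.trans ?_
      rcases j with i | i <;> rfl
    refine ⟨z, ?_⟩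
    rw [← Matrix.mulVec_mulVec, h1, Matrix.fromBlocks_mulVec]
    simp only [Sum.elim_comp_inl, Sum.elim_comp_inr, Matrix.zero_mulVec, add_zero, zero_add,
      Matrix.smul_mulVec, Matrix.one_mulVec]
    rfl

/-- A translate of `- ℓ · 𝒞` is not contained in a set of small frequency. -/
lemma HCore_miss {p : ℕ} [Fact p.Prime] (I : Finset (ZMod p)) (W : ZMod p → Prop) (c : ZMod p)
    (h : fr W < I.card / p) : ∃ x ∈ I, ¬ W (c - x) := by
  classical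
  by_contra hn
  push Not at hn
  have h1 : fr (fun x => x ∈ I) ≤ fr fun x => W (Equiv.subLeft c x) := fr_mono hn
  rw [fr_equiv, fr_eq_card, ZMod.card, Finset.filter_mem_eq_inter, Finset.univ_inter] at h1
  linarith

/-- Cells `𝒬 = {q : Fin d → ℤ, |lam q i| ≤ R}` (`|𝒬| ≤ nQ`), `zQ = lam q` (round `z` towards
`0`, so `gd zQ ≥ gd z`), `S q = (1 - lam) • slice K zQ`, `v q = min (vol (S q)) vmax`,
`U q (ℓ, t) = ∀ y ∈ gridS (S q) η, ℓ · y ≠ t`, `ε q = 4 e^{-v q}` if `1 ≤ v q`, else `1`. Take a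
large prime `p` (`Nat.exists_infinite_primes`), `ℓ` from `choose_l` with `𝒞` from
`exists_small_set` (`t = lam ϱ / 2`), `T` from `split_lemma` for `G = ZMod p`, labels
`↥Ω × ↥𝒬` (`2 D |labels| / N < 1`), `g = fromBlocks M 0 0 (η • 1) * G` (`lat_basis`),
`|det g| = |det M|`. Given `(h, x)`: pattern `P, u`, base point `a₀ ∈ P`,
`B = {a ∈ P | 1 ≤ c₁ V u a / 4}` (nonempty by `hnum`; `|P| ≤ |Ω|`), labels `(a - a₀, q(h - M a))`,
`v q ≥ c₁ V u a / 4`; the bad set `W ⊆ ZMod p` has frequency less than that of the image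
`ℓ · 𝒞`. With `y_x = ⌊x / η⌋` choose `y' ∈ 𝒞` with `ℓ · (y_x - y') - T · a₀ ∉ W`; get `a ∈ B`,
`y'' ∈ gridS` with `ℓ · (y_x - y' - y'') = T · a`; `hole_fill`. -/
theorem hcore {d m : ℕ} (hm : 2 ≤ m) {M : Matrix (Fin d) (Fin d) ℝ} {Ω : Finset (Fin d → ℤ)}
    {D : ℕ} {R c₀ w c₁ V ϱ lam vmax nQ N : ℝ} (hV : VertP M Ω D R c₀ w) (hR : 0 ≤ R)
    {K : Set (Fin d ⊕ Fin m → ℝ)} (hK : Body K) (hvol : volume.real K = V * |M.det|)
    (hV0 : 0 < V) (hc₁ : 0 < c₁) (hM : Marg K c₁ R) (hϱ : 0 < ϱ)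
    (hbox : ∀ (z : Fin d → ℝ) (y : Fin m → ℝ), (∀ i, |z i| ≤ R + 1) → (∀ i, |y i| ≤ ϱ) →
      Sum.elim z y ∈ K)
    (hl0 : 0 < lam) (hl1 : lam ≤ 1) (hl : 1 / 4 ≤ (1 - lam) ^ m)
    (hS : SchP m vmax) (hvmax : c₁ * V * w / 4 ≤ vmax)
    (hnQ : (2 * R / lam + 1) ^ d ≤ nQ) (hN : N = 4 * (D + 1) * (Ω.card + 1) * nQ)
    (hnum : Real.exp (Ω.card * (D * Real.log N + Real.log (16 * nQ) + 1) - c₁ * c₀ * V / 8) <
      min ((lam * ϱ / 2) ^ m) (1 / 8) / 2) :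
    Cov K V := by
  classical
  obtain ⟨hdet, hV⟩ := hV
  have hdet' : 0 < |M.det| := abs_pos.2 hdet
  obtain ⟨𝒬, hQne, hQc, hQ⟩ := HCore_cells d hR hl0
  have hQ1 : (1 : ℝ) ≤ 𝒬.card := by exact_mod_cast hQne.card_pos
  have hQn := hQc.trans hnQ
  -- the horizontal sets
  let S : (Fin d → ℤ) → Set (Fin m → ℝ) := fun q => (1 - lam) • slice K fun i => lam * q i
  let v : (Fin d → ℤ) → ℝ := fun q => min (volume.real (S q)) vmax
  let ε : (Fin d → ℤ) → ℝ := fun q => if 1 ≤ v q then 4 * Real.exp (-v q) else 1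
  have hε0 : ∀ q, 0 < ε q := fun q => by
    simp only [ε]
    split_ifs <;> positivity
  have h1 : ∀ q, ∃ p₀ : ℕ, ∀ (p : ℕ) [Fact p.Prime], p₀ ≤ p →
      fr (fun x : (Fin m → ZMod p) × ZMod p =>
        ∀ y ∈ gridS (S q) ((p : ℝ) ^ (-1 / m : ℝ)), dotp x.1 y ≠ x.2) ≤ ε q := fun q => by
    simp only [ε]
    split_ifs with h
    · exact hS (S q) ((slice_compact hK.1 _).smul _) (v q) h (min_le_right _ _) (min_le_left _ _)
    · exact ⟨0, fun _ _ _ => fr_le_one _⟩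
  choose p₀ hp₀ using h1
  obtain ⟨p₁, hp₁⟩ := exists_small_set hm (t := lam * ϱ / 2) (by positivity)
  obtain ⟨p, hp, hpp⟩ := Nat.exists_infinite_primes (p₁ + 𝒬.sup p₀)
  have : Fact p.Prime := ⟨hpp⟩
  have hp0 : (0 : ℝ) < p := Nat.cast_pos.2 hpp.pos
  obtain ⟨hη, 𝒞, c1, c2, c3, c4, c5⟩ := hp₁ p (by omega)
  have hη0 : 0 < (p : ℝ) ^ (-1 / m : ℝ) := by positivity
  obtain ⟨l, hl', hU, hI⟩ := choose_l 𝒬 _ ε (fun q _ => hε0 q)
    (fun q hq => hp₀ q p ((Finset.le_sup hq).trans (by omega))) 𝒞 c1 c2 c5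
  -- the homomorphism `T`
  have hΩ : (0 : ℝ) ≤ Ω.card := Nat.cast_nonneg _
  have hD : (0 : ℝ) ≤ D := Nat.cast_nonneg _
  have hcard : (Fintype.card (Ω × 𝒬) : ℝ) ≤ Ω.card * nQ := by
    rw [Fintype.card_prod, Fintype.card_coe, Fintype.card_coe, Nat.cast_mul]
    gcongr
  have hn1 : 1 ≤ nQ := hQ1.trans hQn
  have n1 : 0 ≤ Ω.card * nQ := by positivity
  have n2 : 0 ≤ D * (Ω.card * nQ) := by positivity
  have n3 : 0 ≤ D * nQ := by positivity
  have hN1 : 1 ≤ N := by rw [hN]; linarith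
  have hsp := split_lemma (G := ZMod p) (fun ω : Ω × 𝒬 => ω.1.1)
    (fun ω t => ∀ y ∈ gridS (S ω.2.1) ((p : ℝ) ^ (-1 / m : ℝ)), dotp l y ≠ t)
    (fun ω => 4 * 𝒬.card * ε ω.2.1) (fun ω => hU _ ω.2.2) N (by rw [hN]; linarith) hN1 D
  have hlt : 2 * D * (Fintype.card (Ω × 𝒬) : ℝ) / N < 1 := by
    rw [div_lt_one (by linarith), hN]
    have := mul_le_mul_of_nonneg_left hcard hD
    linarith
  rw [fr_not] at hsp
  obtain ⟨T, hT⟩ := exists_of_fr_pos (show 0 < _ by linarith : 0 < fr fun T : Fin d → ZMod p =>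
    ∀ B : Finset (Ω × 𝒬), Tree (fun ω : Ω × 𝒬 => ω.1.1) D B →
      fr (fun x : ZMod p => ∀ ω ∈ B, ∀ y ∈ gridS (S ω.2.1) ((p : ℝ) ^ (-1 / m : ℝ)),
        dotp l y ≠ x - ∑ i, ω.1.1 i • T i) ≤ N ^ (D * B.card) * ∏ ω ∈ B, 4 * 𝒬.card * ε ω.2.1)
  clear hsp hlt hp₀ hp₁ hU
  obtain ⟨g, hg, hg'⟩ := HCore_lat hm M l hl' T
  refine ⟨g, hg ▸ hdet, fun x => ?_, by rw [hg, hvol, mul_div_cancel_right₀ _ hdet'.ne']⟩
  generalize (p : ℝ) ^ (-1 / m : ℝ) = η at *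
  obtain ⟨P, u, hP, hu, hPu⟩ := hV fun i => x (Sum.inl i)
  obtain ⟨a₀, ha₀⟩ := hP.nonempty
  set z : (Fin d → ℤ) → Fin d → ℝ := fun a =>
    (fun i => x (Sum.inl i)) - M.mulVec fun i => (a i : ℝ) with hz
  have h2 : ∀ a ∈ P, ∃ ω : Ω × 𝒬, ω.1.1 = a - a₀ ∧ (∀ i, |lam * ω.2.1 i| ≤ |z a i|) ∧
      ∀ i, |z a i - lam * ω.2.1 i| ≤ lam := fun a ha => by
    obtain ⟨q, hq, h⟩ := hQ (z a) (hPu a ha).2.2.2.1
    exact ⟨(⟨a - a₀, (hPu a ha).2.2.2.2 a₀ ha₀⟩, ⟨q, hq⟩), rfl, h⟩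
  have : Nonempty (Ω × 𝒬) := ⟨(h2 a₀ ha₀).choose⟩
  choose! f f1 f2 f3 using h2
  have hinj : Set.InjOn f P := fun a ha b hb h =>
    sub_left_injective ((f1 a ha).symm.trans (h ▸ f1 b hb))
  have hPc : (P.card : ℝ) ≤ Ω.card := by
    exact_mod_cast Finset.card_le_card_of_injOn (fun a => a - a₀)
      (fun a ha => (hPu a ha).2.2.2.2 a₀ ha₀) fun a _ b _ h => sub_left_injective h
  have hL : 0 ≤ D * Real.log N + Real.log (16 * nQ) :=
    add_nonneg (mul_nonneg hD (Real.log_nonneg hN1)) (Real.log_nonneg (by linarith))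
  have h3 := (HCore_num P (fun a => c₁ * V * u a / 4) hL hPc (c := c₁ * c₀ * V / 8) (by
    rw [← Finset.sum_div, ← Finset.mul_sum]
    have := mul_le_mul_of_nonneg_left hu (mul_pos hc₁ hV0).le
    linarith)).trans_lt hnum
  set B := P.filter fun a => 1 ≤ c₁ * V * u a / 4 with hB
  have hBP : B ⊆ P := Finset.filter_subset _ _
  have hBne : B.Nonempty := by
    rw [Finset.nonempty_iff_ne_empty]
    intro h
    rw [h, Finset.prod_empty] at h3
    linarith [min_le_right ((lam * ϱ / 2) ^ m) (1 / 8)]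
  have h4 := hT (B.image f) ((hP.subset hBP hBne).image f id (-a₀) fun a ha i => by
    rw [f1 a (hBP ha)]; exact sub_eq_add_neg _ _)
  rw [Finset.card_image_of_injOn (hinj.mono hBP), Finset.prod_image (hinj.mono hBP), pow_mul,
    ← Finset.prod_const, ← Finset.prod_mul_distrib] at h4
  have h5 : ∏ a ∈ B, N ^ D * (4 * 𝒬.card * ε (f a).2.1) ≤
      ∏ a ∈ B, Real.exp (D * Real.log N + Real.log (16 * nQ) - c₁ * V * u a / 4) := by
    refine Finset.prod_le_prod (fun a _ => by have := hε0 (f a).2.1; positivity) fun a ha => ?_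
    obtain ⟨haP, ha1⟩ := Finset.mem_filter.1 ha
    obtain ⟨u0, u1, u2, u3, -⟩ := hPu a haP
    have b1 := hM (fun i => lam * (f a).2.1 i) fun i => (f2 a haP i).trans (u3 i)
    have b2 : gd (z a) ≤ gd fun i => lam * (f a).2.1 i :=
      Finset.prod_le_prod (fun i _ => (g1_pos _).le) fun i _ => g1_anti (f2 a haP i)
    have b3 : volume.real (S (f a).2.1) =
        (1 - lam) ^ m * volume.real (slice K fun i => lam * (f a).2.1 i) := by
      simp only [S, measureReal_def]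
      rw [Measure.addHaar_smul_of_nonneg _ (sub_nonneg.2 hl1), ENNReal.toReal_mul,
        Module.finrank_fin_fun, ENNReal.toReal_ofReal (by linarith)]
    have b4 : c₁ * V * u a / 4 ≤ v (f a).2.1 := by
      refine le_min ?_ (le_trans (by gcongr) hvmax)
      rw [b3]
      calc c₁ * V * u a / 4 ≤ c₁ * V * (|M.det| * gd fun i => lam * (f a).2.1 i) / 4 := by
            gcongr
            exact u2.trans (by gcongr)
        _ = 1 / 4 * (c₁ * (gd fun i => lam * (f a).2.1 i) * volume.real K) := by rw [hvol]; ring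
        _ ≤ _ := mul_le_mul hl b1 (by have := gd_pos fun i => lam * (f a).2.1 i; positivity)
            (by linarith)
    have b5 : ε (f a).2.1 ≤ 4 * Real.exp (-(c₁ * V * u a / 4)) := by
      simp only [ε]
      rw [if_pos (ha1.trans b4)]
      gcongr
    rw [sub_eq_add_neg, Real.exp_add, Real.exp_add, Real.exp_log (by linarith), Real.exp_nat_mul,
      Real.exp_log (by linarith)]
    calc _ ≤ N ^ D * (4 * nQ * (4 * Real.exp (-(c₁ * V * u a / 4)))) := by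
          have := (hε0 (f a).2.1).le
          gcongr
      _ = _ := by ring
  have h6 : min ((lam * ϱ / 2) ^ m) (1 / 8) / 2 ≤ ((𝒞.image (dotp l)).card : ℝ) / p := by
    have : (𝒞.card : ℝ) ≤ 2 * (𝒞.image (dotp l)).card := by exact_mod_cast hI
    rw [le_div_iff₀ hp0]
    linarith
  obtain ⟨_, hy₀, h7⟩ := HCore_miss _ _ (dotp l (fun i => ⌊x (Sum.inr i) / η⌋) - ∑ i, a₀ i • T i)
    ((h4.trans h5).trans_lt (h3.trans_le h6))
  obtain ⟨y', hy', rfl⟩ := Finset.mem_image.1 hy₀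
  push Not at h7
  obtain ⟨_, hω, y'', ⟨_, ⟨s, hs, rfl⟩, hy''⟩, h8⟩ := h7
  obtain ⟨a, ha, rfl⟩ := Finset.mem_image.1 hω
  have haP := hBP ha
  obtain ⟨zz, hzz⟩ := hg' a ((fun i => ⌊x (Sum.inr i) / η⌋) - y' - y'') (by
    rw [HCore_dotp_sub, HCore_dotp_sub, h8, f1 a haP]
    simp only [Pi.sub_apply, sub_smul, Finset.sum_sub_distrib]
    ring)
  refine ⟨zz, ?_⟩
  have h9 := hole_fill hK.2.1 hl0 hl1 hbox (z := z a) (fun i => (f2 a haP i).trans
    ((hPu a haP).2.2.2.1 i)) (f3 a haP) hs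
    (e := fun i => (x (Sum.inr i) - η * ⌊x (Sum.inr i) / η⌋) + η * y' i +
      (η * y'' i - ((1 - lam) • s) i)) fun i => by
      have d1 := (le_div_iff₀' hη0).1 (Int.floor_le (x (Sum.inr i) / η))
      have d2 := (div_lt_iff₀' hη0).1 (Int.lt_floor_add_one (x (Sum.inr i) / η))
      have d3 := abs_le.1 (c4 y' hy' i)
      have d4 := abs_le.1 (hy'' i)
      exact abs_le.2 ⟨by linarith, by linarith⟩
  rw [hzz]
  convert h9 using 1
  funext j
  rcases j with i | i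
  · rfl
  · simp only [Pi.sub_apply, Sum.elim_inr, Pi.add_apply, Int.cast_sub]
    ring

end Crest.Agent.R225
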