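import Crest.Agent.R225.Thin

/-! Task `R225 Marg`: Gaussian lower bound for a low dimensional marginal. -/

set_option autoImplicit false
open MeasureTheory ProbabilityTheory

namespace Crest.Agent.R225

/-- Complete a surjective `Γ` to an invertible matrix. -/
lemma exists_complete {d m : ℕ} (Γ : Matrix (Fin d) (Fin d ⊕ Fin m) ℝ)
    (h : Function.Surjective Γ.mulVec) :
    ∃ A : Matrix (Fin d ⊕ Fin m) (Fin d ⊕ Fin m) ℝ, A.det ≠ 0 ∧
      ∀ x i, A.mulVec x (Sum.inl i) = Γ.mulVec x i := by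
  have hr : Module.finrank ℝ (LinearMap.ker Γ.mulVecLin) = m := by
    have h1 := LinearMap.finrank_range_add_finrank_ker Γ.mulVecLin
    rw [LinearMap.range_eq_top.2 h, finrank_top] at h1
    simp only [Module.finrank_fintype_fun_eq_card, Fintype.card_fin, Fintype.card_sum] at h1
    omega
  obtain ⟨e⟩ : Nonempty (LinearMap.ker Γ.mulVecLin ≃ₗ[ℝ] (Fin m → ℝ)) :=
    FiniteDimensional.nonempty_linearEquiv_of_finrank_eq (by simp [hr])
  obtain ⟨p, hp⟩ := LinearMap.exists_extend (e : LinearMap.ker Γ.mulVecLin →ₗ[ℝ] (Fin m → ℝ))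
  let L : (Fin d ⊕ Fin m → ℝ) →ₗ[ℝ] (Fin d ⊕ Fin m → ℝ) := LinearMap.pi fun k =>
    Sum.elim (fun i => (LinearMap.proj i).comp Γ.mulVecLin) (fun j => (LinearMap.proj j).comp p) k
  refine ⟨LinearMap.toMatrix' L, fun h0 => ?_, fun x i => ?_⟩
  · obtain ⟨v, hv, hv0⟩ := Matrix.exists_mulVec_eq_zero_iff.2 h0
    rw [LinearMap.toMatrix'_mulVec] at hv0
    have h1 : v ∈ LinearMap.ker Γ.mulVecLin := by
      rw [LinearMap.mem_ker]
      funext i
      exact congrFun hv0 (Sum.inl i)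
    have h2 : e ⟨v, h1⟩ = 0 := by
      have h3 := LinearMap.congr_fun hp ⟨v, h1⟩
      refine h3.symm.trans ?_
      funext j
      exact congrFun hv0 (Sum.inr j)
    exact hv (congrArg Subtype.val (e.map_eq_zero_iff.1 h2))
  · rw [LinearMap.toMatrix'_mulVec]
    rfl

/-- One coordinate. -/
lemma Marg_coord {D : ℝ} (_hD : 1 ≤ D) {R δ r₀ r z lo : ℝ} (hδ : 0 < δ) (hδ1 : δ ≤ 1)
    (hδR : 2 * δ * (R + 1) ≤ 1 / D) (hz : |z| ≤ R) (hr₀ : 0 < r₀) (h1 : r₀ ≤ r)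
    (h2 : r ≤ r₀ * (1 + 1 / D)) (hlo : |lo| ≤ |z| + 2 * δ) (hlo' : |lo + δ| ≤ |z| + 2 * δ) :
    δ * Real.exp (-2 / D) * g1 z ≤ gI (r₀ * lo) (r₀ * lo + r₀ * δ) r := by
  have hr : 0 < r := hr₀.trans_le h1
  refine le_trans ?_ (gI_lower (b := r₀ * (|z| + 2 * δ)) (by positivity) hr ?_ ?_)
  · have h3 : δ * Real.exp (-1 / D) ≤ r₀ * δ / r := by
      rw [le_div_iff₀ hr]
      have h4 : 1 + 1 / D ≤ Real.exp (1 / D) := by linarith [Real.add_one_le_exp (1 / D)]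
      have h5 : Real.exp (-1 / D) * Real.exp (1 / D) = 1 := by
        rw [← Real.exp_add]; simp [neg_div]
      have h6 : r ≤ r₀ * Real.exp (1 / D) := h2.trans (by gcongr)
      calc δ * Real.exp (-1 / D) * r ≤ δ * Real.exp (-1 / D) * (r₀ * Real.exp (1 / D)) := by gcongr
        _ = r₀ * δ * (Real.exp (-1 / D) * Real.exp (1 / D)) := by ring
        _ = r₀ * δ := by rw [h5, mul_one]
    have h4 : Real.exp (-1 / D) * g1 z ≤ g1 (r₀ * (|z| + 2 * δ) / r) := by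
      refine le_trans ?_ (g1_anti (y := |z| + 2 * δ) ?_)
      · unfold g1
        rw [← mul_div_assoc, ← Real.exp_add]
        gcongr
        have h5 : (|z| + 2 * δ) ^ 2 = z ^ 2 + 4 * δ * (|z| + δ) := by
          rw [← sq_abs z]; ring
        have h6 : 2 * δ * (|z| + δ) ≤ 2 * δ * (R + 1) := by gcongr
        rw [h5, neg_div D]
        linarith
      · have h5 : 0 ≤ |z| + 2 * δ := by positivity
        rw [abs_of_nonneg (by positivity), abs_of_nonneg h5, div_le_iff₀ hr, mul_comm]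
        gcongr
    have h5 : Real.exp (-2 / D) = Real.exp (-1 / D) * Real.exp (-1 / D) := by
      rw [← Real.exp_add]; congr 1; ring
    calc δ * Real.exp (-2 / D) * g1 z
        = (δ * Real.exp (-1 / D)) * (Real.exp (-1 / D) * g1 z) := by rw [h5]; ring
      _ ≤ _ := mul_le_mul h3 h4 (mul_nonneg (Real.exp_pos _).le (g1_pos _).le) (by positivity)
  · rw [abs_mul, abs_of_pos hr₀]; gcongr
  · rw [← mul_add, abs_mul, abs_of_pos hr₀]; gcongr

/-- The integral of `gq` over the body. -/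
lemma Marg_int {κ : Type} [Fintype κ] {K : Set (κ → ℝ)} (hK : Body K) {d : ℕ} {R δ r₀ : ℝ}
    (hδ : 0 < δ) (hδ1 : δ ≤ 1) (hδR : 2 * δ * (R + 1) ≤ 1 / ((d + 1 : ℕ) : ℝ)) (hr₀ : 0 < r₀)
    (hs : volume.real K / 2 ≤
      volume.real {x ∈ K | r₀ ≤ nrm x ∧ nrm x ≤ r₀ * (1 + 1 / ((d + 1 : ℕ) : ℝ))})
    (z lo : Fin d → ℝ) (hz : ∀ i, |z i| ≤ R) (hlo : ∀ i, |lo i| ≤ |z i| + 2 * δ)
    (hlo' : ∀ i, |lo i + δ| ≤ |z i| + 2 * δ) :
    δ ^ d * Real.exp (-2) * gd z * (volume.real K / 2) ≤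
      ∫ x in K, gq (fun i => r₀ * lo i) (fun i => r₀ * lo i + r₀ * δ) (nrm x) := by
  set S := {x ∈ K | r₀ ≤ nrm x ∧ nrm x ≤ r₀ * (1 + 1 / ((d + 1 : ℕ) : ℝ))} with hS
  have hn : Continuous (nrm : (κ → ℝ) → ℝ) := by unfold nrm; fun_prop
  have hSm : MeasurableSet S := hK.1.measurableSet.inter
    ((measurableSet_le measurable_const hn.measurable).inter
      (measurableSet_le hn.measurable measurable_const))
  have hSK : S ⊆ K := fun x hx => hx.1
  have hKf : volume K ≠ ⊤ := hK.1.measure_ne_top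
  have hSf : volume S ≠ ⊤ := measure_ne_top_of_subset hSK hKf
  have h0 : ∀ x : κ → ℝ, 0 ≤ gq (fun i => r₀ * lo i) (fun i => r₀ * lo i + r₀ * δ) (nrm x) :=
    fun x => Finset.prod_nonneg fun i _ => gI_nonneg _ _ _
  have hi : IntegrableOn
      (fun x : κ → ℝ => gq (fun i => r₀ * lo i) (fun i => r₀ * lo i + r₀ * δ) (nrm x)) K := by
    refine Measure.integrableOn_of_bounded (M := 1) hKf ?_ (Filter.Eventually.of_forall fun x => ?_)
    · exact (Finset.measurable_prod _ fun i _ =>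
        (measurable_gI _ _).comp hn.measurable).aestronglyMeasurable
    · rw [Real.norm_eq_abs, abs_of_nonneg (h0 x)]
      exact Finset.prod_le_one (fun i _ => gI_nonneg _ _ _) fun i _ => gI_le_one _ _ _
  have hD : (1 : ℝ) ≤ ((d + 1 : ℕ) : ℝ) := by exact_mod_cast Nat.le_add_left 1 d
  have hc : 0 ≤ δ ^ d * Real.exp (-2) * gd z := mul_nonneg (by positivity) (gd_pos z).le
  calc δ ^ d * Real.exp (-2) * gd z * (volume.real K / 2)
      ≤ δ ^ d * Real.exp (-2) * gd z * volume.real S := by gcongr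
    _ = ∫ _ in S, δ ^ d * Real.exp (-2) * gd z := by
        rw [setIntegral_const, smul_eq_mul, mul_comm]
    _ ≤ ∫ x in S, gq (fun i => r₀ * lo i) (fun i => r₀ * lo i + r₀ * δ) (nrm x) := by
        refine setIntegral_mono_on (integrableOn_const hSf) (hi.mono_set hSK) hSm fun x hx => ?_
        refine le_trans ?_ (Finset.prod_le_prod (fun i _ => ?_) fun i _ =>
          Marg_coord hD hδ hδ1 hδR (hz i) hr₀ hx.2.1 hx.2.2 (hlo i) (hlo' i))
        · rw [Finset.prod_mul_distrib, Finset.prod_const, Finset.card_univ, Fintype.card_fin,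
            mul_pow, ← Real.exp_nat_mul]
          unfold gd
          have h1 : 0 ≤ ∏ i, g1 (z i) := (gd_pos z).le
          gcongr
          rw [← mul_div_assoc, le_div_iff₀ (by linarith)]
          push_cast
          linarith
        · exact mul_nonneg (by positivity) (g1_pos _).le
    _ ≤ _ := setIntegral_mono_set hi (Filter.Eventually.of_forall h0) hSK.eventuallyLE

/-- Grid cells next to a point. -/
lemma Marg_grid {δ R : ℝ} (hδ : 0 < δ) (z : ℝ) (hz : |z| ≤ R) (σ : Bool) :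
    ∃ a ∈ Finset.Icc (-((⌈R / δ⌉₊ + 2 : ℕ) : ℤ)) ((⌈R / δ⌉₊ + 2 : ℕ) : ℤ),
      (if σ then z ≤ δ * a else δ * a + δ ≤ z) ∧ |δ * a| ≤ |z| + 2 * δ ∧
        |δ * a + δ| ≤ |z| + 2 * δ := by
  have h1 : δ * ⌊z / δ⌋ ≤ z := by
    rw [mul_comm, ← le_div_iff₀ hδ]; exact Int.floor_le _
  have h2 : z < δ * ⌊z / δ⌋ + δ := by
    have := Int.lt_floor_add_one (z / δ)
    rw [div_lt_iff₀ hδ] at this
    linarith
  have h3 := le_abs_self z
  have h4 := neg_abs_le z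
  have key : ∀ a : ℤ, |δ * a| ≤ |z| + 2 * δ →
      a ∈ Finset.Icc (-((⌈R / δ⌉₊ + 2 : ℕ) : ℤ)) ((⌈R / δ⌉₊ + 2 : ℕ) : ℤ) := by
    intro a ha
    rw [Finset.mem_Icc, ← abs_le]
    have h5 : |(a : ℝ)| ≤ ((⌈R / δ⌉₊ + 2 : ℕ) : ℝ) := by
      rw [abs_mul, abs_of_pos hδ] at ha
      have h6 : R ≤ δ * ⌈R / δ⌉₊ := by
        rw [mul_comm, ← div_le_iff₀ hδ]; exact Nat.le_ceil _
      push_cast
      refine le_of_mul_le_mul_left ?_ hδ
      linarith
    exact_mod_cast h5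
  cases σ
  · have h5 : |δ * ((⌊z / δ⌋ - 1 : ℤ) : ℝ)| ≤ |z| + 2 * δ := by
      push_cast; rw [abs_le]; constructor <;> linarith
    refine ⟨⌊z / δ⌋ - 1, key _ h5, ?_, h5, ?_⟩
    · simp only [Bool.false_eq_true, if_false]; push_cast; linarith
    · push_cast; rw [abs_le]; constructor <;> linarith
  · have h5 : |δ * ((⌊z / δ⌋ + 1 : ℤ) : ℝ)| ≤ |z| + 2 * δ := by
      push_cast; rw [abs_le]; constructor <;> linarith
    refine ⟨⌊z / δ⌋ + 1, key _ h5, ?_, h5, ?_⟩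
    · simp only [if_true]; push_cast; linarith
    · push_cast; rw [abs_le]; constructor <;> linarith

/-- Numerical inequality. -/
lemma Marg_num (C₁ : ℝ) (hC : 0 < C₁) : ∃ C : ℕ, ∀ (d : ℕ) (R n δ : ℝ), 1 ≤ R → 0 < n →
    ((d : ℝ) + R + 2) ^ C ≤ Real.log n → δ = 1 / (2 * (d + 1) * (R + 1)) →
    ((2 * (⌈R / δ⌉₊ + 2) + 1 : ℕ) : ℝ) ^ d * C₁ * (d + 1) <
      (δ ^ d * Real.exp (-2) * g1 R ^ d / 4) ^ 2 * n ^ (1 / 16 : ℝ) := by
  obtain ⟨j, hj⟩ := pow_unbounded_of_one_lt C₁ (by norm_num : (1 : ℝ) < 3)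
  refine ⟨j + 8, fun d R n δ hR hn h hδ => ?_⟩
  have hd : (0 : ℝ) ≤ d := Nat.cast_nonneg d
  obtain ⟨T, hT⟩ : ∃ T : ℝ, T = d + R + 2 := ⟨_, rfl⟩
  rw [← hT] at h
  have hT3 : 3 ≤ T := by linarith
  have hdT : (d : ℝ) ≤ T := by linarith
  have hTe : T ≤ Real.exp T := by linarith [Real.add_one_le_exp T]
  have hinv : 2 * ((d : ℝ) + 1) * (R + 1) ≤ T ^ 2 / 2 := by
    rw [hT]; nlinarith [sq_nonneg ((d : ℝ) - R)]
  have hδ0 : 0 < δ := by rw [hδ]; positivity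
  have hT2 : T ^ 2 ≤ T ^ 3 / 3 := by nlinarith
  have hT1 : T ≤ T ^ 2 / 3 := by nlinarith
  -- the number of cells
  have h1 : ((2 * (⌈R / δ⌉₊ + 2) + 1 : ℕ) : ℝ) ^ d ≤ Real.exp (T ^ 3) := by
    have h2 : (⌈R / δ⌉₊ : ℝ) ≤ R / δ + 1 := (Nat.ceil_lt_add_one (by positivity)).le
    have h3 : R / δ ≤ (T - 2) * (T ^ 2 / 2) := by
      rw [hδ, div_div_eq_mul_div, div_one]
      exact mul_le_mul (by linarith) hinv (by positivity) (by linarith)
    have h4 : ((2 * (⌈R / δ⌉₊ + 2) + 1 : ℕ) : ℝ) ≤ Real.exp T ^ 3 := by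
      refine le_trans ?_ (pow_le_pow_left₀ (by linarith) hTe 3)
      push_cast
      nlinarith
    refine (pow_le_pow_left₀ (Nat.cast_nonneg _) h4 d).trans ?_
    rw [← Real.exp_nat_mul, ← Real.exp_nat_mul]
    refine Real.exp_le_exp.2 ?_
    push_cast
    nlinarith
  have h2 : (d : ℝ) + 1 ≤ Real.exp (T ^ 3) := by
    refine le_trans (by linarith) (hTe.trans (Real.exp_le_exp.2 ?_))
    linarith
  have h3 : C₁ < Real.exp (T ^ j) := by
    have h4 : (3 : ℝ) ^ j ≤ T ^ j := pow_le_pow_left₀ (by norm_num) hT3 j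
    linarith [Real.add_one_le_exp (T ^ j)]
  -- the error
  have h4 : Real.exp (-(2 * T ^ 2)) ≤ δ ^ d := by
    have h5 : Real.exp (-(2 * T)) ≤ δ := by
      rw [hδ, Real.exp_neg, one_div]
      refine inv_anti₀ (by positivity) (hinv.trans ?_)
      have : T ^ 2 ≤ Real.exp T ^ 2 := pow_le_pow_left₀ (by linarith) hTe 2
      rw [← Real.exp_nat_mul] at this
      push_cast at this
      nlinarith
    refine le_trans ?_ (pow_le_pow_left₀ (Real.exp_pos _).le h5 d)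
    rw [← Real.exp_nat_mul]
    refine Real.exp_le_exp.2 ?_
    nlinarith
  have h5 : Real.exp (-T ^ 3) ≤ g1 R ^ d := by
    have h6 : Real.exp (-T ^ 2) ≤ g1 R := by
      unfold g1
      have h7 : Real.sqrt (2 * Real.pi) ≤ Real.exp (T ^ 2 / 2) := by
        refine le_trans (Real.sqrt_le_iff.2 ⟨by norm_num, ?_⟩ : _ ≤ (3 : ℝ)) ?_
        · nlinarith [Real.pi_lt_d2]
        · nlinarith [Real.add_one_le_exp (T ^ 2 / 2)]
      rw [le_div_iff₀ (by positivity)]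
      refine (mul_le_mul_of_nonneg_left h7 (Real.exp_pos _).le).trans ?_
      rw [← Real.exp_add]
      refine Real.exp_le_exp.2 ?_
      have : R ^ 2 ≤ T ^ 2 := pow_le_pow_left₀ (by linarith) (by linarith) 2
      linarith
    refine le_trans ?_ (pow_le_pow_left₀ (Real.exp_pos _).le h6 d)
    rw [← Real.exp_nat_mul]
    refine Real.exp_le_exp.2 ?_
    nlinarith
  have h6 : Real.exp (-(3 * T ^ 3)) ≤ δ ^ d * Real.exp (-2) * g1 R ^ d / 4 := by
    have h7 : Real.exp (-T) ≤ 1 / 4 := by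
      rw [Real.exp_neg, one_div]
      exact inv_anti₀ (by norm_num) (by linarith [Real.add_one_le_exp T])
    calc Real.exp (-(3 * T ^ 3))
        ≤ Real.exp (-(2 * T ^ 2)) * Real.exp (-2) * Real.exp (-T ^ 3) * Real.exp (-T) := by
          rw [← Real.exp_add, ← Real.exp_add, ← Real.exp_add]
          refine Real.exp_le_exp.2 ?_
          linarith
      _ ≤ δ ^ d * Real.exp (-2) * g1 R ^ d * (1 / 4) := by
          have := (g1_pos R).le
          gcongr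
      _ = _ := by ring
  have h7 : Real.exp (T ^ (j + 8) / 16) ≤ n ^ (1 / 16 : ℝ) := by
    rw [Real.rpow_def_of_pos hn]
    refine Real.exp_le_exp.2 ?_
    linarith
  have h8 : T ^ 3 ≤ T ^ (j + 3) := pow_le_pow_right₀ (by linarith) (by omega)
  have h9 : T ^ j ≤ T ^ (j + 3) := pow_le_pow_right₀ (by linarith) (by omega)
  have h10 : 243 * T ^ (j + 3) ≤ T ^ (j + 8) := by
    have h11 : (3 : ℝ) ^ 5 ≤ T ^ 5 := pow_le_pow_left₀ (by norm_num) hT3 5
    have h12 : T ^ (j + 8) = T ^ 5 * T ^ (j + 3) := by ring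
    rw [h12]
    exact mul_le_mul_of_nonneg_right (by linarith) (by positivity)
  have h11 : 0 ≤ T ^ (j + 3) := by positivity
  calc ((2 * (⌈R / δ⌉₊ + 2) + 1 : ℕ) : ℝ) ^ d * C₁ * (d + 1)
      ≤ Real.exp (T ^ 3) * C₁ * Real.exp (T ^ 3) := by gcongr
    _ < Real.exp (T ^ 3) * Real.exp (T ^ j) * Real.exp (T ^ 3) := by gcongr
    _ ≤ Real.exp (-(3 * T ^ 3)) ^ 2 * Real.exp (T ^ (j + 8) / 16) := by
        rw [← Real.exp_nat_mul, ← Real.exp_add, ← Real.exp_add, ← Real.exp_add]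
        refine Real.exp_le_exp.2 ?_
        push_cast
        linarith
    _ ≤ _ := by gcongr

/-- WLOG `Iso K` (`exists_iso`). `r₀` from `thin_shell` with `D = d + 1`; `δ = 1 / (2 (d+1)(R+1))`;
`𝓕` = the cubes `r₀ (lo + [0,δ]^d)`, `lo ∈ δ ℤ^d`, `|lo i| ≤ R + 1`; `err = (1/(4e²)) δ^d
g1(R+2)^d`. For `nrm x = r₀ ρ`, `ρ ∈ [1, 1 + 1/D]`, and a cube within `2δ` of `z`:
`gq ≥ δ^d ρ^{-d} ∏ g1 (|z i| + 2δ) ≥ δ^d e^{-1} e^{-2} gd z`-type bound (`gI_lower`, `g1_anti`).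
So each such cube has relative mass `≥ c δ^d gd z`; the range of `Γ` meets all orthants at every
small `z` (`orthant`), so `Γ` is onto; `A` completes `r₀⁻¹ • Γ`; `cells_to_point`. -/
theorem marginal : ∃ c₁ : ℝ, 0 < c₁ ∧ c₁ ≤ 1 ∧ ∃ C : ℕ, ∀ (d m : ℕ) (R : ℝ), 1 ≤ R →
    ((d : ℝ) + R + 2) ^ C ≤ Real.log (d + m) → ∀ K : Set (Fin d ⊕ Fin m → ℝ), Body K →
      ∃ A : Matrix (Fin d ⊕ Fin m) (Fin d ⊕ Fin m) ℝ, A.det ≠ 0 ∧
        Marg ((fun x => A.mulVec x + 0) '' K) c₁ R := by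
  classical
  obtain ⟨C₀, hC₀⟩ := thin_shell
  obtain ⟨C₁, hC₁, hP⟩ := exists_proj
  obtain ⟨C₂, hC₂⟩ := Marg_num C₁ hC₁
  refine ⟨Real.exp (-2) / 4, by positivity, ?_, C₀ + C₂, fun d m R hR hlog K hK => ?_⟩
  · have : Real.exp (-2) ≤ 1 := Real.exp_le_one_iff.2 (by norm_num)
    linarith
  have hd : (0 : ℝ) ≤ d := Nat.cast_nonneg d
  have hT : (1 : ℝ) ≤ d + R + 2 := by linarith
  have hn : (0 : ℝ) < d + m := by
    by_contra hn
    have h1 : (d : ℝ) + m = 0 := le_antisymm (not_lt.1 hn) (by positivity)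
    rw [h1, Real.log_zero] at hlog
    linarith [one_le_pow₀ hT (n := C₀ + C₂)]
  have hcard : (Fintype.card (Fin d ⊕ Fin m) : ℝ) = d + m := by simp
  have : Nonempty (Fin d ⊕ Fin m) := by
    rw [← Fintype.card_pos_iff]
    have : (0 : ℝ) < Fintype.card (Fin d ⊕ Fin m) := hcard ▸ hn
    exact_mod_cast this
  obtain ⟨A₀, hA₀, hI⟩ := exists_iso hK
  have hK₁ := hK.affine hA₀ 0
  set K₁ := (fun x => A₀.mulVec x + 0) '' K with hK₁def
  obtain ⟨r₀, hr₀, hs⟩ := hC₀ _ K₁ hK₁ hI (d + 1) (by omega) (by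
    rw [hcard]
    refine le_trans ?_ ((pow_le_pow_right₀ hT (Nat.le_add_right C₀ C₂)).trans hlog)
    push_cast
    exact pow_le_pow_left₀ (by positivity) (by linarith) _)
  obtain ⟨δ, hδ⟩ : ∃ δ : ℝ, δ = 1 / (2 * (d + 1) * (R + 1)) := ⟨_, rfl⟩
  have hδ0 : 0 < δ := by rw [hδ]; positivity
  have hδ1 : δ ≤ 1 := by
    rw [hδ, div_le_one (by positivity)]
    nlinarith
  have hδR : 2 * δ * (R + 1) ≤ 1 / ((d + 1 : ℕ) : ℝ) := by
    refine le_of_eq ?_
    have : R + 1 ≠ 0 := by positivity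
    rw [hδ]; push_cast; field_simp
  set N : ℕ := ⌈R / δ⌉₊ + 2 with hN
  obtain ⟨Γ, hΓ⟩ := hP _ (Fin d) K₁ hK₁ hI
    ((Fintype.piFinset fun _ : Fin d => Finset.Icc (-(N : ℤ)) N).image fun a =>
      (fun i => r₀ * (δ * a i), fun i => r₀ * (δ * a i) + r₀ * δ))
    (δ ^ d * Real.exp (-2) * g1 R ^ d / 4) (by have := g1_pos R; positivity) (by
      rw [hcard, Fintype.card_fin]
      refine lt_of_le_of_lt ?_ (hC₂ d R _ δ hR hn
        ((pow_le_pow_right₀ hT (Nat.le_add_left C₂ C₀)).trans hlog) hδ)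
      have h1 := Finset.card_image_le
        (s := Fintype.piFinset fun _ : Fin d => Finset.Icc (-(N : ℤ)) N)
        (f := fun a => (fun i => r₀ * (δ * a i), fun i => r₀ * (δ * a i) + r₀ * δ))
      rw [Fintype.card_piFinset, Finset.prod_const, Finset.card_univ, Fintype.card_fin,
        Int.card_Icc, show ((N : ℤ) + 1 - -(N : ℤ)).toNat = 2 * N + 1 by omega] at h1
      gcongr
      exact_mod_cast h1)
  have hV := hK₁.vol_pos
  -- every point of the box sees heavy cells in all orthants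
  have key : ∀ z : Fin d → ℝ, (∀ i, |z i| ≤ R) → ∀ σ : Fin d → Bool, ∃ lo : Fin d → ℝ,
      (∀ i, if σ i then z i ≤ lo i else lo i + δ ≤ z i) ∧
      Real.exp (-2) / 4 * gd z * volume.real K₁ * δ ^ d ≤
        volume.real {x ∈ K₁ | (r₀⁻¹ • Γ).mulVec x ∈ Set.Icc lo fun i => lo i + δ} := by
    intro z hz σ
    choose a ha h1 h2 h3 using fun i => Marg_grid hδ0 (z i) (hz i) (σ i)
    refine ⟨fun i => δ * a i, h1, ?_⟩
    have h4 := hΓ _ (Finset.mem_image_of_mem _ (Fintype.mem_piFinset.2 ha))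
    have h5 := Marg_int hK₁ hδ0 hδ1 hδR hr₀ hs z (fun i => δ * a i) hz h2 h3
    have h6 : {x ∈ K₁ | (r₀⁻¹ • Γ).mulVec x ∈ Set.Icc (fun i => δ * a i) fun i => δ * a i + δ} =
        {x ∈ K₁ | Γ.mulVec x ∈ Set.Icc (fun i => r₀ * (δ * a i))
          fun i => r₀ * (δ * a i) + r₀ * δ} := by
      ext x
      simp only [Set.mem_ofPred_eq, Set.mem_Icc, Pi.le_def, Matrix.smul_mulVec, Pi.smul_apply,
        smul_eq_mul, le_inv_mul_iff₀ hr₀, inv_mul_le_iff₀ hr₀, mul_add]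
    have h7 : g1 R ^ d ≤ gd z := by
      have : g1 R ^ d = ∏ _i : Fin d, g1 R := by simp
      rw [this]
      exact Finset.prod_le_prod (fun i _ => (g1_pos _).le) fun i _ =>
        g1_anti ((hz i).trans (le_abs_self R))
    have h8 : δ ^ d * Real.exp (-2) * g1 R ^ d / 4 * volume.real K₁ ≤
        δ ^ d * Real.exp (-2) * gd z / 4 * volume.real K₁ := by gcongr
    rw [h6]
    have h9 := (abs_le.1 h4).1
    simp only at h9
    linarith
  have hsurj : Function.Surjective (r₀⁻¹ • Γ).mulVec := by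
    have h1 : ∀ z : Fin d → ℝ, (∀ i, |z i| ≤ R) → z ∈ LinearMap.range (r₀⁻¹ • Γ).mulVecLin := by
      intro z hz
      refine orthant (LinearMap.range (r₀⁻¹ • Γ).mulVecLin).convex z fun σ => ?_
      obtain ⟨lo, h1, h2⟩ := key z hz σ
      have h3 : 0 < Real.exp (-2) / 4 * gd z * volume.real K₁ * δ ^ d := by
        have := gd_pos z
        positivity
      obtain ⟨x, hx⟩ := nonempty_of_measureReal_ne_zero (h3.trans_le h2).ne'
      refine ⟨_, ⟨x, rfl⟩, fun i => ?_⟩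
      have h4 := h1 i
      have h5 := hx.2.1 i
      have h6 := hx.2.2 i
      split_ifs at h4 ⊢
      · exact h4.trans h5
      · exact h6.trans h4
    intro y
    have h2 : 0 < ‖y‖ + 1 := by positivity
    have h3 := h1 ((‖y‖ + 1)⁻¹ • y) fun i => by
      rw [Pi.smul_apply, smul_eq_mul, abs_mul, abs_of_pos (inv_pos.2 h2), inv_mul_le_iff₀ h2]
      have := norm_le_pi_norm y i
      rw [Real.norm_eq_abs] at this
      nlinarith [norm_nonneg y]
    have h4 := (LinearMap.range (r₀⁻¹ • Γ).mulVecLin).smul_mem (‖y‖ + 1) h3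
    rw [smul_smul, mul_inv_cancel₀ h2.ne', one_smul] at h4
    exact h4
  obtain ⟨A, hA, hAΓ⟩ := exists_complete _ hsurj
  have him : (fun x => (A * A₀).mulVec x + 0) '' K = (fun x => A.mulVec x + 0) '' K₁ := by
    rw [hK₁def, Set.image_image]
    simp only [add_zero, Matrix.mulVec_mulVec]
  refine ⟨A * A₀, by rw [Matrix.det_mul]; exact mul_ne_zero hA hA₀, fun z hz => ?_⟩
  rw [him]
  have hK' := hK₁.affine hA 0
  refine cells_to_point hK'.1 hK'.2.1 hδ0 z fun σ => ?_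
  obtain ⟨lo, h1, h2⟩ := key z hz σ
  refine ⟨lo, h1, ?_⟩
  have h3 : {x ∈ (fun x => A.mulVec x + 0) '' K₁ |
      (fun i => x (Sum.inl i)) ∈ Set.Icc lo fun i => lo i + δ} = (fun x => A.mulVec x + 0) ''
        {x ∈ K₁ | (r₀⁻¹ • Γ).mulVec x ∈ Set.Icc lo fun i => lo i + δ} := by
    have h4 : ∀ x, (fun i => (A.mulVec x + 0) (Sum.inl i)) = (r₀⁻¹ • Γ).mulVec x := fun x => by
      funext i
      rw [add_zero, hAΓ]
    ext y
    constructor
    · rintro ⟨⟨x, hx, rfl⟩, hy⟩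
      exact ⟨x, ⟨hx, h4 x ▸ hy⟩, rfl⟩
    · rintro ⟨x, ⟨hx, hy⟩, rfl⟩
      exact ⟨⟨x, hx, rfl⟩, (h4 x).symm ▸ hy⟩
  rw [h3, vol_affine A 0 K₁, vol_affine A, Fintype.card_fin]
  calc _ = |A.det| * (Real.exp (-2) / 4 * gd z * volume.real K₁ * δ ^ d) := by ring
    _ ≤ _ := mul_le_mul_of_nonneg_left h2 (abs_nonneg _)

end Crest.Agent.R225
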