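import Crest.Agent.R225.Young1

/-! Task `R225 Young2`: normalisation, tensorisation, discrete form. -/

set_option autoImplicit false
open MeasureTheory
open scoped ENNReal

namespace Crest.Agent.R225

namespace Young2Aux

lemma rpow_cancel (a : ℝ≥0∞) : (a ^ (3 / 2 : ℝ)) ^ (2 / 3 : ℝ) = a := by
  rw [← ENNReal.rpow_mul]; norm_num

lemma rpow_cancel' (a : ℝ≥0∞) : (a ^ (2 / 3 : ℝ)) ^ (3 / 2 : ℝ) = a := by
  rw [← ENNReal.rpow_mul]; norm_num

lemma ae_zero {f : ℝ → ℝ≥0∞} (hf : Measurable f) (h0 : ∫⁻ x, f x ^ (3 / 2 : ℝ) = 0) :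
    ∀ᵐ x, f x = 0 := by
  have h := (lintegral_eq_zero_iff (hf.pow_const _)).1 h0
  filter_upwards [h] with x hx
  have hx' : f x ^ (3 / 2 : ℝ) = 0 := hx
  rw [← rpow_cancel (f x), hx', ENNReal.zero_rpow_of_pos (by norm_num)]

lemma normalise {f : ℝ → ℝ≥0∞} (hf : Measurable f) (h0 : ∫⁻ x, f x ^ (3 / 2 : ℝ) ≠ 0)
    (h1 : ∫⁻ x, f x ^ (3 / 2 : ℝ) ≠ ∞) :
    ∃ u : ℝ → ℝ, Measurable u ∧ (∀ x, 0 ≤ u x) ∧ Integrable u ∧ ∫ x, u x = 1 ∧
      ∀ᵐ x, f x = (∫⁻ x, f x ^ (3 / 2 : ℝ)) ^ (2 / 3 : ℝ) *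
        ENNReal.ofReal (u x ^ (2 / 3 : ℝ)) := by
  obtain ⟨A, hA⟩ : ∃ A, ∫⁻ x, f x ^ (3 / 2 : ℝ) = A := ⟨_, rfl⟩
  rw [hA] at h0 h1 ⊢
  have hU : Measurable fun x => A⁻¹ * f x ^ (3 / 2 : ℝ) := (hf.pow_const _).const_mul _
  have hI : ∫⁻ x, A⁻¹ * f x ^ (3 / 2 : ℝ) = 1 := by
    rw [lintegral_const_mul _ (hf.pow_const _), hA, ENNReal.inv_mul_cancel h0 h1]
  have hfin : ∀ᵐ x, A⁻¹ * f x ^ (3 / 2 : ℝ) < ∞ :=
    ae_lt_top hU (by rw [hI]; exact ENNReal.one_ne_top)
  refine ⟨fun x => (A⁻¹ * f x ^ (3 / 2 : ℝ)).toReal, hU.ennreal_toReal,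
    fun x => ENNReal.toReal_nonneg,
    integrable_toReal_of_lintegral_ne_top hU.aemeasurable (by rw [hI]; exact ENNReal.one_ne_top),
    ?_, ?_⟩
  · rw [integral_toReal hU.aemeasurable hfin, hI, ENNReal.toReal_one]
  · filter_upwards [hfin] with x hx
    rw [← ENNReal.ofReal_rpow_of_nonneg ENNReal.toReal_nonneg (by norm_num),
      ENNReal.ofReal_toReal hx.ne, ← ENNReal.mul_rpow_of_nonneg _ _ (by norm_num), ← mul_assoc,
      ENNReal.mul_inv_cancel h0 h1, one_mul, rpow_cancel]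

lemma of_equiv {G G' : Type} [MeasurableSpace G] [Add G] [MeasurableSpace G'] [Add G']
    {μ : Measure G} {μ' : Measure G'} {θ : ℝ≥0∞} (e : G ≃ᵐ G') (he : MeasurePreserving e μ μ')
    (hadd : ∀ x y, e (x + y) = e x + e y) (h : YoungP G' μ' θ) : YoungP G μ θ := by
  intro f g k hf hg hk
  have he' := he.symm e
  have hs : ∀ x y, e.symm (x + y) = e.symm x + e.symm y := by
    intro x y
    apply e.injective
    simp [hadd]
  have H := h _ _ _ (hf.comp e.symm.measurable) (hg.comp e.symm.measurable)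
    (hk.comp e.symm.measurable)
  simp only [Function.comp, hs] at H
  rw [he'.lintegral_comp_emb e.symm.measurableEmbedding fun x => f x ^ (3 / 2 : ℝ),
    he'.lintegral_comp_emb e.symm.measurableEmbedding fun x => g x ^ (3 / 2 : ℝ),
    he'.lintegral_comp_emb e.symm.measurableEmbedding fun x => k x ^ (3 / 2 : ℝ)] at H
  refine le_trans (le_of_eq ?_) H
  rw [← he'.lintegral_comp_emb e.symm.measurableEmbedding]
  refine lintegral_congr fun x => ?_
  rw [← he'.lintegral_comp_emb e.symm.measurableEmbedding]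

lemma meas_fl (m : ℕ) : Measurable fun (x : Fin m → ℝ) (i : Fin m) => ⌊x i⌋ :=
  measurable_pi_lambda _ fun i => (measurable_pi_apply i).floor

lemma lint_floor {m : ℕ} (A : Finset (Fin m → ℤ)) (φ : (Fin m → ℤ) → ℝ≥0∞) :
    ∫⁻ x : Fin m → ℝ, (if (fun i => ⌊x i⌋) ∈ A then φ (fun i => ⌊x i⌋) else 0) =
      ∑ a ∈ A, φ a := by
  have hm : ∀ a : Fin m → ℤ,
      MeasurableSet (Set.univ.pi fun i => Set.Ico (a i : ℝ) (a i + 1)) := fun a =>
    MeasurableSet.univ_pi fun i => measurableSet_Ico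
  have e : ∀ x : Fin m → ℝ, (if (fun i => ⌊x i⌋) ∈ A then φ (fun i => ⌊x i⌋) else 0) =
      ∑ a ∈ A, (Set.univ.pi fun i => Set.Ico (a i : ℝ) (a i + 1)).indicator (fun _ => φ a) x := by
    intro x
    rw [← Finset.sum_ite_eq]
    refine Finset.sum_congr rfl fun a _ => ?_
    have : (fun i => ⌊x i⌋) = a ↔ x ∈ Set.univ.pi fun i => Set.Ico (a i : ℝ) (a i + 1) := by
      simp only [funext_iff, Set.mem_univ_pi, Set.mem_Ico, Int.floor_eq_iff]
    by_cases h : (fun i => ⌊x i⌋) = a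
    · rw [if_pos h, Set.indicator_of_mem (this.1 h)]
    · rw [if_neg h, Set.indicator_of_notMem fun h' => h (this.2 h')]
  simp_rw [e]
  rw [lintegral_finsetSum _ fun a _ => measurable_const.indicator (hm a)]
  refine Finset.sum_congr rfl fun a _ => ?_
  rw [lintegral_indicator_const (hm a), Real.volume_pi_Ico]
  simp

lemma meas_ind {m : ℕ} (A : Finset (Fin m → ℤ)) :
    Measurable fun x : Fin m → ℝ => (if (fun i => ⌊x i⌋) ∈ A then 1 else 0 : ℝ≥0∞) :=
  (measurable_of_countable fun a : Fin m → ℤ => (if a ∈ A then 1 else 0 : ℝ≥0∞)).comp (meas_fl m)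

lemma norm_ind {m : ℕ} (A : Finset (Fin m → ℤ)) {N : ℝ} (hA : (A.card : ℝ) ≤ N) :
    (∫⁻ x : Fin m → ℝ, (if (fun i => ⌊x i⌋) ∈ A then 1 else 0 : ℝ≥0∞) ^ (3 / 2 : ℝ)) ^ (2 / 3 : ℝ)
      ≤ ENNReal.ofReal N ^ (2 / 3 : ℝ) := by
  have e : ∀ x : Fin m → ℝ, (if (fun i => ⌊x i⌋) ∈ A then 1 else 0 : ℝ≥0∞) ^ (3 / 2 : ℝ) =
      if (fun i => ⌊x i⌋) ∈ A then (fun _ => 1) (fun i => ⌊x i⌋) else 0 := by
    intro x
    split_ifs
    · simp
    · exact ENNReal.zero_rpow_of_pos (by norm_num)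
  simp_rw [e]
  rw [lint_floor A fun _ => 1]
  gcongr
  rw [Finset.sum_const, nsmul_eq_mul, mul_one, ← ENNReal.ofReal_natCast]
  exact ENNReal.ofReal_le_ofReal hA

end Young2Aux

open Young2Aux

/-- Normalise `u = f^{3/2} / ∫ f^{3/2}` etc. (degenerate cases: an integral `0` or `∞`). -/
theorem young_real : YoungP ℝ volume (ENNReal.ofReal (767 / 768)) := by
  intro f g h hf hg hh
  by_cases f0 : ∫⁻ x, f x ^ (3 / 2 : ℝ) = 0
  · refine le_trans (le_of_eq ?_) zero_le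
    refine (lintegral_congr_ae ?_).trans lintegral_zero
    filter_upwards [ae_zero hf f0] with x hx
    simp [hx]
  by_cases g0 : ∫⁻ x, g x ^ (3 / 2 : ℝ) = 0
  · refine le_trans (le_of_eq ?_) zero_le
    refine (lintegral_congr fun x => ?_).trans lintegral_zero
    refine (lintegral_congr_ae ?_).trans lintegral_zero
    filter_upwards [ae_zero hg g0] with y hy
    simp [hy]
  by_cases h0 : ∫⁻ x, h x ^ (3 / 2 : ℝ) = 0
  · refine le_trans (le_of_eq ?_) zero_le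
    refine (lintegral_congr fun x => ?_).trans lintegral_zero
    refine (lintegral_congr_ae ?_).trans lintegral_zero
    filter_upwards [(measurePreserving_add_left volume x).quasiMeasurePreserving.ae
      (ae_zero hh h0)] with y hy
    simp [hy]
  have hne : ∀ a : ℝ≥0∞, a ≠ 0 → a ^ (2 / 3 : ℝ) ≠ 0 := fun a ha h' => by
    apply ha
    rw [← rpow_cancel' a, h', ENNReal.zero_rpow_of_pos (by norm_num)]
  have hθ : ENNReal.ofReal (767 / 768) ≠ 0 := by simp
  by_cases f1 : ∫⁻ x, f x ^ (3 / 2 : ℝ) = ∞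
  · rw [f1, ENNReal.top_rpow_of_pos (by norm_num), ENNReal.top_mul (hne _ g0),
      ENNReal.top_mul (hne _ h0), ENNReal.mul_top hθ]
    exact le_top
  by_cases g1 : ∫⁻ x, g x ^ (3 / 2 : ℝ) = ∞
  · rw [g1, ENNReal.top_rpow_of_pos (by norm_num), ENNReal.mul_top (hne _ f0),
      ENNReal.top_mul (hne _ h0), ENNReal.mul_top hθ]
    exact le_top
  by_cases h1 : ∫⁻ x, h x ^ (3 / 2 : ℝ) = ∞
  · rw [h1, ENNReal.top_rpow_of_pos (by norm_num),
      ENNReal.mul_top (mul_ne_zero (hne _ f0) (hne _ g0)), ENNReal.mul_top hθ]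
    exact le_top
  obtain ⟨u, hu, hu0, iu, hu1, eu⟩ := normalise hf f0 f1
  obtain ⟨v, hv, hv0, iv, hv1, ev⟩ := normalise hg g0 g1
  obtain ⟨w, hw, hw0, iw, hw1, ew⟩ := normalise hh h0 h1
  have core := young_core u v w hu hv hw hu0 hv0 hw0 iu iv iw hu1 hv1 hw1
  have hK : (∫⁻ x, f x ^ (3 / 2 : ℝ)) ^ (2 / 3 : ℝ) * (∫⁻ x, g x ^ (3 / 2 : ℝ)) ^ (2 / 3 : ℝ) *
      (∫⁻ x, h x ^ (3 / 2 : ℝ)) ^ (2 / 3 : ℝ) ≠ ∞ :=
    ENNReal.mul_ne_top (ENNReal.mul_ne_top (ENNReal.rpow_ne_top_of_nonneg (by norm_num) f1)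
      (ENNReal.rpow_ne_top_of_nonneg (by norm_num) g1))
      (ENNReal.rpow_ne_top_of_nonneg (by norm_num) h1)
  generalize (∫⁻ x, f x ^ (3 / 2 : ℝ)) ^ (2 / 3 : ℝ) = A at *
  generalize (∫⁻ x, g x ^ (3 / 2 : ℝ)) ^ (2 / 3 : ℝ) = B at *
  generalize (∫⁻ x, h x ^ (3 / 2 : ℝ)) ^ (2 / 3 : ℝ) = C at *
  rw [mul_comm]
  refine le_trans (le_of_eq ?_) (mul_le_mul_right core (A * B * C))
  rw [← lintegral_const_mul' _ _ hK]
  refine lintegral_congr_ae ?_
  filter_upwards [eu] with x hx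
  rw [← lintegral_const_mul' _ _ hK]
  refine lintegral_congr_ae ?_
  filter_upwards [ev, (measurePreserving_add_left volume x).quasiMeasurePreserving.ae ew]
    with y hy hz
  rw [hx, hy, hz, Real.mul_rpow (mul_nonneg (hu0 x) (hv0 y)) (hw0 _),
    Real.mul_rpow (hu0 x) (hv0 y),
    ENNReal.ofReal_mul (mul_nonneg (Real.rpow_nonneg (hu0 x) _) (Real.rpow_nonneg (hv0 y) _)),
    ENNReal.ofReal_mul (Real.rpow_nonneg (hu0 x) _)]
  ring

/-- Inner inequality, then the outer one for `F x = (∫ f (x, ·)^{3/2})^{2/3}`. -/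
theorem YoungP.prod {G G' : Type} [MeasurableSpace G] [Add G] [MeasurableAdd₂ G]
    [MeasurableSpace G'] [Add G'] [MeasurableAdd₂ G'] {μ : Measure G} {μ' : Measure G'}
    [SFinite μ] [SFinite μ'] {θ θ' : ℝ≥0∞} (hθ' : θ' ≠ ∞) (h : YoungP G μ θ)
    (h' : YoungP G' μ' θ') : YoungP (G × G') (μ.prod μ') (θ * θ') := by
  intro f g k hf hg hk
  have hF : ∀ {f : G × G' → ℝ≥0∞}, Measurable f →
      Measurable fun x => (∫⁻ x', f (x, x') ^ (3 / 2 : ℝ) ∂μ') ^ (2 / 3 : ℝ) := fun {f} hf =>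
    (hf.pow_const (3 / 2 : ℝ)).lintegral_prod_right'.pow_const _
  have hN : ∀ {f : G × G' → ℝ≥0∞}, Measurable f →
      ∫⁻ x, ((∫⁻ x', f (x, x') ^ (3 / 2 : ℝ) ∂μ') ^ (2 / 3 : ℝ)) ^ (3 / 2 : ℝ) ∂μ =
        ∫⁻ z, f z ^ (3 / 2 : ℝ) ∂μ.prod μ' := fun {f} hf => by
    simp_rw [rpow_cancel']
    rw [lintegral_prod _ (hf.pow_const _).aemeasurable]
  have H := h _ _ _ (hF hf) (hF hg) (hF hk)
  rw [hN hf, hN hg, hN hk] at H
  have hm : Measurable fun p : (G × G') × (G × G') => f p.1 * g p.2 * k (p.1 + p.2) :=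
    ((hf.comp measurable_fst).mul (hg.comp measurable_snd)).mul
      (hk.comp (((measurable_fst.comp measurable_fst).add (measurable_fst.comp measurable_snd)).prodMk
        ((measurable_snd.comp measurable_fst).add (measurable_snd.comp measurable_snd))))
  rw [mul_comm θ θ', mul_assoc]
  refine le_trans ?_ (mul_le_mul_right H θ')
  rw [← lintegral_const_mul' _ _ hθ', lintegral_prod _ hm.lintegral_prod_right'.aemeasurable]
  refine lintegral_mono fun x => ?_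
  have e1 : ∀ x' : G', ∫⁻ q, f (x, x') * g q * k ((x, x') + q) ∂μ.prod μ' =
      ∫⁻ y, ∫⁻ y', f (x, x') * g (y, y') * k (x + y, x' + y') ∂μ' ∂μ := fun x' =>
    lintegral_prod _ (hm.comp measurable_prodMk_left).aemeasurable
  have hm2 : Measurable fun p : (G' × G) × G' =>
      f (x, p.1.1) * g (p.1.2, p.2) * k (x + p.1.2, p.1.1 + p.2) :=
    hm.comp (f := fun p : (G' × G) × G' => ((x, p.1.1), (p.1.2, p.2)))
      ((measurable_const.prodMk measurable_fst.fst).prodMk (measurable_fst.snd.prodMk measurable_snd))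
  simp only [e1]
  rw [lintegral_lintegral_swap hm2.lintegral_prod_right'.aemeasurable,
    ← lintegral_const_mul' _ _ hθ']
  refine lintegral_mono fun y => ?_
  exact h' (fun x' => f (x, x')) (fun y' => g (y, y')) (fun z' => k (x + y, z'))
    (hf.comp measurable_prodMk_left) (hg.comp measurable_prodMk_left)
    (hk.comp measurable_prodMk_left)

theorem young_pi (m : ℕ) : YoungP (Fin m → ℝ) volume (ENNReal.ofReal (767 / 768) ^ m) := by
  induction m with
  | zero =>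
    intro f g h hf hg hh
    have hv : (volume : Measure (Fin 0 → ℝ)) = Measure.dirac default := by
      rw [volume_pi, Measure.pi_of_empty]
      congr 1
      exact Subsingleton.elim _ _
    rw [hv]
    simp only [lintegral_dirac, rpow_cancel, pow_zero, one_mul]
    rw [Subsingleton.elim (default + default : Fin 0 → ℝ) default]
  | succ n ih =>
    rw [pow_succ']
    refine of_equiv (MeasurableEquiv.piFinSuccAbove (fun _ => ℝ) 0)
      (volume_preserving_piFinSuccAbove (fun _ => ℝ) 0) (fun x y => rfl)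
      (young_real.prod (ENNReal.pow_ne_top ENNReal.ofReal_ne_top) ih)

/-- Unions of unit cells `a + [0,1)^m`; the sum of two cells lies in the union of the cells of
`a + b + {0,1}^m`. -/
theorem young_grid (m : ℕ) (A B C C' : Finset (Fin m → ℤ))
    (hC : ∀ c ∈ C, ∀ e : Fin m → ℤ, (∀ i, e i = 0 ∨ e i = 1) → c + e ∈ C') (N : ℝ)
    (hA : (A.card : ℝ) ≤ N) (hB : (B.card : ℝ) ≤ N) (hC' : (C'.card : ℝ) ≤ N) :
    (((A ×ˢ B).filter fun x => x.1 + x.2 ∈ C).card : ℝ) ≤ (767 / 768) ^ m * N ^ 2 := by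
  have hN : 0 ≤ N := (Nat.cast_nonneg _).trans hA
  have H := young_pi m _ _ _ (meas_ind A) (meas_ind B) (meas_ind C')
  have h1 : (((A ×ˢ B).filter fun x => x.1 + x.2 ∈ C).card : ℝ≥0∞) =
      ∑ a ∈ A, ∑ b ∈ B, if a + b ∈ C then 1 else 0 := by
    rw [Finset.card_filter, Finset.sum_product]
    push_cast
    rfl
  have h2 : (∑ a ∈ A, ∑ b ∈ B, if a + b ∈ C then 1 else 0 : ℝ≥0∞) ≤
      ∫⁻ x : Fin m → ℝ, ∫⁻ y : Fin m → ℝ, (if (fun i => ⌊x i⌋) ∈ A then 1 else 0 : ℝ≥0∞) *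
        (if (fun i => ⌊y i⌋) ∈ B then 1 else 0) *
        (if (fun i => ⌊(x + y) i⌋) ∈ C' then 1 else 0) := by
    rw [← lint_floor A fun a => ∑ b ∈ B, if a + b ∈ C then 1 else 0]
    refine lintegral_mono fun x => ?_
    by_cases hx : (fun i => ⌊x i⌋) ∈ A
    · simp only [if_pos hx, one_mul]
      rw [← lint_floor B fun b => if (fun i => ⌊x i⌋) + b ∈ C then 1 else 0]
      refine lintegral_mono fun y => ?_
      by_cases hy : (fun i => ⌊y i⌋) ∈ B
      · simp only [if_pos hy, one_mul]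
        by_cases hz : ((fun i => ⌊x i⌋) + fun i => ⌊y i⌋) ∈ C
        · have := hC _ hz (fun i => ⌊(x + y) i⌋ - (⌊x i⌋ + ⌊y i⌋)) fun i => by
            have e1 := Int.le_floor_add (x i) (y i)
            have e2 := Int.le_floor_add_floor (x i) (y i)
            simp only [Pi.add_apply]
            omega
          have e : (((fun i => ⌊x i⌋) + fun i => ⌊y i⌋) +
              fun i => ⌊(x + y) i⌋ - (⌊x i⌋ + ⌊y i⌋)) = fun i => ⌊(x + y) i⌋ := by
            funext i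
            simp only [Pi.add_apply]
            ring
          rw [e] at this
          rw [if_pos hz, if_pos this]
        · rw [if_neg hz]; exact zero_le
      · simp only [if_neg hy]; exact zero_le
    · simp only [if_neg hx]; exact zero_le
  have h3 : (((A ×ˢ B).filter fun x => x.1 + x.2 ∈ C).card : ℝ≥0∞) ≤
      ENNReal.ofReal ((767 / 768) ^ m * N ^ 2) := by
    rw [h1]
    refine (h2.trans H).trans ?_
    rw [ENNReal.ofReal_mul (by positivity), ENNReal.ofReal_pow (by norm_num),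
      ENNReal.ofReal_pow hN]
    refine mul_le_mul_right ?_ _
    refine (mul_le_mul' (mul_le_mul' (norm_ind A hA) (norm_ind B hB)) (norm_ind C' hC')).trans
      (le_of_eq ?_)
    rw [← ENNReal.rpow_add_of_nonneg _ _ (by norm_num) (by norm_num),
      ← ENNReal.rpow_add_of_nonneg _ _ (by norm_num) (by norm_num), ← ENNReal.rpow_natCast]
    norm_num
  rw [← ENNReal.ofReal_natCast, ENNReal.ofReal_le_ofReal_iff (by positivity)] at h3
  exact h3

end Crest.Agent.R225
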