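import Crest.Agent.R225.RelCount
import Crest.Agent.R225.Young2

/-! Task `R225 RelSum`: the number of dependent configurations. -/

set_option autoImplicit false

namespace Crest.Agent.R225

lemma RelSum_mem_thick {m : ℕ} {S : Finset (Fin m → ℤ)} {W : ℕ} {x : Fin m → ℤ} :
    x ∈ thick S W ↔ ∃ y ∈ S, ∀ i, y i - W ≤ x i ∧ x i ≤ y i + W := by
  simp [thick, Fintype.mem_piFinset]

lemma subset_thick {m : ℕ} (S : Finset (Fin m → ℤ)) (W : ℕ) : S ⊆ thick S W := by
  intro x hx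
  exact RelSum_mem_thick.2 ⟨x, hx, fun i => ⟨by omega, by omega⟩⟩

lemma thick_mono {m : ℕ} (S : Finset (Fin m → ℤ)) {W W' : ℕ} (h : W ≤ W') :
    thick S W ⊆ thick S W' := by
  intro x hx
  obtain ⟨y, hy, hxy⟩ := RelSum_mem_thick.1 hx
  exact RelSum_mem_thick.2 ⟨y, hy, fun i => ⟨by have := hxy i; omega, by have := hxy i; omega⟩⟩

/-- A sum over all indices, three of them split off. -/
lemma RelSum_sum_three {n : ℕ} {i j k : Fin n} (hij : i ≠ j) (hik : i ≠ k) (hjk : j ≠ k)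
    (f : Fin n → ℤ) :
    ∑ l, f l = f i + f j + f k + ∑ l ∈ Finset.univ \ {i, j, k}, f l := by
  rw [← Finset.sum_sdiff (Finset.subset_univ ({i, j, k} : Finset (Fin n))),
    Finset.sum_insert (by simp [hij, hik]), Finset.sum_insert (by simp [hjk]), Finset.sum_singleton]
  ring

open Classical in
/-- Two coefficients `1`, a third one `-1`. -/
lemma RelSum_three {m r : ℕ} (S : Finset (Fin m → ℤ)) (c : Fin (r + 1) → ℤ) {i j k : Fin (r + 1)}
    (hij : i ≠ j) (hik : i ≠ k) (hjk : j ≠ k) (hi : c i = 1) (hj : c j = 1) (hk : c k = -1)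
    (N : ℝ) (hN : ((thick S 1).card : ℝ) ≤ N) :
    (((Fintype.piFinset fun _ : Fin (r + 1) => S).filter fun y => Rel c y).card : ℝ) ≤
      (767 / 768) ^ m * N ^ r := by
  have hS : (S.card : ℝ) ≤ N :=
    le_trans (by exact_mod_cast Finset.card_le_card (subset_thick S 1)) hN
  have hN0 : 0 ≤ N := le_trans (Nat.cast_nonneg _) hS
  set I : Finset (Fin (r + 1)) := {i, j, k} with hI
  have hIc : I.card = 3 := Finset.card_eq_three.2 ⟨i, j, k, hij, hik, hjk, rfl⟩
  have hr : 2 ≤ r := by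
    have := Finset.card_le_univ I
    rw [hIc, Fintype.card_fin] at this
    omega
  set Z : Finset (Fin (r + 1) → Fin m → ℤ) :=
    Fintype.piFinset fun l => if l ∈ I then {0} else S with hZ
  have hZc : Z.card = S.card ^ (r - 2) := by
    rw [hZ, Fintype.card_piFinset]
    have e : ∀ l, (if l ∈ I then ({0} : Finset (Fin m → ℤ)) else S).card =
        if l ∈ I then 1 else S.card := fun l => by split_ifs <;> simp
    simp only [e]
    rw [Finset.prod_ite, Finset.prod_const_one, one_mul, Finset.prod_const]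
    congr 1
    have : (Finset.univ.filter fun l => l ∉ I) = Finset.univ \ I := by ext l; simp
    rw [this, Finset.card_univ_sdiff, hIc, Fintype.card_fin]
    omega
  set f : (Fin (r + 1) → Fin m → ℤ) → Fin (r + 1) → Fin m → ℤ :=
    fun y l => if l ∈ I then 0 else y l with hf
  set Y := (Fintype.piFinset fun _ : Fin (r + 1) => S).filter fun y => Rel c y with hY
  have hmap : ∀ y ∈ Y, f y ∈ Z := fun y hy => by
    have hy' := Fintype.mem_piFinset.1 (Finset.mem_filter.1 hy).1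
    refine Fintype.mem_piFinset.2 fun l => ?_
    by_cases hl : l ∈ I
    · simp [hf, hl]
    · simp [hf, hl, hy' l]
  have hfib : ∀ z ∈ Z, ((Y.filter fun y => f y = z).card : ℝ) ≤ (767 / 768) ^ m * N ^ 2 := by
    intro z _
    set t : Fin m → ℤ := fun a => ∑ l ∈ Finset.univ \ I, c l * z l a with ht
    have key : ∀ y ∈ Y.filter fun y => f y = z, y i + y j + t = y k := fun y hy => by
      obtain ⟨hy1, hy2⟩ := Finset.mem_filter.1 hy
      have hrel := (Finset.mem_filter.1 hy1).2.2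
      funext a
      have h1 := hrel a
      rw [RelSum_sum_three hij hik hjk, hi, hj, hk] at h1
      have h2 : ∑ l ∈ Finset.univ \ I, c l * y l a = t a :=
        Finset.sum_congr rfl fun l hl => by
          have hl' : l ∉ I := (Finset.mem_sdiff.1 hl).2
          rw [← hy2]; simp [hf, hl']
      rw [h2] at h1
      simp only [Pi.add_apply]
      linarith
    refine le_trans ?_ (young_grid m S S (S.image fun s => s - t) ((thick S 1).image fun s => s - t)
      ?_ N hS hS ?_)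
    · have := Finset.card_le_card_of_injOn (s := Y.filter fun y => f y = z)
        (t := (S ×ˢ S).filter fun x => x.1 + x.2 ∈ S.image fun s => s - t)
        (fun y => (y i, y j)) ?_ ?_
      · exact_mod_cast this
      · intro y hy
        have hy0 := Finset.mem_coe.1 hy
        have hy' := Fintype.mem_piFinset.1 (Finset.mem_filter.1 (Finset.mem_filter.1 hy0).1).1
        refine Finset.mem_coe.2 (Finset.mem_filter.2 ⟨Finset.mem_product.2 ⟨hy' i, hy' j⟩, ?_⟩)
        exact Finset.mem_image.2 ⟨y k, hy' k, by rw [← key y hy0]; simp⟩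
      · intro y hy y' hy' h
        have hy0 := Finset.mem_coe.1 hy
        have hy0' := Finset.mem_coe.1 hy'
        have e1 : y i = y' i := congrArg Prod.fst h
        have e2 : y j = y' j := congrArg Prod.snd h
        have e3 : y k = y' k := by rw [← key y hy0, ← key y' hy0', e1, e2]
        have e4 : f y = f y' := (Finset.mem_filter.1 hy0).2.trans (Finset.mem_filter.1 hy0').2.symm
        funext l
        by_cases hl : l ∈ I
        · simp only [hI, Finset.mem_insert, Finset.mem_singleton] at hl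
          rcases hl with rfl | rfl | rfl <;> assumption
        · simpa [hf, hl] using congrFun e4 l
    · intro x hx e he
      obtain ⟨s, hs, rfl⟩ := Finset.mem_image.1 hx
      refine Finset.mem_image.2 ⟨s + e, RelSum_mem_thick.2 ⟨s, hs, fun a => ?_⟩, by abel⟩
      simp only [Pi.add_apply]
      rcases he a with h | h <;> rw [h] <;> omega
    · exact le_trans (by exact_mod_cast Finset.card_image_le) hN
  rw [Finset.card_eq_sum_card_fiberwise hmap]
  push_cast
  refine (Finset.sum_le_card_nsmul _ _ _ hfib).trans ?_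
  rw [nsmul_eq_mul, hZc]
  push_cast
  calc (S.card : ℝ) ^ (r - 2) * ((767 / 768) ^ m * N ^ 2) ≤ N ^ (r - 2) * ((767 / 768) ^ m * N ^ 2) := by
        gcongr
    _ = (767 / 768) ^ m * (N ^ (r - 2) * N ^ 2) := by ring
    _ = (767 / 768) ^ m * N ^ r := by rw [← pow_add, Nat.sub_add_cancel hr]

lemma RelSum_neg {m r : ℕ} {c : Fin (r + 1) → ℤ} {y : Fin (r + 1) → Fin m → ℤ} (h : Rel c y) :
    Rel (-c) y := by
  refine ⟨by simpa using h.1, fun l => ?_⟩
  simpa using h.2 l

/-- The sign pattern of a relation of height one with `c 0 = 1`. -/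
lemma RelSum_signs {m r : ℕ} {c : Fin (r + 1) → ℤ} (h0 : c 0 = 1) (hc : ∀ i, |c i| ≤ 1)
    {y : Fin (r + 1) → Fin m → ℤ} (hy : Rel c y) (hne : ∀ i : Fin r, y 0 ≠ y i.succ) :
    ∃ j k, (0 : Fin (r + 1)) ≠ j ∧ c j = 1 ∧ c k = -1 := by
  have h3 : ∀ i, c i = 1 ∨ c i = 0 ∨ c i = -1 := fun i => by
    have := abs_le.1 (hc i); omega
  have hs := hy.1
  rw [Fin.sum_univ_succ, h0] at hs
  obtain ⟨k, hk⟩ : ∃ k : Fin r, c k.succ = -1 := by
    by_contra h
    push Not at h
    have : 0 ≤ ∑ i : Fin r, c i.succ := Finset.sum_nonneg fun i _ => by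
      have := h3 i.succ; have := h i; omega
    omega
  by_contra h
  push Not at h
  have h1 : ∀ i : Fin r, c i.succ ≤ 0 := fun i => by
    have a := h3 i.succ
    have b : c i.succ ≠ 1 := fun e => h i.succ k.succ (Fin.succ_ne_zero i).symm e hk
    omega
  have h2 : ∀ i ∈ Finset.univ.erase k, c (Fin.succ i) = 0 := by
    rw [← Finset.add_sum_erase _ _ (Finset.mem_univ k), hk] at hs
    exact (Finset.sum_eq_zero_iff_of_nonpos fun i _ => h1 i).1 (by omega)
  refine hne k (funext fun l => ?_)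
  have h4 := hy.2 l
  rw [Fin.sum_univ_succ, h0, ← Finset.add_sum_erase _ _ (Finset.mem_univ k), hk,
    Finset.sum_eq_zero fun i hi => by rw [h2 i hi, zero_mul]] at h4
  omega

open Classical in
/-- Height one: `∑ c = 0`, `c 0 ≠ 0`; support of size two would give `y 0 = y i`; otherwise there
are two indices of one sign and a third of the other sign: fix the other `r - 2` points and use
`young_grid` with `C' ⊆` a translate of `thick S 1`. -/
theorem rel_one {m r : ℕ} (S : Finset (Fin m → ℤ)) (c : Fin (r + 1) → ℤ) (h0 : c 0 ≠ 0)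
    (hc : ∀ i, |c i| ≤ 1) (N : ℝ) (hN : ((thick S 1).card : ℝ) ≤ N) :
    (((Fintype.piFinset fun _ : Fin (r + 1) => S).filter fun y =>
      Rel c y ∧ ∀ i : Fin r, y 0 ≠ y i.succ).card : ℝ) ≤ (767 / 768) ^ m * N ^ r := by
  have hN0 : 0 ≤ N := le_trans (Nat.cast_nonneg _) hN
  have main : ∀ c : Fin (r + 1) → ℤ, c 0 = 1 → (∀ i, |c i| ≤ 1) →
      (((Fintype.piFinset fun _ : Fin (r + 1) => S).filter fun y =>
        Rel c y ∧ ∀ i : Fin r, y 0 ≠ y i.succ).card : ℝ) ≤ (767 / 768) ^ m * N ^ r := by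
    intro c h1 hc
    rcases ((Fintype.piFinset fun _ : Fin (r + 1) => S).filter fun y =>
        Rel c y ∧ ∀ i : Fin r, y 0 ≠ y i.succ).eq_empty_or_nonempty with he | ⟨y, hy⟩
    · rw [he]; simp only [Finset.card_empty, Nat.cast_zero]; positivity
    · obtain ⟨hy1, hy2⟩ := (Finset.mem_filter.1 hy).2
      obtain ⟨j, k, hj0, hj, hk⟩ := RelSum_signs h1 hc hy1 hy2
      refine le_trans ?_ (RelSum_three S c (i := 0) (j := j) (k := k) hj0
        (fun e => by rw [e, hk] at h1; omega) (fun e => by rw [e, hk] at hj; omega) h1 hj hk N hN)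
      refine Nat.cast_le.2 (Finset.card_le_card ?_)
      exact Finset.monotone_filter_right _ fun y _ h => h.1
  have h3 : c 0 = 1 ∨ c 0 = -1 := by have := abs_le.1 (hc 0); omega
  rcases h3 with h | h
  · exact main c h hc
  · refine le_trans ?_ (main (-c) (by simp [h]) fun i => by simpa using hc i)
    refine Nat.cast_le.2 (Finset.card_le_card ?_)
    exact Finset.monotone_filter_right _ fun y _ h => ⟨RelSum_neg h.1, h.2⟩

/-- Clearing denominators. -/
lemma RelSum_prim {m r : ℕ} (y : Fin (r + 1) → Fin m → ℤ)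
    (h : hatQ (y 0) ∈ Submodule.span ℚ (Set.range fun i : Fin r => hatQ (y i.succ))) :
    ∃ c : Fin (r + 1) → ℤ, Finset.univ.gcd c = 1 ∧ c 0 ≠ 0 ∧ Rel c y := by
  obtain ⟨q, hq⟩ := (Submodule.mem_span_range_iff_exists_fun ℚ).1 h
  obtain ⟨b, hb⟩ := IsLocalization.exist_integer_multiples_of_finite (nonZeroDivisors ℤ) q
  choose a ha using hb
  have hb0 : (b : ℤ) ≠ 0 := nonZeroDivisors.coe_ne_zero b
  have ha' : ∀ i, (a i : ℚ) = ((b : ℤ) : ℚ) * q i := fun i => by simpa using ha i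
  set c' : Fin (r + 1) → ℤ := Fin.cons (-(b : ℤ)) a with hc'
  have hrel : Rel c' y := by
    constructor
    · have h1 := congrFun hq none
      simp only [Finset.sum_apply, Pi.smul_apply, hatQ, Option.elim_none, smul_eq_mul, mul_one] at h1
      rw [Fin.sum_univ_succ]
      simp only [hc', Fin.cons_zero, Fin.cons_succ]
      have : ((-(b : ℤ) + ∑ i, a i : ℤ) : ℚ) = 0 := by
        push_cast
        simp only [ha', ← Finset.mul_sum, h1]; ring
      exact_mod_cast this
    · intro l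
      have h1 := congrFun hq (some l)
      simp only [Finset.sum_apply, Pi.smul_apply, hatQ, Option.elim_some, smul_eq_mul] at h1
      rw [Fin.sum_univ_succ]
      simp only [hc', Fin.cons_zero, Fin.cons_succ]
      have : ((-(b : ℤ) * y 0 l + ∑ i, a i * y i.succ l : ℤ) : ℚ) = 0 := by
        push_cast
        simp only [ha', mul_assoc, ← Finset.mul_sum, h1]; ring
      exact_mod_cast this
  obtain ⟨c, hc, hg⟩ := Finset.extract_gcd c' (Finset.univ_nonempty (α := Fin (r + 1)))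
  generalize Finset.univ.gcd c' = G at hc
  have e0 : -(b : ℤ) = G * c 0 := by simpa [hc'] using hc 0 (Finset.mem_univ _)
  have hG : G ≠ 0 := fun e => hb0 (by rw [e] at e0; omega)
  refine ⟨c, hg, fun e => hb0 (by rw [e] at e0; omega), ?_, fun l => ?_⟩
  · refine (mul_eq_zero.1 ?_).resolve_left hG
    rw [Finset.mul_sum, ← hrel.1]
    exact Finset.sum_congr rfl fun i hi => (hc i hi).symm
  · refine (mul_eq_zero.1 ?_).resolve_left hG
    rw [Finset.mul_sum, ← hrel.2 l]
    exact Finset.sum_congr rfl fun i hi => by rw [hc i hi, mul_assoc]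

open Classical in
/-- The ordered configurations. -/
noncomputable def RelSum_Y {m : ℕ} (S : Finset (Fin m → ℤ)) (r : ℕ) (c : Fin (r + 1) → ℤ) :
    Finset (Fin (r + 1) → Fin m → ℤ) :=
  (Fintype.piFinset fun _ : Fin (r + 1) => S).filter fun y => Rel c y ∧
    (∀ i : Fin r, y 0 ≠ y i.succ) ∧ LinearIndependent ℚ fun i : Fin r => hatQ (y i.succ)

open Classical in
/-- The primitive relations of height `H`. -/
noncomputable def RelSum_C (r H : ℕ) : Finset (Fin (r + 1) → ℤ) :=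
  (Fintype.piFinset fun _ : Fin (r + 1) => Finset.Icc (-(H : ℤ)) H).filter fun c =>
    Finset.univ.gcd c = 1 ∧ c 0 ≠ 0 ∧ ∃ i, (c i).natAbs = H

lemma RelSum_C_card (r H : ℕ) : (RelSum_C r H).card ≤ (2 * H + 1) ^ (r + 1) := by
  classical
  refine (Finset.card_filter_le _ _).trans ?_
  rw [Fintype.card_piFinset, Finset.prod_const, Finset.card_univ, Fintype.card_fin, Int.card_Icc]
  refine Nat.pow_le_pow_left ?_ _
  omega

lemma RelSum_Zp {m r : ℕ} (S : Finset (Fin m → ℤ)) (H₀ : ℕ) : ∃ K : ℕ, H₀ ≤ K ∧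
    Zp S hatQ r ≤ ∑ H ∈ Finset.Ioc 0 K, ∑ c ∈ RelSum_C r H, (RelSum_Y S r c).card := by
  classical
  unfold Zp
  set P := (S.powersetCard r ×ˢ S).filter fun x => LinearIndepOn ℚ hatQ (x.1 : Set (Fin m → ℤ)) ∧
    x.2 ∉ x.1 ∧ hatQ x.2 ∈ Submodule.span ℚ (hatQ '' (x.1 : Set (Fin m → ℤ))) with hP
  have h1 : ∀ x ∈ P, ∃ (y : Fin (r + 1) → Fin m → ℤ) (H : ℕ), y 0 = x.2 ∧
      (Finset.univ.image fun i : Fin r => y i.succ) = x.1 ∧ 0 < H ∧
      ∃ c ∈ RelSum_C r H, y ∈ RelSum_Y S r c := by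
    rintro ⟨B, x⟩ hx
    obtain ⟨hx1, hli, hxB, hsp⟩ := Finset.mem_filter.1 hx
    obtain ⟨hB, hxS⟩ := Finset.mem_product.1 hx1
    obtain ⟨hBS, hBc⟩ := Finset.mem_powersetCard.1 hB
    simp only at hli hxB hsp hxS hBS hBc
    let e : Fin r ≃ B := (Finset.equivFinOfCardEq hBc).symm
    let y : Fin (r + 1) → Fin m → ℤ := Fin.cons x fun i => (e i : Fin m → ℤ)
    have hy0 : y 0 = x := rfl
    have hys : ∀ i : Fin r, y i.succ = e i := fun i => rfl
    have him : (Finset.univ.image fun i : Fin r => y i.succ) = B := by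
      ext b
      simp only [Finset.mem_image, Finset.mem_univ, true_and, hys]
      exact ⟨fun ⟨i, hi⟩ => hi ▸ (e i).2, fun hb => ⟨e.symm ⟨b, hb⟩, by simp⟩⟩
    have hrange : (Set.range fun i : Fin r => hatQ (y i.succ)) = hatQ '' (B : Set (Fin m → ℤ)) := by
      rw [← him, Finset.coe_image, Finset.coe_univ, Set.image_univ, ← Set.range_comp]
      rfl
    obtain ⟨c, hg, hc0, hrel⟩ := RelSum_prim y (by rw [hrange]; exact hsp)
    obtain ⟨i₀, -, hi₀⟩ := Finset.exists_max_image Finset.univ (fun i => (c i).natAbs)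
      Finset.univ_nonempty
    refine ⟨y, (c i₀).natAbs, hy0, him, ?_, c, ?_, ?_⟩
    · have := hi₀ 0 (Finset.mem_univ _)
      omega
    · refine Finset.mem_filter.2 ⟨Fintype.mem_piFinset.2 fun i => ?_, hg, hc0, i₀, rfl⟩
      have := hi₀ i (Finset.mem_univ _)
      rw [Finset.mem_Icc]
      omega
    · refine Finset.mem_filter.2 ⟨Fintype.mem_piFinset.2 fun i => ?_, hrel, fun i hi => ?_, ?_⟩
      · refine Fin.cases hxS (fun i => ?_) i
        exact hBS (e i).2
      · exact hxB (by rw [← hy0, hi]; exact (e i).2)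
      · exact LinearIndependent.comp hli e e.injective
  choose! y ht hy0 hyB hpos hyc using h1
  refine ⟨max H₀ (P.sup ht), le_max_left _ _, ?_⟩
  refine le_trans ?_ (Finset.sum_le_sum fun H _ => Finset.card_biUnion_le)
  refine le_trans ?_ Finset.card_biUnion_le
  refine Finset.card_le_card_of_injOn y (fun x hx => ?_) fun x hx x' hx' h => ?_
  · have hx0 := Finset.mem_coe.1 hx
    refine Finset.mem_coe.2 (Finset.mem_biUnion.2 ⟨ht x, Finset.mem_Ioc.2 ⟨hpos x hx0, ?_⟩,
      Finset.mem_biUnion.2 (hyc x hx0)⟩)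
    exact (Finset.le_sup (f := ht) hx0).trans (le_max_right _ _)
  · have hx0 := Finset.mem_coe.1 hx
    have hx0' := Finset.mem_coe.1 hx'
    exact Prod.ext (by rw [← hyB x hx0, ← hyB x' hx0', h]) (by rw [← hy0 x hx0, ← hy0 x' hx0', h])

/-- Configurations with a relation of height `H`, given coset representatives of size `W`. -/
lemma RelSum_coset {m r H : ℕ} (S : Finset (Fin m → ℤ)) {c : Fin (r + 1) → ℤ}
    (hg : Finset.univ.gcd c = 1) {i₀ : Fin (r + 1)} (hi : (c i₀).natAbs = H) (hH : 0 < H) {W : ℕ}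
    (hW : ∀ w : Fin r → ℤ, ∃ w' : Fin r → ℤ, (∀ i, |w' i| ≤ W) ∧
      c i₀ ∣ ∑ i, c (i₀.succAbove i) * (w i - w' i)) {N : ℝ} (hN : ((thick S W).card : ℝ) ≤ N) :
    ((RelSum_Y S r c).card : ℝ) ≤ N ^ r / (H : ℝ) ^ m := by
  classical
  have h1 := coset_count S c hg i₀ (by omega) W hW
  rw [hi] at h1
  have h2 : (RelSum_Y S r c).card * H ^ m ≤ (thick S W).card ^ r := by
    refine le_trans (Nat.mul_le_mul_right _ ?_) h1
    unfold RelSum_Y
    exact Finset.card_le_card (Finset.monotone_filter_right _ fun y _ h => h.1)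
  have h3 : ((RelSum_Y S r c).card : ℝ) * (H : ℝ) ^ m ≤ ((thick S W).card : ℝ) ^ r := by
    exact_mod_cast h2
  rw [le_div_iff₀ (by positivity)]
  exact h3.trans (by gcongr)

lemma RelSum_level {m r H : ℕ} (hm : 3 * r + 5 ≤ m) (hH : 2 ≤ H) (S : Finset (Fin m → ℤ)) {M : ℝ}
    (hM : 0 ≤ M) (h : ∀ c ∈ RelSum_C r H, ((RelSum_Y S r c).card : ℝ) ≤ M / (H : ℝ) ^ m) :
    ((∑ c ∈ RelSum_C r H, (RelSum_Y S r c).card : ℕ) : ℝ) ≤
      2 ^ (3 * r + 5) / 2 ^ m * M * ((H : ℝ) ^ 2)⁻¹ := by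
  obtain ⟨s, rfl⟩ := Nat.exists_eq_add_of_le hm
  have hH' : (2 : ℝ) ≤ H := by exact_mod_cast hH
  have hH0 : (0 : ℝ) < H := by linarith
  push_cast
  refine (Finset.sum_le_card_nsmul _ _ _ h).trans ?_
  rw [nsmul_eq_mul]
  have h1 : ((RelSum_C r H).card : ℝ) ≤ ((H : ℝ) ^ 3) ^ (r + 1) := by
    have a : ((RelSum_C r H).card : ℝ) ≤ (2 * H + 1) ^ (r + 1) := by
      exact_mod_cast RelSum_C_card r H
    refine a.trans (pow_le_pow_left₀ (by positivity) ?_ _)
    nlinarith [mul_nonneg (sub_nonneg.2 hH') (sq_nonneg (H : ℝ)), mul_nonneg (sub_nonneg.2 hH') hH0.le]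
  calc ((RelSum_C r H).card : ℝ) * (M / (H : ℝ) ^ (3 * r + 5 + s))
      ≤ ((H : ℝ) ^ 3) ^ (r + 1) * (M / (H : ℝ) ^ (3 * r + 5 + s)) := by gcongr
    _ = 1 / (H : ℝ) ^ s * M * ((H : ℝ) ^ 2)⁻¹ := by field_simp; ring
    _ ≤ 1 / 2 ^ s * M * ((H : ℝ) ^ 2)⁻¹ := by gcongr
    _ = 2 ^ (3 * r + 5) / 2 ^ (3 * r + 5 + s) * M * ((H : ℝ) ^ 2)⁻¹ := by field_simp; ring

/-- Order each `B`; clearing denominators gives a primitive relation `c`, `c 0 ≠ 0`, of height
`H = max |c i| = |c i₀|`; at most `(2H+1)^{r+1}` relations of height `H` (`≤ H^{3(r+1)}` for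
`H ≥ 2`). `H = 1`: `rel_one`; `2 ≤ H ≤ H₀`: `coset_count` + `reps_height`,
`∑_{H ≥ 2} H^{-s} ≤ 2^{2-s}`; `H > H₀`: `coset_count` + `reps_indep`, `∑_{H > H₀} H^{-2} ≤ 1/H₀`. -/
theorem Zp_le {m r : ℕ} (hm : 3 * r + 5 ≤ m) (S : Finset (Fin m → ℤ)) (X H₀ : ℕ) (hX1 : 1 ≤ X)
    (hH : 1 ≤ H₀) (hX : ∀ y ∈ S, ∀ l, |y l| ≤ X) (N₁ N₂ : ℝ)
    (h1 : ((thick S H₀).card : ℝ) ≤ N₁) (h2 : ((thick S (r * X)).card : ℝ) ≤ N₂) :
    (Zp S hatQ r : ℝ) ≤
      (3 ^ (r + 1) * (767 / 768) ^ m + 2 ^ (3 * r + 5) / 2 ^ m) * N₁ ^ r + N₂ ^ r / H₀ := by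
  classical
  obtain ⟨K, hK, hZ⟩ := RelSum_Zp (r := r) S H₀
  have hN1 : 0 ≤ N₁ := le_trans (Nat.cast_nonneg _) h1
  have hN2 : 0 ≤ N₂ := le_trans (Nat.cast_nonneg _) h2
  set u : ℕ → ℕ := fun H => ∑ c ∈ RelSum_C r H, (RelSum_Y S r c).card with hu
  have hZ' : (Zp S hatQ r : ℝ) ≤ u 1 + ∑ H ∈ Finset.Ioc 1 H₀, (u H : ℝ) +
      ∑ H ∈ Finset.Ioc H₀ K, (u H : ℝ) := by
    rw [← Finset.sum_Ioc_consecutive _ (Nat.zero_le H₀) hK,
      ← Finset.sum_Ioc_consecutive _ (Nat.zero_le 1) hH] at hZ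
    have e : Finset.Ioc 0 1 = {1} := rfl
    rw [e, Finset.sum_singleton] at hZ
    exact_mod_cast hZ
  have hq : (2 : ℝ) ^ (3 * r + 5) / 2 ^ m ≤ 1 :=
    (div_le_one (by positivity)).2 (pow_le_pow_right₀ (by norm_num) hm)
  have hA : (u 1 : ℝ) ≤ 3 ^ (r + 1) * (767 / 768) ^ m * N₁ ^ r := by
    have hN : ((thick S 1).card : ℝ) ≤ N₁ :=
      le_trans (by exact_mod_cast Finset.card_le_card (thick_mono S hH)) h1
    have a : ∀ c ∈ RelSum_C r 1, ((RelSum_Y S r c).card : ℝ) ≤ (767 / 768) ^ m * N₁ ^ r := by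
      intro c hc
      obtain ⟨hc1, -, hc0, -⟩ := Finset.mem_filter.1 hc
      refine le_trans ?_ (rel_one S c hc0 (fun i => ?_) N₁ hN)
      · unfold RelSum_Y
        refine Nat.cast_le.2 (Finset.card_le_card ?_)
        exact Finset.monotone_filter_right _ fun y _ h => ⟨h.1, h.2.1⟩
      · have := Finset.mem_Icc.1 (Fintype.mem_piFinset.1 hc1 i)
        exact abs_le.2 (by exact_mod_cast this)
    simp only [hu]
    push_cast
    refine (Finset.sum_le_card_nsmul _ _ _ a).trans ?_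
    rw [nsmul_eq_mul, mul_assoc]
    have b : ((RelSum_C r 1).card : ℝ) ≤ 3 ^ (r + 1) := by exact_mod_cast RelSum_C_card r 1
    gcongr
  have hB : ∑ H ∈ Finset.Ioc 1 H₀, (u H : ℝ) ≤ 2 ^ (3 * r + 5) / 2 ^ m * N₁ ^ r := by
    have a : ∀ H ∈ Finset.Ioc 1 H₀, (u H : ℝ) ≤
        2 ^ (3 * r + 5) / 2 ^ m * N₁ ^ r * ((H : ℝ) ^ 2)⁻¹ := by
      intro H hH'
      obtain ⟨a1, a2⟩ := Finset.mem_Ioc.1 hH'
      refine RelSum_level hm a1 S (by positivity) fun c hc => ?_
      obtain ⟨-, hg, -, i₀, hi⟩ := Finset.mem_filter.1 hc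
      refine RelSum_coset S hg hi (by omega) (fun w => ?_) h1
      obtain ⟨w', hw1, hw2⟩ := reps_height c i₀ (by omega) w
      exact ⟨w', fun i => (hw1 i).trans (by rw [hi]; exact_mod_cast a2), hw2⟩
    refine (Finset.sum_le_sum a).trans ?_
    rw [← Finset.mul_sum]
    have b := sum_Ioc_inv_sq_le_sub (α := ℝ) one_ne_zero hH
    refine mul_le_of_le_one_right (by positivity) (b.trans ?_)
    simp
  have hC : ∑ H ∈ Finset.Ioc H₀ K, (u H : ℝ) ≤ N₂ ^ r / H₀ := by
    have a : ∀ H ∈ Finset.Ioc H₀ K, (u H : ℝ) ≤ N₂ ^ r * ((H : ℝ) ^ 2)⁻¹ := by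
      intro H hH'
      obtain ⟨a1, -⟩ := Finset.mem_Ioc.1 hH'
      refine (RelSum_level (M := N₂ ^ r) hm (by omega) S (by positivity) fun c hc => ?_).trans ?_
      · obtain ⟨-, hg, hc0, i₀, hi⟩ := Finset.mem_filter.1 hc
        rcases (RelSum_Y S r c).eq_empty_or_nonempty with he | ⟨y, hy⟩
        · rw [he]; simp only [Finset.card_empty, Nat.cast_zero]; positivity
        · obtain ⟨hy1, hy2, -, hy3⟩ := Finset.mem_filter.1 hy
          exact RelSum_coset S hg hi (by omega) (reps_indep c i₀ (by omega) hc0 y hy2 hy3 X hX1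
            fun i l => hX _ (Fintype.mem_piFinset.1 hy1 i) l) h2
      · rw [mul_assoc]
        exact mul_le_of_le_one_left (by positivity) hq
    refine (Finset.sum_le_sum a).trans ?_
    rw [← Finset.mul_sum, div_eq_mul_inv]
    have b := sum_Ioc_inv_sq_le_sub (α := ℝ) (by omega : H₀ ≠ 0) hK
    have c : (0 : ℝ) ≤ (K : ℝ)⁻¹ := by positivity
    exact mul_le_mul_of_nonneg_left (by linarith) (by positivity)
  rw [add_mul]
  linarith

end Crest.Agent.R225
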