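import Crest.Agent.R225.Bonf
import Crest.Agent.R225.ModP
import Crest.Agent.R225.RelSum
import Crest.Agent.R225.GridLim

/-! Task `R225 Sch`: the base estimate. -/

set_option autoImplicit false

namespace Crest.Agent.R225

/-- Numerics: `r ≤ 20 v`, `log (4 v) ≤ log m`. -/
lemma sch_num : ∃ c₂ : ℝ, 0 < c₂ ∧ ∃ m₀ : ℕ, 1 ≤ m₀ ∧ ∀ m : ℕ, m₀ ≤ m → ∀ v : ℝ, 1 ≤ v →
    v * Real.log m ≤ c₂ * m → ∀ J : ℕ, (J : ℝ) ≤ 20 * v → 3 * J + 5 ≤ m ∧
      2 * ∑ r ∈ Finset.range (J + 1),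
        (4 * v) ^ r * (3 ^ (r + 1) * (767 / 768) ^ m + 2 ^ (3 * r + 5) / 2 ^ m) ≤
          Real.exp (-v) := by
  refine ⟨1 / 32256, by norm_num, 200000, by norm_num, fun m hm v hv hvm J hJ => ?_⟩
  have hm' : (200000 : ℝ) ≤ m := by exact_mod_cast hm
  have hm0 : (0 : ℝ) < m := by linarith
  have hlog : 1 ≤ Real.log m := by
    rw [Real.le_log_iff_exp_le hm0]
    linarith [Real.exp_one_lt_d9]
  have hvm' : v ≤ 1 / 32256 * m := le_trans (le_mul_of_one_le_right (by linarith) hlog) hvm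
  refine ⟨by exact_mod_cast (show (3 * J + 5 : ℝ) ≤ m by linarith), ?_⟩
  obtain ⟨θ, hθ⟩ : ∃ θ : ℝ, θ = (767 / 768) ^ m := ⟨_, rfl⟩
  have hθ0 : 0 ≤ θ := by rw [hθ]; positivity
  have h2 : 1 / (2 : ℝ) ^ m ≤ θ := by
    rw [hθ, ← one_div_pow]
    exact pow_le_pow_left₀ (by norm_num) (by norm_num) m
  have hterm : ∀ r ∈ Finset.range (J + 1),
      (4 * v) ^ r * (3 ^ (r + 1) * (767 / 768) ^ m + 2 ^ (3 * r + 5) / 2 ^ m) ≤
        35 * θ * (32 * v) ^ J := fun r hr => by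
    have hr' : r ≤ J := Nat.lt_succ_iff.1 (Finset.mem_range.1 hr)
    have h3 : (3 : ℝ) ^ r ≤ 8 ^ r := pow_le_pow_left₀ (by norm_num) (by norm_num) r
    have h4 : (2 : ℝ) ^ (3 * r + 5) / 2 ^ m ≤ 32 * 8 ^ r * θ := by
      rw [div_eq_mul_one_div, pow_add, pow_mul]
      norm_num only
      rw [mul_comm (8 ^ r : ℝ)]
      exact mul_le_mul_of_nonneg_left h2 (by positivity)
    have h5 : (3 : ℝ) ^ (r + 1) * θ ≤ 3 * 8 ^ r * θ := by
      rw [pow_succ']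
      gcongr
    rw [← hθ]
    calc (4 * v) ^ r * (3 ^ (r + 1) * θ + 2 ^ (3 * r + 5) / 2 ^ m)
        ≤ (4 * v) ^ r * (3 * 8 ^ r * θ + 32 * 8 ^ r * θ) := by gcongr
      _ = 35 * θ * (32 * v) ^ r := by
        rw [show 32 * v = 8 * (4 * v) by ring, mul_pow 8]; ring
      _ ≤ 35 * θ * (32 * v) ^ J :=
        mul_le_mul_of_nonneg_left (pow_le_pow_right₀ (by linarith) hr') (by positivity)
  have hsum := Finset.sum_le_card_nsmul _ _ _ hterm
  rw [Finset.card_range, nsmul_eq_mul] at hsum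
  have h6 : ((J + 1 : ℕ) : ℝ) ≤ 2 ^ J := by exact_mod_cast Nat.lt_two_pow_self
  have h7 : (2 : ℝ) ^ J * (32 * v) ^ J ≤ Real.exp (20 * (1 / 32256 * m)) := by
    rw [← mul_pow]
    calc (2 * (32 * v)) ^ J ≤ (m : ℝ) ^ J := pow_le_pow_left₀ (by linarith) (by linarith) J
      _ = Real.exp (J * Real.log m) := by rw [Real.exp_nat_mul, Real.exp_log hm0]
      _ ≤ _ := Real.exp_le_exp.2 (by nlinarith)
  have h8 : θ ≤ Real.exp (-(m / 768)) := by
    rw [hθ, show -(m / 768 : ℝ) = m * (-(1 / 768)) by ring, Real.exp_nat_mul]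
    exact pow_le_pow_left₀ (by norm_num) (by linarith [Real.add_one_le_exp (-(1 / 768))]) m
  have h9 : 70 ≤ Real.exp (m / 1536) := by linarith [Real.add_one_le_exp (m / 1536 : ℝ)]
  calc _ ≤ 2 * (2 ^ J * (35 * θ * (32 * v) ^ J)) := by
        refine mul_le_mul_of_nonneg_left (hsum.trans ?_) (by norm_num)
        exact mul_le_mul_of_nonneg_right h6 (by positivity)
    _ = 70 * θ * (2 ^ J * (32 * v) ^ J) := by ring
    _ ≤ Real.exp (m / 1536) * Real.exp (-(m / 768)) * Real.exp (20 * (1 / 32256 * m)) := by gcongr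
    _ ≤ Real.exp (-v) := by
      rw [← Real.exp_add, ← Real.exp_add]
      exact Real.exp_le_exp.2 (by linarith)

lemma sch_eta {m : ℕ} (hm : 1 ≤ m) {η₁ : ℝ} (h : 0 < η₁) : ∃ p₀ : ℕ, ∀ p : ℕ, p₀ ≤ p → 0 < p →
    0 < (p : ℝ) ^ (-1 / m : ℝ) ∧ (p : ℝ) ^ (-1 / m : ℝ) ≤ η₁ ∧
      ((p : ℝ) ^ (-1 / m : ℝ)) ^ m = 1 / p := by
  have hm0 : (0 : ℝ) < m := by exact_mod_cast hm
  have h1 := ((tendsto_rpow_neg_atTop (one_div_pos.2 hm0)).comp
    tendsto_natCast_atTop_atTop).eventually (ge_mem_nhds h)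
  obtain ⟨p₀, hp₀⟩ := Filter.eventually_atTop.1 h1
  refine ⟨p₀, fun p hp hp0 => ?_⟩
  have hp' : (0 : ℝ) < p := by exact_mod_cast hp0
  refine ⟨Real.rpow_pos_of_pos hp' _, by rw [neg_div]; exact hp₀ p hp, ?_⟩
  rw [← Real.rpow_natCast, ← Real.rpow_mul hp'.le, div_mul_cancel₀ _ hm0.ne', Real.rpow_neg_one,
    one_div]

/-- WLOG `vol S = v` (`exists_subset_vol`, `gridS_mono`). `j = 2 ⌈4 v⌉₊`, `J = 2 j ≤ 20 v`,
`x = 1/p = η^m`, `X = ⌈ρ/η⌉₊`; `N₂ x ≤ C(S, J)` by `card_thick_le`; choose `H₀` with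
`2 ∑_r (2C)^r / H₀ ≤ e^{-v}`, then `p₀` so large that `N₁ x ≤ 2 v` (`thick_gridS_le`),
`x e^{2v} ≤ 1` and `r! ((m+1) X²)^r < p` for `r ≤ J` (`2 J < m`). Apply `bonf` with `fr_sel`,
`Zp_le`; `v ≤ N x ≤ 2 v`. -/
theorem sch : ∃ c₂ : ℝ, 0 < c₂ ∧ ∃ m₀ : ℕ, ∀ m : ℕ, m₀ ≤ m → ∀ vmax : ℝ,
    vmax * Real.log m ≤ c₂ * m → SchP m vmax := by
  classical
  obtain ⟨c₂, hc₂, m₀, hm₀, hnum⟩ := sch_num
  refine ⟨c₂, hc₂, m₀, fun m hm vmax hvm S₀ hS₀ v hv1 hv2 hv3 => ?_⟩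
  have hm1 : 1 ≤ m := hm₀.trans hm
  have hv0 : 0 < v := by linarith
  obtain ⟨S, hSS, hS, hvol⟩ := exists_subset_vol hm1 hS₀ hv0.le hv3
  obtain ⟨j, hj⟩ : ∃ j : ℕ, j = 2 * ⌈4 * v⌉₊ := ⟨_, rfl⟩
  have hj1 : 8 * v ≤ j := by rw [hj]; push_cast; linarith [Nat.le_ceil (4 * v)]
  have hj2 : ((2 * j : ℕ) : ℝ) ≤ 20 * v := by
    rw [hj]; push_cast; linarith [Nat.ceil_lt_add_one (show 0 ≤ 4 * v by linarith)]
  obtain ⟨hJm, hnum⟩ := hnum m hm v hv1
    ((mul_le_mul_of_nonneg_right hv2 (Real.log_natCast_nonneg m)).trans hvm) (2 * j) hj2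
  obtain ⟨J, hJ⟩ : ∃ J : ℕ, J = 2 * j := ⟨_, rfl⟩
  rw [← hJ] at hJm hnum
  obtain ⟨ρ, hρ, hb⟩ := gridS_bound hS
  obtain ⟨C, hC⟩ : ∃ C : ℝ, C = (2 * ((J + 1) * (ρ + 1)) + 1) ^ m := ⟨_, rfl⟩
  have hC0 : 0 ≤ C := by rw [hC]; positivity
  obtain ⟨H₀, hH₀⟩ := exists_nat_ge
    (max 1 (2 * (∑ r ∈ Finset.range (J + 1), (2 * C) ^ r) / Real.exp (-v)))
  have hH1 : (1 : ℝ) ≤ H₀ := (le_max_left _ _).trans hH₀
  have hH2 : 2 * ∑ r ∈ Finset.range (J + 1), (2 * C) ^ r / H₀ ≤ Real.exp (-v) := by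
    rw [← Finset.sum_div, ← mul_div_assoc, div_le_iff₀ (by linarith), mul_comm (Real.exp _),
      ← div_le_iff₀ (Real.exp_pos _)]
    exact (le_max_right _ _).trans hH₀
  obtain ⟨η₀, hη₀, hth⟩ := thick_gridS_le hS H₀ hv0
  obtain ⟨K, hK⟩ : ∃ K : ℝ, K = (J.factorial : ℝ) * ((m + 1) * ρ ^ 2) ^ J := ⟨_, rfl⟩
  have hK0 : 0 < K := by rw [hK]; positivity
  obtain ⟨p₀, hp₀⟩ := sch_eta hm1 (η₁ := min (min η₀ (Real.exp (-(2 * v)))) (1 / (2 * K)))
    (by positivity)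
  refine ⟨p₀, fun p hpp hp => ?_⟩
  obtain ⟨hη, hη1, hηm⟩ := hp₀ p hp hpp.out.pos
  obtain ⟨η, hηe⟩ : ∃ η : ℝ, η = (p : ℝ) ^ (-1 / m : ℝ) := ⟨_, rfl⟩
  rw [← hηe] at hη hη1 hηm ⊢
  have e1 : η ≤ η₀ := hη1.trans ((min_le_left _ _).trans (min_le_left _ _))
  have e2 : η ≤ Real.exp (-(2 * v)) := hη1.trans ((min_le_left _ _).trans (min_le_right _ _))
  have e3 : η ≤ 1 / (2 * K) := hη1.trans (min_le_right _ _)
  have e4 : η ≤ 1 := e2.trans (Real.exp_le_one_iff.2 (by linarith))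
  obtain ⟨G, hG⟩ : ∃ G : Finset (Fin m → ℤ), (G : Set (Fin m → ℤ)) = gridS S η :=
    ⟨(gridS_finite hS hη).toFinset, Set.Finite.coe_toFinset _⟩
  have hGb : ∀ y ∈ G, ∀ i, |(y i : ℝ)| ≤ ρ / η := fun y hy => hb η hη e4 y (hG ▸ hy)
  have hX1 : 1 ≤ ρ / η := (one_le_div hη).2 (e4.trans hρ)
  have n1 := vol_le_gridS hS hη G hG
  have n2 := hth η hη e1 G hG
  rw [hvol] at n1 n2
  obtain ⟨x, hx⟩ : ∃ x : ℝ, x = η ^ m := ⟨_, rfl⟩
  have hx0 : 0 < x := by rw [hx]; positivity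
  have hxη : x ≤ η := by rw [hx]; exact pow_le_of_le_one hη.le e4 (by omega)
  rw [← hx] at n1 n2 hηm
  have n3 : (G.card : ℝ) * x ≤ 2 * v := by
    have : (G.card : ℝ) ≤ (thick G H₀).card := by
      exact_mod_cast Finset.card_le_card (subset_thick G H₀)
    linarith [mul_le_mul_of_nonneg_right this hx0.le]
  have hbonf := bonf G hatQ (fun (q : (Fin m → ZMod p) × ZMod p) y => dotp q.1 y = q.2) x hx0.le
    (hxη.trans e4) j ⟨_, hj.trans (two_mul _)⟩ (fun B hB hBj hBi => ?_) ?_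
  · refine le_trans (fr_mono fun q hq y hy => hq y (gridS_mono hSS η (hG ▸ hy))) (hbonf.trans ?_)
    rw [← hJ]
    have t1 : Real.exp (-(G.card * x)) ≤ Real.exp (-v) := Real.exp_le_exp.2 (by linarith)
    have t2 : Real.exp (2 * G.card * x) / 2 ^ j ≤ Real.exp (-v) := by
      rw [div_le_iff₀ (by positivity), ← Real.exp_log (show (0 : ℝ) < 2 by norm_num),
        ← Real.exp_nat_mul, Real.exp_log (show (0 : ℝ) < 2 by norm_num), ← Real.exp_add]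
      have := mul_le_mul hj1 Real.log_two_gt_d9.le (by norm_num) (Nat.cast_nonneg _)
      exact Real.exp_le_exp.2 (by linarith)
    obtain ⟨X, hX⟩ : ∃ X : ℕ, X = ⌈ρ / η⌉₊ := ⟨_, rfl⟩
    have hX2 : ρ / η ≤ X := hX ▸ Nat.le_ceil _
    have hX3 : η * X ≤ ρ + 1 := by
      have h1 : (X : ℝ) ≤ ρ / η + 1 := hX ▸ (Nat.ceil_lt_add_one (by positivity)).le
      have h2 := mul_le_mul_of_nonneg_left h1 hη.le
      rw [mul_add, mul_div_cancel₀ _ hη.ne'] at h2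
      linarith
    have hGX : ∀ y ∈ G, ∀ l, |y l| ≤ X := fun y hy l => by
      exact_mod_cast (hGb y hy l).trans hX2
    have t3 : ∀ r ∈ Finset.range (J + 1), (2 * x) ^ r * Zp G hatQ r ≤
        (4 * v) ^ r * (3 ^ (r + 1) * (767 / 768) ^ m + 2 ^ (3 * r + 5) / 2 ^ m) +
          (2 * C) ^ r / H₀ := fun r hr => by
      have hr' : r ≤ J := Nat.lt_succ_iff.1 (Finset.mem_range.1 hr)
      have h1 : ((thick G H₀).card : ℝ) ≤ 2 * v / x := by rw [le_div_iff₀ hx0]; linarith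
      have h2 : ((thick G (r * X)).card : ℝ) ≤ C / x := by
        have h3 : ((thick G (r * X)).card : ℝ) ≤ (2 * (X + r * X) + 1) ^ m := by
          exact_mod_cast card_thick_le G X (r * X) hGX
        rw [le_div_iff₀ hx0, hx, hC]
        refine (mul_le_mul_of_nonneg_right h3 (by positivity)).trans ?_
        rw [← mul_pow]
        refine pow_le_pow_left₀ (by positivity) ?_ m
        have h4 : (r : ℝ) + 1 ≤ J + 1 := by exact_mod_cast Nat.succ_le_succ hr'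
        have h5 := mul_le_mul h4 hX3 (by positivity) (by positivity)
        linarith
      have h6 := Zp_le (m := m) (r := r) (by omega) G X H₀
        (by exact_mod_cast hX1.trans hX2) (by exact_mod_cast hH1) hGX _ _ h1 h2
      refine (mul_le_mul_of_nonneg_left h6 (by positivity)).trans (le_of_eq ?_)
      have h7 : (2 * x) ^ r * (2 * v / x) ^ r = (4 * v) ^ r := by
        rw [← mul_pow]; congr 1; field_simp; norm_num
      have h8 : (2 * x) ^ r * (C / x) ^ r = (2 * C) ^ r := by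
        rw [← mul_pow]; congr 1; field_simp
      rw [← h7, ← h8]
      ring
    have t4 := Finset.sum_le_sum t3
    rw [Finset.sum_add_distrib] at t4
    linarith
  · rw [hηm]
    refine fr_sel B (ρ / η) hX1 (fun y hy => hGb y (hB hy)) hBi ?_
    rw [← hJ] at hBj
    have h1 : (1 : ℝ) ≤ (m + 1) * (ρ / η) ^ 2 :=
      one_le_mul_of_one_le_of_one_le (by linarith [Nat.cast_nonneg (α := ℝ) m]) (one_le_pow₀ hX1)
    have h2 : (B.card.factorial : ℝ) * ((m + 1) * (ρ / η) ^ 2) ^ B.card ≤ K / η ^ (2 * J) := by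
      calc (B.card.factorial : ℝ) * ((m + 1) * (ρ / η) ^ 2) ^ B.card
          ≤ J.factorial * ((m + 1) * (ρ / η) ^ 2) ^ J :=
            mul_le_mul (by exact_mod_cast Nat.factorial_le hBj) (pow_le_pow_right₀ h1 hBj)
              (by positivity) (by positivity)
        _ = K / η ^ (2 * J) := by
          rw [hK, div_pow, ← mul_div_assoc, div_pow, pow_mul, mul_div_assoc]
    refine h2.trans_lt ?_
    have h3 : (p : ℝ) = 1 / η ^ m := by rw [← hx, hηm, one_div_one_div]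
    have h4 : η ^ m ≤ η ^ (2 * J + 1) := pow_le_pow_of_le_one hη.le e4 (by omega)
    rw [h3, div_lt_div_iff₀ (by positivity) (by positivity), one_mul]
    have h5 : K * η ≤ 1 / 2 := by
      rw [le_div_iff₀ (by positivity)] at e3
      linarith
    have h6 : 0 < η ^ (2 * J) := by positivity
    calc K * η ^ m ≤ K * η ^ (2 * J + 1) := by gcongr
      _ = K * η * η ^ (2 * J) := by ring
      _ ≤ 1 / 2 * η ^ (2 * J) := by gcongr
      _ < η ^ (2 * J) := by linarith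
  · calc x * Real.exp (G.card * x) ≤ Real.exp (-(2 * v)) * Real.exp (2 * v) :=
          mul_le_mul (hxη.trans e2) (Real.exp_le_exp.2 n3) (by positivity) (by positivity)
      _ = 1 := by rw [← Real.exp_add]; simp

end Crest.Agent.R225
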