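import Crest.Agent.R225.Vert
import Crest.Agent.R225.Marg
import Crest.Agent.R225.HCore
import Crest.Agent.R225.Sch

/-! Task `R225 Final347`: assembly of the upper bound. -/

set_option autoImplicit false
open MeasureTheory

namespace Crest.Agent.R225

/-- At `h = 0`: `c₀/2 ≤ ∑ u ≤ |P| |det M| gd 0`, `|P| ≤ |Ω|`. -/
lemma VertP.det_lower {d : ℕ} {M : Matrix (Fin d) (Fin d) ℝ} {Ω : Finset (Fin d → ℤ)} {D : ℕ}
    {R c₀ w : ℝ} (h : VertP M Ω D R c₀ w) :
    c₀ / 2 ≤ Ω.card * (|M.det| * gd (0 : Fin d → ℝ)) := by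
  classical
  obtain ⟨P, u, hT, hs, hP⟩ := h.2 0
  obtain ⟨a₀, ha₀⟩ := hT.nonempty
  have h1 : P.card ≤ Ω.card :=
    Finset.card_le_card_of_injOn (fun a => a - a₀) (fun a ha => (hP a ha).2.2.2.2 a₀ ha₀)
      fun a _ b _ hab => sub_left_injective hab
  have h2 : ∑ a ∈ P, u a ≤ P.card • (|M.det| * gd (0 : Fin d → ℝ)) :=
    Finset.sum_le_card_nsmul _ _ _ fun a ha => (hP a ha).2.2.1.trans
      (mul_le_mul_of_nonneg_left (Finset.prod_le_prod (fun i _ => (g1_pos _).le)
        fun i _ => g1_anti (by simp)) (abs_nonneg _))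
  rw [nsmul_eq_mul] at h2
  refine hs.trans (h2.trans (mul_le_mul_of_nonneg_right (by exact_mod_cast h1) ?_))
  exact mul_nonneg (abs_nonneg _) (gd_pos _).le

/-- The entropy term is at most `n`. -/
lemma Final347_num {n L T R a : ℝ} {d D : ℕ} (hn : n = Real.exp L) (hL : 768 ≤ L)
    (hT : T ≤ L / 2) (hd : (d : ℝ) ≤ T) (hD : (D : ℝ) ≤ T) (hR1 : 1 ≤ R) (hR : R ≤ T)
    (ha0 : 0 ≤ a) (ha : a ≤ Real.exp T) :
    a * (D * Real.log (4 * (D + 1) * (a + 1) * (2 * R / (1 / (2 * n)) + 1) ^ d) +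
      Real.log (16 * (2 * R / (1 / (2 * n)) + 1) ^ d) + 1) ≤ n := by
  have hL0 : 0 ≤ L := by linarith
  have hD0 : (0 : ℝ) ≤ D := Nat.cast_nonneg D
  have e1 : L ^ 2 / 2 ≤ Real.exp L := by
    simpa using Real.pow_div_factorial_le_exp L hL0 2
  have e2 : 2 * L ^ 3 ≤ Real.exp (L / 2) := by
    have h1 := Real.pow_div_factorial_le_exp (L / 2) (by linarith) 4
    have h2 : ((Nat.factorial 4 : ℕ) : ℝ) = 24 := by norm_num [Nat.factorial]
    rw [h2] at h1
    have h3 : 0 ≤ L ^ 3 := by positivity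
    nlinarith
  have e3 : Real.exp (L / 2) * Real.exp (L / 2) = Real.exp L := by
    rw [← Real.exp_add, add_halves]
  have e4 : 3 * L ≤ Real.exp L := by nlinarith
  have e5 : 2 ≤ Real.exp (L / 2) := by linarith [Real.add_one_le_exp (L / 2)]
  have hn1 : 1 ≤ n := by rw [hn]; linarith
  have ha' : a ≤ Real.exp (L / 2) := ha.trans (Real.exp_le_exp.2 hT)
  have q0 : 2 * R / (1 / (2 * n)) + 1 = 4 * R * n + 1 := by
    field_simp
    ring
  rw [q0]
  have q1 : 4 * R * n + 1 ≤ Real.exp (2 * L) := by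
    have h1 : 1 ≤ R * n := one_le_mul_of_one_le_of_one_le hR1 hn1
    have h2 : 5 * R * n ≤ Real.exp L * n :=
      mul_le_mul_of_nonneg_right (by linarith) (by linarith)
    rw [two_mul, Real.exp_add, ← hn]
    rw [← hn] at h2
    linarith
  have q2 : (4 * R * n + 1) ^ d ≤ Real.exp (L ^ 2) := by
    refine (pow_le_pow_left₀ (by positivity) q1 d).trans ?_
    rw [← Real.exp_nat_mul]
    exact Real.exp_le_exp.2 (by nlinarith)
  have q3 : 0 < (4 * R * n + 1) ^ d := by positivity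
  generalize (4 * R * n + 1) ^ d = Q at q2 q3
  have r1 : Real.log (4 * (D + 1) * (a + 1) * Q) ≤ 2 * L ^ 2 := by
    rw [Real.log_le_iff_le_exp (by positivity)]
    calc 4 * (D + 1) * (a + 1) * Q ≤ Real.exp L * Real.exp L * Real.exp (L ^ 2) := by
          refine mul_le_mul (mul_le_mul (by linarith) ?_ (by positivity) (by positivity)) q2 q3.le
            (by positivity)
          nlinarith
      _ ≤ _ := by
          rw [← Real.exp_add, ← Real.exp_add]
          exact Real.exp_le_exp.2 (by nlinarith)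
  have r2 : Real.log (16 * Q) ≤ L + L ^ 2 := by
    rw [Real.log_le_iff_le_exp (by positivity), Real.exp_add]
    exact mul_le_mul (by linarith) q2 q3.le (by positivity)
  have r3 : (D : ℝ) * Real.log (4 * (D + 1) * (a + 1) * Q) ≤ L ^ 3 := by
    refine (mul_le_mul_of_nonneg_left r1 hD0).trans ?_
    have : (D : ℝ) * (2 * L ^ 2) ≤ L / 2 * (2 * L ^ 2) :=
      mul_le_mul_of_nonneg_right (hD.trans hT) (by positivity)
    linarith
  have r4 : L + L ^ 2 + 1 ≤ L ^ 3 := by nlinarith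
  calc _ ≤ a * Real.exp (L / 2) := mul_le_mul_of_nonneg_left (by linarith) ha0
    _ ≤ Real.exp (L / 2) * Real.exp (L / 2) := mul_le_mul_of_nonneg_right ha' (by positivity)
    _ = n := by rw [e3, hn]

/-- The lower bound for the size of the box. -/
lemma Final347_box {n L ϱ X : ℝ} {m : ℕ} (hn : n = Real.exp L) (hL : 768 ≤ L) (hm1 : 1 ≤ m)
    (hm : (m : ℝ) ≤ n) (hX : 1 ≤ X) (h : X / (4 * m) ^ m ≤ (2 * ϱ) ^ m) :
    Real.exp (n - 100 * (n * L) / 8) < min ((1 / (2 * n) * ϱ / 2) ^ m) (1 / 8) / 2 := by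
  have hn1 : 1 ≤ n := by rw [hn]; exact Real.one_le_exp (by linarith)
  have hm0 : (0 : ℝ) < m := by exact_mod_cast hm1
  have hnL : 768 * n ≤ n * L := by nlinarith
  have h1 : Real.exp (-(3 * (n * L))) ≤ (1 / (2 * n) * ϱ / 2) ^ m := by
    have h2 : (1 / (2 * n) * ϱ / 2) ^ m = (2 * ϱ) ^ m / (8 * n) ^ m := by
      rw [← div_pow]
      congr 1
      field_simp
      ring
    have h3 : 4 * m * (8 * n) ≤ Real.exp (3 * L) := by
      have h4 : Real.exp (3 * L) = n * n * n := by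
        rw [hn, ← Real.exp_add, ← Real.exp_add]
        congr 1
        ring
      have h5 : 32 ≤ n := by rw [hn]; linarith [Real.add_one_le_exp L]
      have h6 : m * n ≤ n * n := mul_le_mul_of_nonneg_right hm (by linarith)
      have h7 : n * n * 32 ≤ n * n * n := mul_le_mul_of_nonneg_left h5 (by positivity)
      rw [h4]
      linarith
    have h4 : ((4 * m : ℝ)) ^ m * (8 * n) ^ m ≤ Real.exp (3 * (n * L)) := by
      rw [← mul_pow]
      refine (pow_le_pow_left₀ (by positivity) h3 m).trans ?_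
      rw [← Real.exp_nat_mul]
      exact Real.exp_le_exp.2 (by nlinarith)
    rw [h2, Real.exp_neg, ← one_div]
    calc 1 / Real.exp (3 * (n * L)) ≤ X / ((4 * m) ^ m * (8 * n) ^ m) :=
          div_le_div₀ (by linarith) hX (by positivity) h4
      _ = X / (4 * m) ^ m / (8 * n) ^ m := by rw [div_div]
      _ ≤ _ := div_le_div_of_nonneg_right h (by positivity)
  have h2 : Real.exp (-(3 * (n * L))) ≤ 1 / 8 := by
    rw [Real.exp_neg, one_div]
    exact inv_anti₀ (by norm_num) (by linarith [Real.add_one_le_exp (3 * (n * L))])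
  have h3 : Real.exp (-(n * L)) < 1 / 2 := by
    rw [Real.exp_neg, one_div]
    exact inv_strictAnti₀ (by norm_num) (by linarith [Real.add_one_le_exp (n * L)])
  calc Real.exp (n - 100 * (n * L) / 8)
      ≤ Real.exp (-(3 * (n * L))) * Real.exp (-(n * L)) := by
        rw [← Real.exp_add]
        exact Real.exp_le_exp.2 (by linarith)
    _ < Real.exp (-(3 * (n * L))) * (1 / 2) := mul_lt_mul_of_pos_left h3 (Real.exp_pos _)
    _ ≤ _ := by
        have := le_min h1 h2
        linarith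

lemma Final347_ev (c : ℝ) (k : ℕ) : ∀ᶠ L : ℝ in Filter.atTop, c * (3 * Real.log L) ^ k ≤ L := by
  have h := ((Real.isLittleO_pow_log_id_atTop (n := k)).const_mul_left (c * 3 ^ k)).bound one_pos
  filter_upwards [h, Filter.eventually_ge_atTop 0] with L h1 h2
  rw [one_mul, id, Real.norm_of_nonneg h2, Real.norm_eq_abs] at h1
  rw [mul_pow, ← mul_assoc]
  exact (le_abs_self _).trans h1

/-- Large `n`: `g = 3 log log n`, `vert`, `m = n - d ≥ n/2`, reindex `Fin n ≃ Fin d ⊕ Fin m`,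
`marginal` with `R₂ = 2 (d+1)(R+1)`, `V = C₀ n log n` with `C₀ = 100 / (c₁ c₀) + 1`,
`normalise` with `𝒱 = V |det M|`, `hcore` with `lam = 1/n`, `vmax = c₁ V c₀ e^{-g} / 4`
(`e^{-g} = (log n)^{-3}`, `sch`), `nQ = (2 R n + 1)^d`. In `hnum`:
`|Ω| (D log N + log (16 nQ) + 1) ≤ n` (everything is `exp ((log log n)^{O(1)})`), and
`(lam ϱ/2)^m = (2ϱ)^m / (4n)^m ≥ V c₁ c₀ / (2 |Ω| (16 n²)^n)` by `det_lower`. -/
theorem upper_large : ∃ C : ℝ, ∃ n₀ : ℕ, ∀ n : ℕ, n₀ ≤ n → ∀ K : Set (Fin n → ℝ), Body K →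
    Cov K (C * n * Real.log n) := by
  obtain ⟨c₀, hc₀, C₁, hvert⟩ := vert
  obtain ⟨c₁, hc₁, -, C₂, hmarg⟩ := marginal
  obtain ⟨c₂, hc₂, m₀, hsch⟩ := sch
  have hev : ∀ᶠ L : ℝ in Filter.atTop, 2 ≤ 3 * Real.log L ∧
      11 ^ C₂ * (3 * Real.log L) ^ (C₁ * 2 * C₂) ≤ L ∧ 2 * (3 * Real.log L) ^ C₁ ≤ L ∧
      50 / c₂ ≤ L ∧ 768 ≤ L := by
    filter_upwards [Real.tendsto_log_atTop.eventually_ge_atTop 1, Final347_ev (11 ^ C₂) _,
      Final347_ev 2 C₁, Filter.eventually_ge_atTop (50 / c₂), Filter.eventually_ge_atTop 768]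
      with L h1 h2 h3 h4 h5
    exact ⟨by linarith, h2, h3, h4, h5⟩
  obtain ⟨n₀, hn₀⟩ := Filter.eventually_atTop.1
    (((Real.tendsto_log_atTop.comp tendsto_natCast_atTop_atTop).eventually hev).and
      (Filter.eventually_ge_atTop (2 * m₀ + 4)))
  refine ⟨100 / (c₁ * c₀), n₀, fun n hn K hK => ?_⟩
  obtain ⟨⟨h1, h2, h3, h4, h5⟩, h6⟩ := hn₀ n hn
  simp only [Function.comp] at h1 h2 h3 h4 h5
  have hn0 : (0 : ℝ) < n := by exact_mod_cast (by omega : 0 < n)
  have hnL : (n : ℝ) = Real.exp (Real.log n) := (Real.exp_log hn0).symm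
  obtain ⟨d, M, Ω, D, R, hV, hd, hD, hR1, hR, hΩ⟩ := hvert _ h1
  rw [pow_mul, pow_mul, ← mul_pow] at h2
  have hw : Real.exp (-(3 * Real.log (Real.log n))) = (Real.log n ^ 3)⁻¹ := by
    rw [Real.exp_neg, show 3 * Real.log (Real.log n) = ((3 : ℕ) : ℝ) * Real.log (Real.log n) by
      norm_num, Real.exp_nat_mul, Real.exp_log (by linarith)]
  rw [hw] at hV
  generalize (3 * Real.log (Real.log n)) ^ C₁ = T at h2 h3 hd hD hR hΩ
  have hLn : Real.log n ≤ n := (Real.log_le_sub_one_of_pos hn0).trans (by linarith)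
  have hdn : 2 * d ≤ n := by
    have : 2 * (d : ℝ) ≤ n := by linarith
    exact_mod_cast this
  obtain ⟨m, hm⟩ : ∃ m, n = d + m := ⟨n - d, by omega⟩
  have hm' : (d : ℝ) + m = n := by rw [hm]; push_cast; ring
  have hd0 : (0 : ℝ) ≤ d := Nat.cast_nonneg d
  have hm2 : (n : ℝ) ≤ 2 * m := by exact_mod_cast (by omega : n ≤ 2 * m)
  have hmn : (m : ℝ) ≤ n := by linarith
  have hm0 : (0 : ℝ) < m := by linarith
  have hT1 : 1 ≤ T := hR1.trans hR
  let e : Fin n ≃ Fin d ⊕ Fin m := (finCongr hm).trans finSumFinEquiv.symm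
  refine cov_of_reindex e ?_
  have hK₁ := hK.reindex e
  obtain ⟨A, hA, hM⟩ := hmarg d m (2 * (d + 1) * (R + 1)) (by nlinarith) (by
    rw [hm']
    refine le_trans (pow_le_pow_left₀ (by positivity) ?_ _) h2
    have : ((d : ℝ) + 1) * (R + 1) ≤ (T + 1) * (T + 1) :=
      mul_le_mul (by linarith) (by linarith) (by linarith) (by linarith)
    nlinarith) _ hK₁
  refine cov_of_affine hA 0 ?_
  have hL0 : 0 < Real.log n := by linarith
  have hV0 : 0 < 100 / (c₁ * c₀) * n * Real.log n := by positivity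
  have hdet : 0 < |M.det| := abs_pos.2 hV.1
  have hVc : c₁ * c₀ * (100 / (c₁ * c₀) * n * Real.log n) = 100 * (n * Real.log n) := by
    field_simp
  generalize 100 / (c₁ * c₀) * n * Real.log n = V at hV0 hVc
  obtain ⟨K', ϱ, hK', hcov, hvol, hM', hϱ, hϱ', hbox⟩ := normalise (by omega) (hK₁.affine hA 0) hc₁
    (by linarith) hM (mul_pos hV0 hdet)
  refine hcov _ (hcore (by omega) hV (by linarith) hK' hvol hV0 hc₁ hM' hϱ hbox
    (lam := 1 / (2 * n)) (by positivity) ?_ ?_ (hsch m (by omega) _ ?_) le_rfl le_rfl rfl ?_)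
  · rw [div_le_one (by positivity)]
    linarith
  · have h7 := one_add_mul_le_pow (a := -(1 / (2 * n) : ℝ)) (by
      have : 1 / (2 * n : ℝ) ≤ 1 := by
        rw [div_le_one (by positivity)]
        linarith
      linarith) m
    have h8 : (m : ℝ) * (1 / (2 * n)) ≤ 1 / 2 := by
      rw [mul_one_div, div_le_iff₀ (by positivity)]
      linarith
    rw [← sub_eq_add_neg] at h7
    linarith
  · have h7 : c₁ * V * (c₀ * (Real.log n ^ 3)⁻¹) / 4 = 25 * n / Real.log n ^ 2 := by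
      rw [show c₁ * V * (c₀ * (Real.log n ^ 3)⁻¹) / 4 = c₁ * c₀ * V * (Real.log n ^ 3)⁻¹ / 4 by
        ring, hVc]
      field_simp
      norm_num
    have h8 : Real.log m ≤ Real.log n := Real.log_le_log hm0 hmn
    rw [div_le_iff₀' hc₂] at h4
    rw [h7]
    calc 25 * n / Real.log n ^ 2 * Real.log m ≤ 25 * n / Real.log n ^ 2 * Real.log n :=
          mul_le_mul_of_nonneg_left h8 (by positivity)
      _ = 25 * n / Real.log n := by field_simp
      _ ≤ c₂ * m := by
          rw [div_le_iff₀ hL0]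
          have h9 := mul_le_mul_of_nonneg_left h4 hm0.le
          linarith
  · have h7 := Final347_num hnL h5 (by linarith) hd hD hR1 hR (Nat.cast_nonneg Ω.card) hΩ
    have h8 := hV.det_lower
    have h9 : (Ω.card : ℝ) ≤ n := by
      rw [hnL]
      exact hΩ.trans (Real.exp_le_exp.2 (by linarith))
    have h10 : 1 ≤ V * |M.det| * c₁ * gd (0 : Fin d → ℝ) := by
      have h11 : 0 < |M.det| * gd (0 : Fin d → ℝ) := mul_pos hdet (gd_pos _)
      have h12 : c₀ / 2 ≤ n * (|M.det| * gd (0 : Fin d → ℝ)) :=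
        h8.trans (mul_le_mul_of_nonneg_right h9 h11.le)
      have h13 := mul_le_mul_of_nonneg_left h12 (mul_pos hc₁ hV0).le
      have h14 : (n : ℝ) ≤ n * Real.log n := le_mul_of_one_le_right hn0.le (by linarith)
      refine le_of_mul_le_mul_left ?_ hn0
      linarith
    refine lt_of_le_of_lt (Real.exp_le_exp.2 ?_) (Final347_box hnL h5 (by omega) hmn h10 hϱ')
    rw [hVc]
    linarith

/-- Small `n` by `cov_small`. This is S0347. -/
theorem upper_pi :
    ∃ C : ℝ, ∀ (n : ℕ), 2 ≤ n → ∀ (K : Set (Fin n → ℝ)),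
      IsCompact K → Convex ℝ K → (interior K).Nonempty →
        ∃ g : Matrix (Fin n) (Fin n) ℝ, g.det ≠ 0 ∧
          (∀ x : Fin n → ℝ, ∃ z : Fin n → ℤ, x - g.mulVec (fun i => (z i : ℝ)) ∈ K) ∧
          (volume K).toReal / |g.det| ≤ C * n * Real.log n := by
  obtain ⟨C, n₀, h⟩ := upper_large
  refine ⟨max C ((2 * n₀ : ℝ) ^ n₀), fun n hn K h1 h2 h3 => ?_⟩
  have hK : Body K := ⟨h1, h2, h3⟩
  have hn2 : (2 : ℝ) ≤ n := by exact_mod_cast hn
  have hl : 1 ≤ n * Real.log n := by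
    have h4 : Real.log 2 ≤ Real.log n := Real.log_le_log (by norm_num) hn2
    have h5 := Real.log_two_gt_d9
    nlinarith
  show Cov K _
  rcases le_or_gt n₀ n with h4 | h4
  · refine (h n h4 K hK).mono ?_
    rw [mul_assoc, mul_assoc]
    exact mul_le_mul_of_nonneg_right (le_max_left _ _) (by linarith)
  · have : Nonempty (Fin n) := ⟨⟨0, by omega⟩⟩
    refine (cov_small hK).mono ?_
    have h5 : (n : ℝ) ≤ n₀ := by exact_mod_cast h4.le
    have h6 : (2 * n : ℝ) ^ n ≤ (2 * n₀ : ℝ) ^ n₀ :=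
      (pow_le_pow_left₀ (by positivity) (by linarith) n).trans
        (pow_le_pow_right₀ (by linarith) h4.le)
    rw [Fintype.card_fin, mul_assoc]
    exact (h6.trans (le_max_right C _)).trans
      (le_mul_of_one_le_right (le_max_of_le_right (by positivity)) hl)

end Crest.Agent.R225
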