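import Crest.Agent.R225.LDefs

/-! Task `R225 GridVol`: counting points of the grid `n⁻³ ℤⁿ` in balls. -/

set_option autoImplicit false
open MeasureTheory

namespace Crest.Agent.R225

namespace GridVol

lemma norm_le_of_coord {n : ℕ} (hn : 1 ≤ n) (y : E n) {c : ℝ} (hc : 0 ≤ c) (h : ∀ i, |y i| ≤ c) :
    ‖y‖ ≤ n * c := by
  have h1 : (1 : ℝ) ≤ n := by exact_mod_cast hn
  refine le_of_pow_le_pow_left₀ two_ne_zero (by positivity) ?_
  rw [EuclideanSpace.real_norm_sq_eq]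
  calc ∑ i, y i ^ 2 ≤ ∑ _i : Fin n, c ^ 2 :=
        Finset.sum_le_sum fun i _ => sq_le_sq' (abs_le.1 (h i)).1 (abs_le.1 (h i)).2
    _ = n * c ^ 2 := by simp
    _ ≤ (n * c) ^ 2 := by
        rw [mul_pow]
        exact mul_le_mul_of_nonneg_right (le_self_pow₀ h1 two_ne_zero) (sq_nonneg c)

/-- half open boxes -/
def box {n : ℕ} (a : Fin n → ℝ) (c : ℝ) : Set (E n) :=
  WithLp.ofLp ⁻¹' Set.pi Set.univ fun i => Set.Ico (a i) (a i + c)

lemma meas_box {n : ℕ} (a : Fin n → ℝ) (c : ℝ) : MeasurableSet (box a c) :=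
  (PiLp.volume_preserving_ofLp (Fin n)).measurable
    (MeasurableSet.univ_pi fun _ => measurableSet_Ico)

lemma vol_box {n : ℕ} (a : Fin n → ℝ) {c : ℝ} (hc : 0 ≤ c) : volume.real (box a c) = c ^ n := by
  rw [Measure.real, box, (PiLp.volume_preserving_ofLp (Fin n)).measure_preimage
    (MeasurableSet.univ_pi fun _ => measurableSet_Ico).nullMeasurableSet, Real.volume_pi_Ico]
  simp [hc]

lemma mem_box {n : ℕ} {a : Fin n → ℝ} {c : ℝ} {y : E n} :
    y ∈ box a c ↔ ∀ i, a i ≤ y i ∧ y i < a i + c := by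
  simp [box]

/-- the cell of a grid point -/
def cell {n : ℕ} (z : Fin n → ℤ) : Set (E n) := box (fun i => gp z i) (1 / (n : ℝ) ^ 3)

lemma mem_cell {n : ℕ} (hn : 1 ≤ n) {z : Fin n → ℤ} {y : E n} :
    y ∈ cell z ↔ (fun i => ⌊y i * (n : ℝ) ^ 3⌋) = z := by
  have h0 : (0 : ℝ) < (n : ℝ) ^ 3 := by positivity
  rw [cell, mem_box, funext_iff]
  refine forall_congr' fun i => ?_
  rw [Int.floor_eq_iff, show gp z i = (z i : ℝ) / (n : ℝ) ^ 3 from rfl, ← add_div, div_le_iff₀ h0,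
    lt_div_iff₀ h0]

lemma near_of_mem_cell {n : ℕ} (hn : 1 ≤ n) {z : Fin n → ℤ} {y : E n} (h : y ∈ cell z) :
    ‖y - gp z‖ ≤ 1 / (n : ℝ) ^ 2 := by
  have h0 : (0 : ℝ) < n := by exact_mod_cast hn
  refine (norm_le_of_coord hn _ (c := 1 / (n : ℝ) ^ 3) (by positivity) fun i => ?_).trans_eq
    (by field_simp)
  obtain ⟨h1, h2⟩ := mem_box.1 h i
  rw [PiLp.sub_apply, abs_of_nonneg (sub_nonneg.2 h1)]
  linarith

lemma vol_cell {n : ℕ} (z : Fin n → ℤ) : volume.real (cell z) = (1 / (n : ℝ) ^ 3) ^ n :=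
  vol_box _ (by positivity)

lemma vol_cell_ne_top {n : ℕ} (hn : 1 ≤ n) (z : Fin n → ℤ) : volume (cell z) ≠ ⊤ :=
  ne_top_of_le_ne_top (measure_closedBall_lt_top (x := gp z) (r := 1 / (n : ℝ) ^ 2)).ne
    (measure_mono fun _ hy => mem_closedBall_iff_norm.2 (near_of_mem_cell hn hy))

lemma vol_cells {n : ℕ} (hn : 1 ≤ n) (s : Finset (Fin n → ℤ)) :
    volume.real (⋃ z ∈ s, cell z) * ((n : ℝ) ^ 3) ^ n = s.card := by
  have h0 : (0 : ℝ) < n := by exact_mod_cast hn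
  rw [measureReal_biUnion_finset (fun z _ z' _ hne => Set.disjoint_left.2 fun y hy hy' =>
      hne (((mem_cell hn).1 hy).symm.trans ((mem_cell hn).1 hy')))
    (fun z _ => meas_box _ _) (fun z _ => vol_cell_ne_top hn z)]
  simp only [vol_cell, Finset.sum_const, nsmul_eq_mul]
  rw [mul_assoc, ← mul_pow, one_div_mul_cancel (by positivity), one_pow, mul_one]

end GridVol

open GridVol

lemma volB_pos (n : ℕ) : 0 < volB n :=
  ENNReal.toReal_pos (Metric.measure_closedBall_pos volume _ one_pos).ne'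
    measure_closedBall_lt_top.ne

/-- The cube of half side `1/n` lies in the unit ball. -/
lemma volB_ge {n : ℕ} (hn : 1 ≤ n) : (1 / (n : ℝ)) ^ n ≤ volB n := by
  have h0 : (0 : ℝ) < n := by exact_mod_cast hn
  rw [← vol_box (fun _ : Fin n => 0) (c := 1 / (n : ℝ)) (by positivity)]
  refine measureReal_mono (fun y hy => mem_closedBall_zero_iff.2 ?_) measure_closedBall_lt_top.ne
  refine (norm_le_of_coord hn y (c := 1 / (n : ℝ)) (by positivity) fun i => ?_).trans_eq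
    (by field_simp)
  obtain ⟨h1, h2⟩ := mem_box.1 hy i
  rw [abs_of_nonneg h1]
  linarith

lemma vol_ball {n : ℕ} (w : E n) {r : ℝ} (hr : 0 ≤ r) :
    volume.real (Metric.closedBall w r) = r ^ n * volB n := by
  rw [volB, Measure.real, Measure.real, Measure.addHaar_closedBall' volume w hr,
    ENNReal.toReal_mul, ENNReal.toReal_ofReal (by positivity), finrank_euclideanSpace_fin]

/-- Rounding to the grid. -/
lemma exists_gp_near {n : ℕ} (hn : 1 ≤ n) (w : E n) :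
    ∃ z : Fin n → ℤ, ‖w - gp z‖ ≤ 1 / (n : ℝ) ^ 2 :=
  ⟨_, near_of_mem_cell hn ((mem_cell hn).2 rfl)⟩

lemma mem_ZB_of_norm {n : ℕ} (hn : 1 ≤ n) {z : Fin n → ℤ} (h : ‖gp z‖ ≤ 3) : z ∈ ZB n := by
  have h0 : (0 : ℝ) < (n : ℝ) ^ 3 := by positivity
  refine Fintype.mem_piFinset.2 fun i => Finset.mem_Icc.2 (abs_le.1 ?_)
  have h1 := (PiLp.norm_apply_le (gp z) i).trans h
  rw [show gp z i = (z i : ℝ) / (n : ℝ) ^ 3 from rfl, Real.norm_eq_abs, abs_div, abs_of_pos h0,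
    div_le_iff₀ h0] at h1
  exact_mod_cast h1

lemma card_ZB (n : ℕ) : (ZB n).card = (6 * n ^ 3 + 1) ^ n := by
  rw [ZB, Fintype.card_piFinset, Finset.prod_const, Finset.card_univ, Fintype.card_fin,
    Int.card_Icc, show 3 * (n : ℤ) ^ 3 + 1 - -(3 * (n : ℤ) ^ 3) = ((6 * n ^ 3 + 1 : ℕ) : ℤ) by
      push_cast; ring, Int.toNat_natCast]

/-- Disjoint half open cells `gp z + [0, n⁻³)ⁿ` lie in the ball of radius `d + n⁻²`. -/
theorem card_grid_le {n : ℕ} (hn : 1 ≤ n) (w : E n) {d : ℝ} (hd : 0 ≤ d)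
    (s : Finset (Fin n → ℤ)) (hs : ∀ z ∈ s, ‖gp z - w‖ ≤ d) :
    (s.card : ℝ) ≤ (d + 1 / (n : ℝ) ^ 2) ^ n * volB n * ((n : ℝ) ^ 3) ^ n := by
  rw [← vol_cells hn s, ← vol_ball w (by positivity)]
  refine mul_le_mul_of_nonneg_right (measureReal_mono (Set.iUnion₂_subset fun z hz y hy => ?_)
    measure_closedBall_lt_top.ne) (by positivity)
  rw [mem_closedBall_iff_norm]
  linarith [norm_sub_le_norm_sub_add_norm_sub y (gp z) w, near_of_mem_cell hn hy, hs z hz]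

/-- The cells of the test points cover the ball of radius `1 - n⁻²`. -/
theorem card_Tn_ge {n : ℕ} (hn : 1 ≤ n) :
    (1 - 1 / (n : ℝ) ^ 2) ^ n * volB n * ((n : ℝ) ^ 3) ^ n ≤ (Tn n).card := by
  have h1 : (1 : ℝ) ≤ n := by exact_mod_cast hn
  have h2 : 1 / (n : ℝ) ^ 2 ≤ 1 := by
    rw [div_le_one (by positivity)]
    exact one_le_pow₀ h1
  rw [← vol_cells hn, ← vol_ball 0 (sub_nonneg.2 h2)]
  refine mul_le_mul_of_nonneg_right (measureReal_mono (fun y hy => ?_) ?_) (by positivity)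
  · have h3 : y ∈ cell fun i => ⌊y i * (n : ℝ) ^ 3⌋ := (mem_cell hn).2 rfl
    have h4 := near_of_mem_cell hn h3
    have h5 := norm_sub_norm_le (gp fun i => ⌊y i * (n : ℝ) ^ 3⌋) y
    rw [norm_sub_rev] at h5
    rw [mem_closedBall_zero_iff] at hy
    exact Set.mem_iUnion₂.2 ⟨_, Finset.mem_filter.2
      ⟨mem_ZB_of_norm hn (by linarith), by linarith⟩, h3⟩
  · exact (measure_biUnion_lt_top (Tn n).finite_toSet fun z _ => (vol_cell_ne_top hn z).lt_top).ne

end Crest.Agent.R225
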