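import Crest.Agent.R225.Overlap

/-! Task `R225 Wit`: the witness family of a good test point. -/

set_option autoImplicit false
open scoped RealInnerProductSpace

namespace Crest.Agent.R225

namespace Wit

lemma exists_net {F : Type} [NormedAddCommGroup F] (H : Finset F) {δ : ℝ} (hδ : 0 ≤ δ) :
    ∃ Z ⊆ H, (∀ z ∈ Z, ∀ z' ∈ Z, z ≠ z' → δ < ‖z - z'‖) ∧ ∀ v ∈ H, ∃ z ∈ Z, ‖z - v‖ ≤ δ := by
  classical
  induction H using Finset.induction_on with
  | empty => exact ⟨∅, le_rfl, by simp, by simp⟩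
  | insert v H _ ih =>
    obtain ⟨Z, h1, h2, h3⟩ := ih
    by_cases h : ∃ z ∈ Z, ‖z - v‖ ≤ δ
    · refine ⟨Z, h1.trans (Finset.subset_insert _ _), h2, fun w hw => ?_⟩
      rcases Finset.mem_insert.1 hw with rfl | hw
      exacts [h, h3 w hw]
    · push Not at h
      refine ⟨insert v Z, Finset.insert_subset_insert _ h1, fun z hz z' hz' hne => ?_,
        fun w hw => ?_⟩
      · rcases Finset.mem_insert.1 hz with rfl | hy <;> rcases Finset.mem_insert.1 hz' with rfl | hy'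
        · exact absurd rfl hne
        · rw [norm_sub_rev]; exact h _ hy'
        · exact h _ hy
        · exact h2 z hy z' hy' hne
      · rcases Finset.mem_insert.1 hw with rfl | hw
        · exact ⟨w, Finset.mem_insert_self _ _, by simpa using hδ⟩
        · obtain ⟨z, hz, hzw⟩ := h3 w hw
          exact ⟨z, Finset.mem_insert_of_mem hz, hzw⟩

open Classical in
lemma card_net {F : Type} [NormedAddCommGroup F] (V Z : Finset F) {d h : ℝ}
    (hsep : ∀ z ∈ Z, ∀ z' ∈ Z, z ≠ z' → 2 * d < ‖z - z'‖)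
    (hh : ∀ z ∈ Z, h ≤ (V.filter fun v => ‖z - v‖ ≤ d).card) : (Z.card : ℝ) * h ≤ V.card := by
  have h1 : (Z.biUnion fun z => V.filter fun v => ‖z - v‖ ≤ d).card =
      ∑ z ∈ Z, (V.filter fun v => ‖z - v‖ ≤ d).card := by
    refine Finset.card_biUnion fun z hz z' hz' hne => Finset.disjoint_left.2 fun v h1 h2 => ?_
    have h3 := hsep z hz z' hz' hne
    have h4 : ‖z - z'‖ ≤ ‖z - v‖ + ‖z' - v‖ := by
      rw [norm_sub_rev z' v]; exact norm_sub_le_norm_sub_add_norm_sub _ _ _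
    linarith [(Finset.mem_filter.1 h1).2, (Finset.mem_filter.1 h2).2]
  have h2 : (Z.biUnion fun z => V.filter fun v => ‖z - v‖ ≤ d).card ≤ V.card :=
    Finset.card_le_card (Finset.biUnion_subset.2 fun z _ => Finset.filter_subset _ _)
  calc (Z.card : ℝ) * h = ∑ _z ∈ Z, h := by simp
    _ ≤ ∑ z ∈ Z, ((V.filter fun v => ‖z - v‖ ≤ d).card : ℝ) := Finset.sum_le_sum hh
    _ ≤ V.card := by exact_mod_cast h1 ▸ h2

lemma sum_sdiff_ge {α ι : Type} [DecidableEq α] {lam : α → ℝ} (hl : ∀ a, 0 ≤ lam a) (A : Finset α)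
    (s : Finset ι) (B : ι → Finset α) :
    ∑ a ∈ A, lam a - ∑ i ∈ s, ∑ a ∈ A ∩ B i, lam a ≤ ∑ a ∈ A \ s.biUnion B, lam a := by
  classical
  induction s using Finset.induction_on with
  | empty => simp
  | insert i s hi ih =>
    rw [Finset.sum_insert hi]
    have h1 : A \ s.biUnion B ⊆ A \ (insert i s).biUnion B ∪ A ∩ B i := by
      intro a ha
      simp only [Finset.mem_sdiff, Finset.mem_union, Finset.mem_inter, Finset.biUnion_insert] at ha ⊢
      tauto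
    have h2 := Finset.sum_le_sum_of_subset_of_nonneg (f := lam) h1 fun a _ _ => hl a
    have h3 := Finset.sum_union_inter (f := lam) (s₁ := A \ (insert i s).biUnion B) (s₂ := A ∩ B i)
    have h4 : 0 ≤ ∑ a ∈ (A \ (insert i s).biUnion B) ∩ (A ∩ B i), lam a :=
      Finset.sum_nonneg fun a _ => hl a
    linarith

lemma sum_union_image_le {β ι : Type} [DecidableEq β] {g : β → ℝ} (hg : ∀ b, 0 ≤ g b)
    (s t : Finset ι) (f f' : ι → β) :
    ∑ b ∈ s.image f ∪ t.image f', g b ≤ ∑ i ∈ s, g (f i) + ∑ i ∈ t, g (f' i) := by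
  have h1 := Finset.sum_union_inter (f := g) (s₁ := s.image f) (s₂ := t.image f')
  have h2 : 0 ≤ ∑ b ∈ s.image f ∩ t.image f', g b := Finset.sum_nonneg fun a _ => hg a
  have h3 : ∑ b ∈ s.image f, g b ≤ ∑ i ∈ s, g (f i) :=
    Finset.sum_image_le_of_nonneg fun b _ => hg b
  have h4 : ∑ b ∈ t.image f', g b ≤ ∑ i ∈ t, g (f' i) :=
    Finset.sum_image_le_of_nonneg fun b _ => hg b
  linarith

lemma cost_le' {α : Type} [Fintype α] [DecidableEq α] {lam : α → ℝ} (C : Finset α) {c y : ℝ}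
    (hc : 0 < c) (hc1 : c ≤ 1) (hy : 0 ≤ y) (h : c / 2 * Real.exp (-y) ≤ ∑ a ∈ C, lam a) :
    0 < ∑ a ∈ C, lam a ∧ cost lam C ≤ Real.log (80 / c) + y := by
  have h0 : 0 < c / 2 * Real.exp (-y) := by positivity
  have h1 : Real.exp (-y) ≤ 1 := Real.exp_le_one_iff.2 (by linarith)
  refine ⟨h0.trans_le h, (cost_le C h0 (by nlinarith) h).trans ?_⟩
  have h2 : 2 / (c / 2 * Real.exp (-y)) = 4 / c * Real.exp y := by
    rw [Real.exp_neg]; field_simp; norm_num
  rw [h2, Real.log_mul (by positivity) (Real.exp_pos _).ne', Real.log_exp]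
  have : Real.log (4 / c) ≤ Real.log (80 / c) :=
    Real.log_le_log (by positivity) (by gcongr; norm_num)
  linarith

/-- the overlaps are negligible -/
lemma small {c r p : ℝ} (hc : 0 < c) (hr : 10 ≤ r) (hB : Real.log (80 / c) ≤ r)
    (hp : p ≤ r ^ 2 + 2) :
    40 * r ^ 41 * Real.exp (-40 * r ^ 4) ≤ c / 2 * Real.exp (-(2000 * p + 2)) := by
  have h1 : r ^ 41 ≤ Real.exp (41 * r) := by
    have : r ≤ Real.exp r := by linarith [Real.add_one_le_exp r]
    calc r ^ 41 ≤ Real.exp r ^ 41 := pow_le_pow_left₀ (by linarith) this _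
      _ = Real.exp (41 * r) := by rw [← Real.exp_nat_mul]; norm_num
  have h2 : 80 / c ≤ Real.exp r := (Real.log_le_iff_le_exp (by positivity)).1 hB
  have h3 : 40 ≤ c / 2 * Real.exp r := by
    rw [div_le_iff₀ hc] at h2; linarith
  calc 40 * r ^ 41 * Real.exp (-40 * r ^ 4)
      ≤ c / 2 * Real.exp r * Real.exp (41 * r) * Real.exp (-40 * r ^ 4) := by gcongr
    _ = c / 2 * Real.exp (r + 41 * r + -40 * r ^ 4) := by rw [Real.exp_add, Real.exp_add]; ring
    _ ≤ _ := by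
      gcongr
      have h4 : 100 ≤ r ^ 2 := by nlinarith
      have h5 : 100 * r ^ 2 ≤ r ^ 4 := by nlinarith
      nlinarith

open Classical in
theorem core {cL : ℝ} (hcL : 0 < cL) (hcL1 : cL ≤ 1) {n : ℕ} {r : ℝ} (hn : (n : ℝ) = r ^ 40)
    (hr : 80 * (Real.log (80 / cL) + 6002) ≤ r)
    {α : Type} [Fintype α] [DecidableEq α] {u : α → E n} {lam : α → ℝ} (G : Gnd cL u lam)
    (V : Finset (E n)) {m : ℝ} (hm : m ≤ 40 * r ^ 41)
    (hV : ∀ v ∈ V, 1 - r ^ 2 / n ≤ ‖v‖ ∧ ‖v‖ ≤ 1 + 1 / (n : ℝ) ^ 2)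
    (hΦ : (∑ v ∈ V, (Phi v : ℝ)) ≤ m) :
    ∃ 𝒞 : Finset (Finset α),
      (∀ C ∈ 𝒞, (0 < ∑ a ∈ C, lam a) ∧ ∃ v ∈ V, C ⊆ Hs u v (th0 n)) ∧
      (∀ v ∈ V, ∃ C ∈ 𝒞, C ⊆ Hs u v (th0 n)) ∧
      ∑ C ∈ 𝒞, cost lam C ≤ (Real.log (80 / cL) + 6002) * m + n ∧
      ∀ a, ∑ C ∈ 𝒞.filter (fun C => a ∈ C), cost lam C ≤ r ^ 34 := by
  set B := Real.log (80 / cL) with hB
  have hB0 : 0 ≤ B := Real.log_nonneg (by rw [le_div_iff₀ hcL]; linarith)
  have hr1 : 400000 ≤ r := by linarith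
  have hr0 : 0 < r := by linarith
  have hr1' : 1 ≤ r := by linarith
  have hpw : ∀ {i j : ℕ}, i ≤ j → r ^ i ≤ r ^ j := fun h => pow_le_pow_right₀ hr1' h
  have hpw' : ∀ {i j : ℕ}, i < j → 400000 * r ^ i ≤ r ^ j := fun {i j} h => by
    calc 400000 * r ^ i ≤ r * r ^ i := by gcongr
      _ = r ^ (i + 1) := by ring
      _ ≤ r ^ j := hpw h
  have hn0 : (0 : ℝ) < n := by rw [hn]; positivity
  have hn1000 : 1000 ≤ n := by
    have : (1000 : ℝ) ≤ n := by
      have := hpw' (show 0 < 40 by norm_num)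
      rw [hn]; linarith
    exact_mod_cast this
  have hr2 : 1 ≤ r ^ 2 := one_le_pow₀ hr1'
  have hP : ∀ v ∈ V, 1 ≤ Phi v ∧ (Phi v : ℝ) ≤ r ^ 2 + 2 ∧ 1 - (Phi v : ℝ) / n ≤ ‖v‖ := fun v hv =>
    Phi_facts (by omega) (by positivity)
      (by have := hpw' (show 2 < 40 by norm_num); rw [hn]; linarith) (hV v hv).2 (hV v hv).1
  have hcard : (V.card : ℝ) ≤ 40 * r ^ 41 := by
    refine le_trans ?_ (hΦ.trans hm)
    calc (V.card : ℝ) = ∑ _v ∈ V, (1 : ℝ) := by simp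
      _ ≤ _ := Finset.sum_le_sum fun v hv => by exact_mod_cast (hP v hv).1
  set d : ℝ := 1 / r ^ 18 with hd
  have hd0 : 0 < d := by positivity
  set Hv := V.filter fun v => r ^ 30 ≤ ((V.filter fun v' => ‖v - v'‖ ≤ d).card : ℝ) with hHv
  set Lt := V.filter fun v => ¬ r ^ 30 ≤ ((V.filter fun v' => ‖v - v'‖ ≤ d).card : ℝ) with hLt
  obtain ⟨Z, hZH, hsep, hnet⟩ := exists_net Hv (δ := 2 * d) (by positivity)
  have hZV : ∀ z ∈ Z, z ∈ V := fun z hz => (Finset.mem_filter.1 (hZH hz)).1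
  have hZc : (Z.card : ℝ) ≤ 40 * r ^ 11 := by
    have h1 := (card_net V Z hsep fun z hz => (Finset.mem_filter.1 (hZH hz)).2).trans hcard
    refine le_of_mul_le_mul_right (h1.trans_eq ?_) (show 0 < r ^ 30 by positivity)
    ring
  set CH : E n → Finset α := fun z => Hs u z (th0 n + 21 * √n * (2 * d)) with hCH
  set CL : E n → Finset α := fun v =>
    Hs u v (th0 n) \ (V.filter fun v' => d < ‖v - v'‖).biUnion fun v' => Hs u v' (th0 n) with hCL
  have hHc : ∀ z ∈ V, 0 < ∑ a ∈ CH z, lam a ∧ cost lam (CH z) ≤ (B + 6002) * r ^ 22 := by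
    intro z hz
    have e1 : r ^ 2 / n ≤ d := by
      rw [hn, hd, div_le_div_iff₀ (by positivity) (by positivity), one_mul, ← pow_add]
      exact hpw (by norm_num)
    have e2 : 400000 * d ≤ 1 := by
      rw [hd, mul_one_div, div_le_one (by positivity)]
      simpa using hpw' (show 0 < 18 by norm_num)
    have h1 := half_lower G hcL.le hn1000 (η := r ^ 2 / n) (d := 2 * d) (by positivity)
      (by positivity) (by linarith) (hV z hz).2 (hV z hz).1
    have e3 : (n : ℝ) * d = r ^ 22 := by rw [hn, hd]; field_simp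
    have e4 : 2000 * n * (r ^ 2 / n + 2 * d) + 2 ≤ 6002 * r ^ 22 := by
      have := one_le_pow₀ (n := 22) hr1'
      nlinarith [mul_le_mul_of_nonneg_left e1 hn0.le]
    have h2 := cost_le' (lam := lam) (CH z) hcL hcL1 (y := 2000 * n * (r ^ 2 / n + 2 * d) + 2)
      (by positivity) (le_trans (by gcongr; linarith) h1)
    refine ⟨h2.1, h2.2.trans ?_⟩
    have := mul_le_mul_of_nonneg_left (one_le_pow₀ (n := 22) hr1') hB0
    linarith
  have hLc : ∀ v ∈ V, 0 < ∑ a ∈ CL v, lam a ∧ cost lam (CL v) ≤ (B + 6002) * Phi v := by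
    intro v hv
    obtain ⟨p1, p2, p3⟩ := hP v hv
    have p1' : (1 : ℝ) ≤ Phi v := by exact_mod_cast p1
    have h1 := half_lower G hcL.le hn1000 (η := (Phi v : ℝ) / n) (d := 0) (by positivity) le_rfl
      (by
        rw [add_zero, div_le_div_iff₀ hn0 (by norm_num), hn]
        have := hpw' (show 2 < 40 by norm_num)
        linarith) (hV v hv).2 p3
    have e1 : 2000 * n * ((Phi v : ℝ) / n + 0) + 2 = 2000 * Phi v + 2 := by field_simp; ring
    rw [e1, mul_zero, add_zero] at h1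
    have e2 : (n : ℝ) * d ^ 2 = r ^ 4 := by rw [hn, hd]; field_simp
    have h2 : ∑ v' ∈ V.filter (fun v' => d < ‖v - v'‖),
        ∑ a ∈ Hs u v (th0 n) ∩ Hs u v' (th0 n), lam a ≤ 40 * r ^ 41 * Real.exp (-40 * r ^ 4) := by
      refine (Finset.sum_le_card_nsmul _ _ (Real.exp (-40 * r ^ 4)) fun v' hv' => ?_).trans ?_
      · obtain ⟨q1, q2⟩ := Finset.mem_filter.1 hv'
        have := overlap_le G (by omega) (hV v hv).2 (hV v' q1).2 (d := d) (by
          rw [hn, hd, div_pow, div_le_div_iff₀ (by positivity) (by positivity), ← pow_mul,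
            ← pow_mul]
          have := hpw' (show 18 * 2 < 40 * 2 by norm_num)
          have : 0 ≤ r ^ (18 * 2) := by positivity
          linarith) hd0.le q2.le
        rwa [mul_assoc, e2] at this
      · rw [nsmul_eq_mul]
        refine mul_le_mul_of_nonneg_right (le_trans ?_ hcard) (Real.exp_pos _).le
        exact_mod_cast Finset.card_filter_le _ _
    have h3 := sum_sdiff_ge G.nonneg (Hs u v (th0 n)) (V.filter fun v' => d < ‖v - v'‖)
      fun v' => Hs u v' (th0 n)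
    have h4 := small hcL (by linarith) (show B ≤ r by linarith) p2
    have h5 := cost_le' (lam := lam) (CL v) hcL hcL1 (y := 2000 * Phi v + 2) (by positivity)
      (by linarith)
    refine ⟨h5.1, h5.2.trans ?_⟩
    have := mul_le_mul_of_nonneg_left p1' hB0
    linarith
  have hZs : ∑ z ∈ Z, cost lam (CH z) ≤ r ^ 34 / 2 := by
    refine (Finset.sum_le_card_nsmul _ _ _ fun z hz => (hHc z (hZV z hz)).2).trans ?_
    rw [nsmul_eq_mul]
    calc (Z.card : ℝ) * ((B + 6002) * r ^ 22) ≤ 40 * r ^ 11 * ((B + 6002) * r ^ 22) := by gcongr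
      _ = 80 * (B + 6002) * r ^ 33 / 2 := by ring
      _ ≤ r * r ^ 33 / 2 := by gcongr
      _ = r ^ 34 / 2 := by ring
  refine ⟨Z.image CH ∪ Lt.image CL, fun C hC => ?_, fun v hv => ?_, ?_, fun a => ?_⟩
  · rcases Finset.mem_union.1 hC with hC | hC
    · obtain ⟨z, hz, rfl⟩ := Finset.mem_image.1 hC
      exact ⟨(hHc z (hZV z hz)).1, z, hZV z hz, Hs_shift G (by simp; positivity)⟩
    · obtain ⟨v, hv, rfl⟩ := Finset.mem_image.1 hC
      have hv' := (Finset.mem_filter.1 hv).1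
      exact ⟨(hLc v hv').1, v, hv', Finset.sdiff_subset⟩
  · by_cases h : r ^ 30 ≤ ((V.filter fun v' => ‖v - v'‖ ≤ d).card : ℝ)
    · obtain ⟨z, hz, hzv⟩ := hnet v (Finset.mem_filter.2 ⟨hv, h⟩)
      exact ⟨CH z, Finset.mem_union_left _ (Finset.mem_image_of_mem _ hz), Hs_shift G hzv⟩
    · exact ⟨CL v, Finset.mem_union_right _ (Finset.mem_image_of_mem _
        (Finset.mem_filter.2 ⟨hv, h⟩)), Finset.sdiff_subset⟩
  · refine (sum_union_image_le (cost_nonneg G.nonneg) Z Lt CH CL).trans ?_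
    have h1 : ∑ v ∈ Lt, cost lam (CL v) ≤ (B + 6002) * m := by
      calc ∑ v ∈ Lt, cost lam (CL v) ≤ ∑ v ∈ V, cost lam (CL v) :=
            Finset.sum_le_sum_of_subset_of_nonneg (Finset.filter_subset _ _)
              fun v _ _ => cost_nonneg G.nonneg _
        _ ≤ ∑ v ∈ V, (B + 6002) * Phi v := Finset.sum_le_sum fun v hv => (hLc v hv).2
        _ ≤ (B + 6002) * m := by rw [← Finset.mul_sum]; gcongr
    have h2 := hpw (show 34 ≤ 40 by norm_num)
    have : 0 ≤ r ^ 34 := by positivity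
    linarith
  · have h1 : (Z.image CH ∪ Lt.image CL).filter (fun C => a ∈ C) ⊆
        Z.image CH ∪ (Lt.filter fun v => a ∈ CL v).image CL := by
      intro C hC
      obtain ⟨q1, q2⟩ := Finset.mem_filter.1 hC
      rcases Finset.mem_union.1 q1 with q1 | q1
      · exact Finset.mem_union_left _ q1
      · obtain ⟨v, hv, rfl⟩ := Finset.mem_image.1 q1
        exact Finset.mem_union_right _ (Finset.mem_image_of_mem _ (Finset.mem_filter.2 ⟨hv, q2⟩))
    have h2 : ((Lt.filter fun v => a ∈ CL v).card : ℝ) ≤ r ^ 30 := by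
      rcases (Lt.filter fun v => a ∈ CL v).eq_empty_or_nonempty with h | ⟨v₀, h⟩
      · rw [h, Finset.card_empty, Nat.cast_zero]; positivity
      · obtain ⟨q1, q2⟩ := Finset.mem_filter.1 h
        refine le_trans ?_ (not_le.1 (Finset.mem_filter.1 q1).2).le
        refine Nat.cast_le.2 (Finset.card_le_card fun v hv => ?_)
        obtain ⟨q3, q4⟩ := Finset.mem_filter.1 hv
        have q5 := (Finset.mem_filter.1 q3).1
        refine Finset.mem_filter.2 ⟨q5, not_lt.1 fun hlt => (Finset.mem_sdiff.1 q2).2 ?_⟩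
        exact Finset.mem_biUnion.2 ⟨v, Finset.mem_filter.2 ⟨q5, hlt⟩, (Finset.mem_sdiff.1 q4).1⟩
    have h3 : ∑ v ∈ Lt.filter (fun v => a ∈ CL v), cost lam (CL v) ≤ r ^ 34 / 2 := by
      refine (Finset.sum_le_card_nsmul _ _ ((B + 6002) * (3 * r ^ 2)) fun v hv => ?_).trans ?_
      · have q := (Finset.mem_filter.1 (Finset.mem_filter.1 hv).1).1
        refine (hLc v q).2.trans ?_
        gcongr
        linarith [(hP v q).2.1]
      · rw [nsmul_eq_mul]
        calc _ ≤ r ^ 30 * ((B + 6002) * (3 * r ^ 2)) := by gcongr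
          _ = 6 * (B + 6002) * r ^ 32 / 2 := by ring
          _ ≤ r * r ^ 33 / 2 := by
            gcongr
            · linarith
            · norm_num
          _ = r ^ 34 / 2 := by ring
    refine (Finset.sum_le_sum_of_subset_of_nonneg h1 fun C _ _ => cost_nonneg G.nonneg C).trans ?_
    refine (sum_union_image_le (cost_nonneg G.nonneg) Z _ CH CL).trans ?_
    linarith

end Wit

/-- `d₁ = n^{-0.45}`. A vector `v ∈ V` is heavy if at least `n^{0.7}` vectors of `V` are within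
`d₁`. Take a maximal `2 d₁`-separated set `Z` of heavy vectors (`|Z| n^{0.7} ≤ |V| ≤ m`), with
`C z = Hs u z (θ₀ + 21 √n (2 d₁))` (cost `≤ C n^{0.55}` by `half_lower`, `cost_le`), and for
light `v` the set `C v = Hs u v θ₀ \ ⋃ {Hs u v' θ₀ : v' light, ‖v - v'‖ > d₁}` (intensity at
least half of that of `Hs u v θ₀` by `overlap_le`: `m exp (-40 n^{0.1}) ≪ exp (-C n^{0.05})`;
cost `≤ C₁ Phi v` with `η = Phi v / n`). The light `v` whose `C v` contains a given `a` are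
pairwise within `d₁`, so there are fewer than `n^{0.7}`. -/
theorem exists_witness (cL : ℝ) (hcL : 0 < cL) (hcL1 : cL ≤ 1) :
    ∃ C₁ : ℝ, 0 < C₁ ∧ ∃ n₀ : ℕ, ∀ n : ℕ, n₀ ≤ n →
    ∀ (α : Type) [Fintype α] [DecidableEq α] (u : α → E n) (lam : α → ℝ), Gnd cL u lam →
    ∀ (V : Finset (E n)) (m : ℝ), m ≤ n * Real.log n →
      (∀ v ∈ V, 1 - (n : ℝ) ^ (1 / 20 : ℝ) / n ≤ ‖v‖ ∧ ‖v‖ ≤ 1 + 1 / (n : ℝ) ^ 2) →
      (∑ v ∈ V, (Phi v : ℝ)) ≤ m →
      ∃ 𝒞 : Finset (Finset α),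
        (∀ C ∈ 𝒞, (0 < ∑ a ∈ C, lam a) ∧ ∃ v ∈ V, C ⊆ Hs u v (th0 n)) ∧
        (∀ v ∈ V, ∃ C ∈ 𝒞, C ⊆ Hs u v (th0 n)) ∧
        ∑ C ∈ 𝒞, cost lam C ≤ C₁ * m + n ∧
        ∀ a, ∑ C ∈ 𝒞.filter (fun C => a ∈ C), cost lam C ≤ (n : ℝ) ^ (43 / 50 : ℝ) := by
  have hB0 : 0 ≤ Real.log (80 / cL) := Real.log_nonneg (by rw [le_div_iff₀ hcL]; linarith)
  refine ⟨Real.log (80 / cL) + 6002, by linarith, ⌈(80 * (Real.log (80 / cL) + 6002)) ^ 40⌉₊,
    fun n hn α _ _ u lam G V m hm hV hΦ => ?_⟩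
  have hn0 : (0 : ℝ) ≤ n := Nat.cast_nonneg n
  have hpow : ∀ k : ℕ, ((n : ℝ) ^ (1 / 40 : ℝ)) ^ k = (n : ℝ) ^ ((k : ℝ) / 40) := fun k => by
    rw [← Real.rpow_natCast, ← Real.rpow_mul hn0]
    congr 1
    ring
  have h0 : 0 ≤ (n : ℝ) ^ (1 / 40 : ℝ) := Real.rpow_nonneg hn0 _
  have h40 : (n : ℝ) = ((n : ℝ) ^ (1 / 40 : ℝ)) ^ 40 := by rw [hpow]; norm_num
  have h2 : (n : ℝ) ^ (1 / 20 : ℝ) = ((n : ℝ) ^ (1 / 40 : ℝ)) ^ 2 := by rw [hpow]; norm_num
  have h34 : ((n : ℝ) ^ (1 / 40 : ℝ)) ^ 34 = (n : ℝ) ^ (17 / 20 : ℝ) := by rw [hpow]; norm_num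
  have hr : 80 * (Real.log (80 / cL) + 6002) ≤ (n : ℝ) ^ (1 / 40 : ℝ) := by
    refine (pow_le_pow_iff_left₀ (by positivity) h0 (n := 40) (by norm_num)).1 ?_
    rw [← h40]
    exact Nat.ceil_le.1 hn
  rw [h2] at hV
  set r := (n : ℝ) ^ (1 / 40 : ℝ) with hrdef
  have hr1 : 1 ≤ r := by linarith
  have hlog : Real.log n ≤ 40 * r := by
    rw [h40, Real.log_pow]
    have := Real.log_le_sub_one_of_pos (show 0 < r by linarith)
    push_cast
    linarith
  have hm' : m ≤ 40 * r ^ 41 := by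
    refine hm.trans ((mul_le_mul_of_nonneg_left hlog hn0).trans_eq ?_)
    rw [h40]; ring
  obtain ⟨𝒞, c1, c2, c3, c4⟩ := Wit.core hcL hcL1 h40 hr G V hm' hV hΦ
  refine ⟨𝒞, c1, c2, c3, fun a => (c4 a).trans ?_⟩
  rw [h34]
  refine Real.rpow_le_rpow_of_exponent_le ?_ (by norm_num)
  rw [h40]
  exact one_le_pow₀ hr1

end Crest.Agent.R225
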