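import Crest.Agent.R225.Janson
import Crest.Agent.R225.Wit
import Crest.Agent.R225.GridVol

/-! Task `R225 Kill`: for an admissible configuration some good test point is killed. -/

set_option autoImplicit false
open scoped RealInnerProductSpace

namespace Crest.Agent.R225

namespace Kill

open Filter

lemma ev : ∀ᶠ n : ℕ in atTop, 100 ≤ n ∧ 48 * Real.exp 1 * ((n : ℝ) ^ 5 * (97 / 100) ^ n) ≤ 1 ∧
    48 / 5 * Real.exp 1 * (n : ℝ) ^ (-(1 / 25) : ℝ) ≤ 97 / 100 := by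
  have h1 := (tendsto_pow_const_mul_const_pow_of_abs_lt_one 5 (r := 97 / 100)
    (by rw [abs_of_pos] <;> norm_num)).const_mul (48 * Real.exp 1)
  have h2 := ((tendsto_rpow_neg_atTop (y := 1 / 25) (by norm_num)).comp
    tendsto_natCast_atTop_atTop).const_mul (48 / 5 * Real.exp 1)
  rw [mul_zero] at h1 h2
  filter_upwards [eventually_ge_atTop 100, h1.eventually_le_const one_pos,
    h2.eventually_le_const (show (0 : ℝ) < 97 / 100 by norm_num)] with n a b c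
  exact ⟨a, b, c⟩

lemma num {n : ℕ} (hn : 100 ≤ n) (h2 : 48 * Real.exp 1 * ((n : ℝ) ^ 5 * (97 / 100) ^ n) ≤ 1)
    (h3 : 48 / 5 * Real.exp 1 * (n : ℝ) ^ (-(1 / 25) : ℝ) ≤ 97 / 100) {R y W : ℝ} (hR0 : 0 ≤ R)
    (hR : R ≤ (Real.exp 1 * (n : ℝ) ^ (1 / 100 : ℝ)) ^ n) (hy : y ≤ (n : ℝ) ^ 5 * 2 ^ n)
    (hW : ((n : ℝ) ^ 2) ^ n ≤ W) :
    8 * (12 / 5) ^ n * (R + y * (R * (((n : ℝ) ^ (-(1 / 20) : ℝ) + 1 / (n : ℝ) ^ 2) ^ n * W) +
      Real.exp 1 * ((1 / 5 + 1 / (n : ℝ) ^ 2) ^ n * W))) ≤ W / 2 := by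
  have hn' : (100 : ℝ) ≤ n := by exact_mod_cast hn
  have hn1 : (1 : ℝ) ≤ n := by linarith
  have hn0 : (0 : ℝ) < n := by linarith
  have hW0 : 0 ≤ W := le_trans (by positivity) hW
  have he : 1 ≤ Real.exp 1 := Real.one_le_exp zero_le_one
  have he' : Real.exp 1 ≤ 3 := by linarith [Real.exp_one_lt_d9]
  have h5 : (1 : ℝ) ≤ (n : ℝ) ^ 5 := one_le_pow₀ hn1
  have h4 : 48 * ((n : ℝ) ^ 5 * (97 / 100) ^ n) ≤ 1 := by
    refine le_trans ?_ h2
    gcongr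
    linarith
  have a1 : 12 / 5 * (Real.exp 1 * (n : ℝ) ^ (1 / 100 : ℝ)) ≤ 97 / 100 * (n : ℝ) ^ 2 := by
    have : (n : ℝ) ^ (1 / 100 : ℝ) ≤ n :=
      (Real.rpow_le_rpow_of_exponent_le hn1 (by norm_num)).trans_eq (Real.rpow_one _)
    have : Real.exp 1 * (n : ℝ) ^ (1 / 100 : ℝ) ≤ 3 * n := by gcongr
    nlinarith
  have a2 : 12 / 5 * 2 * (Real.exp 1 * (n : ℝ) ^ (1 / 100 : ℝ)) *
      ((n : ℝ) ^ (-(1 / 20) : ℝ) + 1 / (n : ℝ) ^ 2) ≤ 97 / 100 := by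
    have b1 : 1 / (n : ℝ) ^ 2 ≤ (n : ℝ) ^ (-(1 / 20) : ℝ) := by
      rw [one_div, ← Real.rpow_natCast, ← Real.rpow_neg hn0.le]
      exact Real.rpow_le_rpow_of_exponent_le hn1 (by norm_num)
    have b2 : (n : ℝ) ^ (1 / 100 : ℝ) * (n : ℝ) ^ (-(1 / 20) : ℝ) = (n : ℝ) ^ (-(1 / 25) : ℝ) := by
      rw [← Real.rpow_add hn0]; norm_num
    calc _ ≤ 12 / 5 * 2 * (Real.exp 1 * (n : ℝ) ^ (1 / 100 : ℝ)) *
          ((n : ℝ) ^ (-(1 / 20) : ℝ) + (n : ℝ) ^ (-(1 / 20) : ℝ)) := by gcongr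
      _ = 48 / 5 * Real.exp 1 * ((n : ℝ) ^ (1 / 100 : ℝ) * (n : ℝ) ^ (-(1 / 20) : ℝ)) := by ring
      _ ≤ _ := by rwa [b2]
  have a3 : 12 / 5 * 2 * (1 / 5 + 1 / (n : ℝ) ^ 2) ≤ 97 / 100 := by
    have : 1 / (n : ℝ) ^ 2 ≤ 1 / 100 ^ 2 := by gcongr
    linarith
  have hρ : 0 ≤ Real.exp 1 * (n : ℝ) ^ (1 / 100 : ℝ) := by positivity
  generalize Real.exp 1 * (n : ℝ) ^ (1 / 100 : ℝ) = ρ at hR a1 a2 hρ
  have hd1 : 0 ≤ (n : ℝ) ^ (-(1 / 20) : ℝ) + 1 / (n : ℝ) ^ 2 := by positivity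
  have hd2 : 0 ≤ 1 / 5 + 1 / (n : ℝ) ^ 2 := by positivity
  generalize (n : ℝ) ^ (-(1 / 20) : ℝ) + 1 / (n : ℝ) ^ 2 = d₁ at a2 hd1 ⊢
  generalize 1 / 5 + 1 / (n : ℝ) ^ 2 = d₂ at a3 hd2 ⊢
  have c1 : (12 / 5) ^ n * R ≤ (n : ℝ) ^ 5 * (97 / 100) ^ n * W := by
    calc _ ≤ (12 / 5) ^ n * ρ ^ n := by gcongr
      _ = (12 / 5 * ρ) ^ n := by rw [mul_pow]
      _ ≤ (97 / 100 * (n : ℝ) ^ 2) ^ n := by gcongr
      _ = 1 * (97 / 100) ^ n * ((n : ℝ) ^ 2) ^ n := by rw [mul_pow, one_mul]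
      _ ≤ _ := by gcongr
  have c2 : (12 / 5) ^ n * (y * (R * d₁ ^ n)) ≤ (n : ℝ) ^ 5 * (97 / 100) ^ n := by
    calc _ ≤ (12 / 5) ^ n * ((n : ℝ) ^ 5 * 2 ^ n * (ρ ^ n * d₁ ^ n)) := by gcongr
      _ = (n : ℝ) ^ 5 * (12 / 5 * 2 * ρ * d₁) ^ n := by simp only [mul_pow]; ring
      _ ≤ _ := by gcongr
  have c3 : (12 / 5) ^ n * (y * d₂ ^ n) ≤ (n : ℝ) ^ 5 * (97 / 100) ^ n := by
    calc _ ≤ (12 / 5) ^ n * ((n : ℝ) ^ 5 * 2 ^ n * d₂ ^ n) := by gcongr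
      _ = (n : ℝ) ^ 5 * (12 / 5 * 2 * d₂) ^ n := by simp only [mul_pow]; ring
      _ ≤ _ := by gcongr
  generalize (n : ℝ) ^ 5 * (97 / 100) ^ n = z at h2 h4 c1 c2 c3
  calc _ = 8 * ((12 / 5) ^ n * R) + 8 * ((12 / 5) ^ n * (y * (R * d₁ ^ n))) * W +
        8 * Real.exp 1 * ((12 / 5) ^ n * (y * d₂ ^ n)) * W := by ring
    _ ≤ 8 * (z * W) + 8 * z * W + 8 * Real.exp 1 * z * W := by gcongr
    _ = (48 * z + 48 * z + 48 * Real.exp 1 * z) * W / 6 := by ring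
    _ ≤ (1 + 1 + 1) * W / 6 := by gcongr
    _ = _ := by ring

open Classical in
/-- The vectors from the relevant centres to `x`. -/
noncomputable def VV {n : ℕ} (Y : Finset (Fin n → ℤ)) (x : Fin n → ℤ) : Finset (E n) :=
  (Y.filter fun y => ‖gp x - gp y‖ ≤ 1 + 1 / (n : ℝ) ^ 2).image fun y => gp x - gp y

variable {n : ℕ} {Y : Finset (Fin n → ℤ)} {x : Fin n → ℤ} {m : ℝ}

lemma mem_VV {v : E n} :
    v ∈ VV Y x ↔ ∃ y ∈ Y, ‖gp x - gp y‖ ≤ 1 + 1 / (n : ℝ) ^ 2 ∧ gp x - gp y = v := by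
  simp only [VV, Finset.mem_image, Finset.mem_filter, and_assoc]

lemma norm_VV {v : E n} (h : v ∈ VV Y x) : ‖v‖ ≤ 1 + 1 / (n : ℝ) ^ 2 := by
  obtain ⟨y, -, h1, rfl⟩ := mem_VV.1 h
  exact h1

lemma sum_VV (h : GoodPt m Y x) : ∑ v ∈ VV Y x, (Phi v : ℝ) ≤ m := by
  classical
  refine le_trans (Finset.sum_image_le_of_nonneg fun _ _ => Nat.cast_nonneg _) (le_trans
    (Finset.sum_le_sum_of_subset_of_nonneg (Finset.filter_subset _ _) fun _ _ _ =>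
      Nat.cast_nonneg _) h.1)

lemma card_VV (hn : 1 ≤ n) (h : GoodPt m Y x) : ((VV Y x).card : ℝ) ≤ m := by
  classical
  refine le_trans ?_ (sum_VV h)
  rw [Finset.card_eq_sum_ones, Nat.cast_sum]
  refine Finset.sum_le_sum fun v hv => Nat.cast_le.2 (Finset.card_pos.2 ⟨0, ?_⟩)
  exact Finset.mem_filter.2 ⟨Finset.mem_range.2 hn, by simpa using norm_VV hv⟩

/-- Some cross distance is small. -/
def Near (Y : Finset (Fin n → ℤ)) (d : ℝ) (x j : Fin n → ℤ) : Prop :=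
  ∃ v ∈ VV Y x, ∃ v' ∈ VV Y j, ‖v - v'‖ < d

open Classical in
lemma card_near (hn : 1 ≤ n) (h : GoodPt m Y x) {d : ℝ} (hd : 0 ≤ d) (s : Finset (Fin n → ℤ)) :
    ((s.filter (Near Y d x)).card : ℝ) ≤
      m * Y.card * ((d + 1 / (n : ℝ) ^ 2) ^ n * (volB n * ((n : ℝ) ^ 3) ^ n)) := by
  have h1 : s.filter (Near Y d x) ⊆ (VV Y x ×ˢ Y).biUnion fun p =>
      s.filter fun j => ‖gp j - (gp p.2 + p.1)‖ ≤ d := fun j hj => by
    obtain ⟨hj, v, hv, v', hv', h2⟩ := Finset.mem_filter.1 hj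
    obtain ⟨y, hy, -, rfl⟩ := mem_VV.1 hv'
    refine Finset.mem_biUnion.2 ⟨(v, y), Finset.mem_product.2 ⟨hv, hy⟩,
      Finset.mem_filter.2 ⟨hj, ?_⟩⟩
    rw [← sub_sub, norm_sub_rev]
    exact h2.le
  have h2 : ((s.filter (Near Y d x)).card : ℝ) ≤ ∑ p ∈ VV Y x ×ˢ Y,
      ((s.filter fun j => ‖gp j - (gp p.2 + p.1)‖ ≤ d).card : ℝ) := by
    exact_mod_cast (Finset.card_le_card h1).trans Finset.card_biUnion_le
  refine h2.trans ((Finset.sum_le_card_nsmul _ _ _ fun p _ =>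
    card_grid_le hn _ hd _ fun z hz => (Finset.mem_filter.1 hz).2).trans ?_)
  rw [nsmul_eq_mul, Finset.card_product, Nat.cast_mul, mul_assoc (_ ^ n)]
  have := volB_pos n
  gcongr
  exact card_VV hn h

variable {α : Type} [Fintype α] [DecidableEq α] {cL : ℝ} {u : α → E n} {lam : α → ℝ}

lemma overlap (G : Gnd cL u lam) (hn : 100 ≤ n) {j : Fin n → ℤ} (hx : GoodPt m Y x)
    (hj : GoodPt m Y j) (hm : m ≤ (n : ℝ) ^ 2) {S S' : Finset α}
    (hS : ∀ a ∈ S, ∃ v ∈ VV Y x, a ∈ Hs u v (th0 n))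
    (hS' : ∀ a ∈ S', ∃ v ∈ VV Y j, a ∈ Hs u v (th0 n))
    (h : ¬ Near Y ((n : ℝ) ^ (-(1 / 20) : ℝ)) x j) :
    (∑ a ∈ S ∩ S', lam a) * Real.exp (2 * (n : ℝ) ^ (43 / 50 : ℝ)) ≤ 1 := by
  have hn' : (100 : ℝ) ≤ n := by exact_mod_cast hn
  have hn1 : (1 : ℝ) ≤ n := by linarith
  have hn0 : (0 : ℝ) < n := by linarith
  have e1 : ((n : ℝ) ^ (-(1 / 20) : ℝ)) ^ 2 = (n : ℝ) ^ (-(1 / 10) : ℝ) := by
    rw [← Real.rpow_natCast, ← Real.rpow_mul hn0.le]; norm_num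
  have e2 : -40 * n * (n : ℝ) ^ (-(1 / 10) : ℝ) = -40 * (n : ℝ) ^ (9 / 10 : ℝ) := by
    rw [mul_assoc, mul_comm (n : ℝ), ← Real.rpow_add_one hn0.ne']; norm_num
  have e3 : 60 / (n : ℝ) ^ 2 ≤ ((n : ℝ) ^ (-(1 / 20) : ℝ)) ^ 2 := by
    rw [e1]
    refine le_trans ?_ (Real.rpow_le_rpow_of_exponent_le hn1 (show (-1 : ℝ) ≤ _ by norm_num))
    rw [Real.rpow_neg_one, div_le_iff₀ (by positivity), sq, inv_mul_cancel_left₀ hn0.ne']
    linarith
  have h1 : ∑ a ∈ S ∩ S', lam a ≤ ∑ p ∈ VV Y x ×ˢ VV Y j,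
      ∑ a ∈ Hs u p.1 (th0 n) ∩ Hs u p.2 (th0 n), lam a := by
    have e : ∀ T : Finset α, ∑ a ∈ T, lam a = ∑ a, if a ∈ T then lam a else 0 := fun T => by
      rw [← Finset.sum_filter, Finset.filter_mem_eq_inter, Finset.univ_inter]
    simp only [e (_ ∩ _)]
    rw [Finset.sum_comm]
    refine Finset.sum_le_sum fun a _ => ?_
    have h0 : ∀ p ∈ VV Y x ×ˢ VV Y j,
        0 ≤ if a ∈ Hs u p.1 (th0 n) ∩ Hs u p.2 (th0 n) then lam a else 0 := fun p _ => by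
      split_ifs
      exacts [G.nonneg a, le_rfl]
    split_ifs with ha
    · obtain ⟨v, hv, h2⟩ := hS a (Finset.mem_inter.1 ha).1
      obtain ⟨v', hv', h3⟩ := hS' a (Finset.mem_inter.1 ha).2
      refine le_trans ?_ (Finset.single_le_sum h0 (a := (v, v')) (Finset.mem_product.2 ⟨hv, hv'⟩))
      rw [if_pos (Finset.mem_inter.2 ⟨h2, h3⟩)]
    · exact Finset.sum_nonneg h0
  have h2 := h1.trans (Finset.sum_le_card_nsmul _ _ _ fun p hp =>
    overlap_le G (by omega) (norm_VV (Finset.mem_product.1 hp).1)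
      (norm_VV (Finset.mem_product.1 hp).2) e3 (by positivity) (not_lt.1 fun h' =>
        h ⟨_, (Finset.mem_product.1 hp).1, _, (Finset.mem_product.1 hp).2, h'⟩))
  rw [e1, e2, nsmul_eq_mul, Finset.card_product, Nat.cast_mul] at h2
  have h3 := (card_VV (by omega) hx).trans hm
  have h4 := (card_VV (by omega) hj).trans hm
  have h5 : (n : ℝ) ^ (43 / 50 : ℝ) ≤ (n : ℝ) ^ (9 / 10 : ℝ) :=
    Real.rpow_le_rpow_of_exponent_le hn1 (by norm_num)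
  have h6 := Real.log_le_rpow_div hn0.le (show (0 : ℝ) < 9 / 10 by norm_num)
  have h7 : (0 : ℝ) ≤ (n : ℝ) ^ (9 / 10 : ℝ) := by positivity
  calc _ ≤ (n : ℝ) ^ 2 * (n : ℝ) ^ 2 * Real.exp (-40 * (n : ℝ) ^ (9 / 10 : ℝ)) *
        Real.exp (2 * (n : ℝ) ^ (43 / 50 : ℝ)) :=
        mul_le_mul_of_nonneg_right (h2.trans (by gcongr)) (Real.exp_pos _).le
    _ = Real.exp ((4 : ℕ) * Real.log n + -40 * (n : ℝ) ^ (9 / 10 : ℝ) +
        2 * (n : ℝ) ^ (43 / 50 : ℝ)) := by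
        rw [Real.exp_add, Real.exp_add, Real.exp_nat_mul, Real.exp_log hn0]; ring
    _ ≤ 1 := Real.exp_le_one_iff.2 (by push_cast; linarith)

end Kill

/-- For good `x ∈ Tn n` let `V x` be the image of `{y ∈ Y | ‖gp x - gp y‖ ≤ 1 + n⁻²}` under
`y ↦ gp x - gp y` (`|V x| ≤ m`, `Phi ≥ 1`), `𝒞 x` its witness family, `A x = Hit (𝒞 x)`
(implies `Killed`), `S x = ⋃ 𝒞 x`, `p x ≥ exp (-(C₁ m + n))`. Apply `janson_Q` with
`Q = e^{C₁ m + n} + (m+1) |Y| (e^{C₁ m + n} N(d₂) + e N(1/5))`, `d₂ = n^{-0.05}`, `N(d)` the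
bound of `card_grid_le`: if some cross distance `‖v - v'‖` is `< d₂` the ratio is
`≤ 1 / p x`; otherwise it is `≤ e` by `hit_pair` (`L = n^{0.86}`,
`λ(O) ≤ m² exp (-40 n^{0.9})` by `overlap_le`), and the supports are disjoint unless some cross
distance is `< 1/5` (`overlap_far`). With `c₁ = min 1 (1 / (100 C₁))`:
`|T| / e^{C₁ m + n} ≥ n^{n}`, `|T| / N(d₂) ≥ n^{n/20} / 4`, `|T| / N(1/5) ≥ 5ⁿ / 4`. -/
theorem kill (cL : ℝ) (hcL : 0 < cL) (hcL1 : cL ≤ 1) :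
    ∃ c₁ : ℝ, 0 < c₁ ∧ ∃ n₀ : ℕ, ∀ n : ℕ, n₀ ≤ n →
    ∀ (α : Type) [Fintype α] [DecidableEq α] (u : α → E n) (lam : α → ℝ), Gnd cL u lam →
    ∀ (m : ℝ) (Y : Finset (Fin n → ℤ)), 0 ≤ m → m ≤ c₁ * n * Real.log n → Adm m Y →
      bP (qOf lam) (fun ω => ∀ x ∈ Tn n, GoodPt m Y x → ¬ Killed u ω Y x) ≤
        Real.exp (-(12 / 5 : ℝ) ^ n) := by
  classical
  obtain ⟨C₁, hC₁, n₁, hw⟩ := exists_witness cL hcL hcL1
  obtain ⟨n₂, hev⟩ := Filter.eventually_atTop.1 Kill.ev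
  refine ⟨min 1 (1 / (100 * C₁)), by positivity, max n₁ n₂,
    fun n hn α _ _ u lam G m Y hm0 hm hY => ?_⟩
  obtain ⟨hn, t2, t3⟩ := (hev n (le_of_max_le_right hn)).imp_left
    fun h => And.intro h (le_of_max_le_left hn)
  obtain ⟨hn, hn₁⟩ := hn
  have hn' : (100 : ℝ) ≤ n := by exact_mod_cast hn
  have hn1 : (1 : ℝ) ≤ n := by linarith
  have hn0 : (0 : ℝ) < n := by linarith
  have hL : 0 ≤ Real.log n := Real.log_nonneg hn1
  have m1 : m ≤ n * Real.log n := hm.trans (by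
    rw [mul_assoc]; exact mul_le_of_le_one_left (by positivity) (min_le_left _ _))
  have m2 : C₁ * m ≤ n * (Real.log n * (1 / 100)) := by
    calc _ ≤ C₁ * (1 / (100 * C₁) * n * Real.log n) :=
          mul_le_mul_of_nonneg_left (hm.trans (by gcongr; exact min_le_right _ _)) hC₁.le
      _ = _ := by field_simp
  have m3 : m ≤ (n : ℝ) ^ 2 := m1.trans (by
    rw [sq]; gcongr; linarith [Real.log_le_sub_one_of_pos hn0])
  have h0 : ∀ a, 0 ≤ qOf lam a := fun a =>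
    sub_nonneg.2 (Real.exp_le_one_iff.2 (neg_nonpos.2 (G.nonneg a)))
  have h1 : ∀ a, qOf lam a ≤ 1 := fun a => sub_le_self _ (Real.exp_pos _).le
  have hw' := fun x (hx : GoodPt m Y x) => hw n hn₁ α u lam G (Kill.VV Y x) m m1 (fun v hv => by
    obtain ⟨y, hy, h2, rfl⟩ := Kill.mem_VV.1 hv
    exact ⟨hx.2 y hy, h2⟩) (Kill.sum_VV hx)
  choose! 𝒞 w1 w2 w3 w4 using hw'
  set s := (Tn n).filter (GoodPt m Y) with hs
  have hg : ∀ x ∈ s, GoodPt m Y x := fun x hx => (Finset.mem_filter.1 hx).2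
  set R := Real.exp (C₁ * m + n) with hR
  have hR0 : 0 < R := Real.exp_pos _
  have hW0 : 0 < volB n * ((n : ℝ) ^ 3) ^ n := by have := volB_pos n; positivity
  have hp : ∀ x ∈ s, R⁻¹ ≤ bP (qOf lam) (Hit (𝒞 x)) := fun x hx => by
    refine le_trans ?_ (hit_lower G.nonneg _ fun C hC => (w1 x (hg x hx) C hC).1)
    rw [hR, ← Real.exp_neg]
    exact Real.exp_le_exp.2 (neg_le_neg (w3 x (hg x hx)))
  have hS : ∀ x ∈ s, ∀ a ∈ (𝒞 x).biUnion id, ∃ v ∈ Kill.VV Y x, a ∈ Hs u v (th0 n) :=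
    fun x hx a ha => by
      obtain ⟨C, hC, ha⟩ := Finset.mem_biUnion.1 ha
      obtain ⟨v, hv, h⟩ := (w1 x (hg x hx) C hC).2
      exact ⟨v, hv, h ha⟩
  have hnum := Kill.num hn t2 t3 hR0.le (y := m * Y.card) (W := volB n * ((n : ℝ) ^ 3) ^ n)
    (by
      rw [hR, Real.rpow_def_of_pos hn0, ← Real.exp_add, ← Real.exp_nat_mul]
      exact Real.exp_le_exp.2 (by linarith))
    (by
      have : (Y.card : ℝ) ≤ 2 ^ n * (n : ℝ) ^ 3 := by exact_mod_cast hY.2.1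
      calc _ ≤ (n : ℝ) ^ 2 * (2 ^ n * (n : ℝ) ^ 3) := by gcongr
        _ = _ := by ring)
    (by
      calc _ = (1 / (n : ℝ)) ^ n * ((n : ℝ) ^ 3) ^ n := by
            rw [← mul_pow]; congr 1; field_simp
        _ ≤ _ := by gcongr; exact volB_ge (by omega))
  have hT : volB n * ((n : ℝ) ^ 3) ^ n / 2 ≤ (Tn n).card := by
    refine le_trans ?_ (card_Tn_ge (by omega))
    have h2 := one_add_mul_le_pow (a := -(1 / (n : ℝ) ^ 2)) (by
      have : 1 / (n : ℝ) ^ 2 ≤ 1 := (div_le_one (by positivity)).2 (one_le_pow₀ hn1)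
      linarith) n
    have h3 : (n : ℝ) * (1 / (n : ℝ) ^ 2) ≤ 1 / 2 := by
      rw [mul_one_div, div_le_iff₀ (by positivity)]; nlinarith
    rw [mul_assoc, div_eq_inv_mul, sub_eq_add_neg]
    gcongr
    linarith
  have hN := fun x (hx : x ∈ s) d hd => Kill.card_near (d := d) (by omega) (hg x hx) hd s
  have hd₂ : 0 ≤ (n : ℝ) ^ (-(1 / 20) : ℝ) := by positivity
  set N₂ := ((n : ℝ) ^ (-(1 / 20) : ℝ) + 1 / (n : ℝ) ^ 2) ^ n * (volB n * ((n : ℝ) ^ 3) ^ n)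
  set N₁ := (1 / 5 + 1 / (n : ℝ) ^ 2) ^ n * (volB n * ((n : ℝ) ^ 3) ^ n)
  have hQ' : 0 ≤ m * Y.card * (R * N₂ + Real.exp 1 * N₁) := by positivity
  have key := janson_Q h0 h1 (fun x => Hit (𝒞 x)) (fun x => (𝒞 x).biUnion id)
    (fun x => hit_mono _) (fun x => hit_inter _) s
    (R + m * Y.card * (R * N₂ + Real.exp 1 * N₁)) (by positivity) (fun x hx => by
      calc (1 : ℝ) ≤ 2 * R * R⁻¹ := by rw [mul_assoc, mul_inv_cancel₀ hR0.ne']; norm_num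
        _ ≤ _ := by gcongr; exacts [le_add_of_nonneg_right hQ', hp x hx]) (fun x hx => by
      calc _ ≤ ∑ j ∈ s, ((if Kill.Near Y ((n : ℝ) ^ (-(1 / 20) : ℝ)) x j then R else 0) +
            if Kill.Near Y (1 / 5) x j then Real.exp 1 else 0) := by
            refine le_trans (Finset.sum_le_sum fun j hj => ?_)
              (Finset.sum_le_sum_of_subset_of_nonneg (Finset.filter_subset _ _) fun j _ _ => by
                split_ifs <;> positivity)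
            obtain ⟨hj, -, hd⟩ := Finset.mem_filter.1 hj
            have px := (inv_pos.2 hR0).trans_le (hp x hx)
            have pj := (inv_pos.2 hR0).trans_le (hp j hj)
            by_cases hc : Kill.Near Y ((n : ℝ) ^ (-(1 / 20) : ℝ)) x j
            · rw [if_pos hc]
              refine le_add_of_le_of_nonneg ?_ (by split_ifs <;> positivity)
              rw [div_le_iff₀ (by positivity), ← mul_assoc]
              refine (bP_mono h0 h1 fun ω h => h.2).trans (le_mul_of_one_le_left pj.le ?_)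
              rw [← mul_inv_cancel₀ hR0.ne']
              gcongr
              exact hp x hx
            · obtain ⟨a, ha, ha'⟩ := Finset.not_disjoint_iff.1 hd
              obtain ⟨v, hv, h2⟩ := hS x hx a ha
              obtain ⟨v', hv', h3⟩ := hS j hj a ha'
              have h4 : Kill.Near Y (1 / 5) x j := ⟨v, hv, v', hv', not_le.1 fun h =>
                Finset.disjoint_left.1
                  (overlap_far G hn (Kill.norm_VV hv) (Kill.norm_VV hv') h) h2 h3⟩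
              rw [if_neg hc, if_pos h4, zero_add, div_le_iff₀ (by positivity)]
              exact hit_pair G.nonneg _ _ (fun C hC => (w1 x (hg x hx) C hC).1)
                (fun C hC => (w1 j (hg j hj) C hC).1) _ (by positivity) (w4 x (hg x hx))
                (w4 j (hg j hj)) (Kill.overlap G hn (hg x hx) (hg j hj) m3 (hS x hx) (hS j hj) hc)
        _ ≤ m * Y.card * N₂ * R + m * Y.card * N₁ * Real.exp 1 := by
            rw [Finset.sum_add_distrib, ← Finset.sum_filter, ← Finset.sum_filter,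
              Finset.sum_const, Finset.sum_const, nsmul_eq_mul, nsmul_eq_mul]
            gcongr
            exacts [hN x hx _ hd₂, hN x hx _ (by norm_num)]
        _ ≤ _ := by linarith)
  refine le_trans (le_trans (bP_mono h0 h1 fun ω h x hx hh => h x (Finset.mem_filter.1 hx).1
    (hg x hx) fun y hy hn => ?_) key) (Real.exp_le_exp.2 ?_)
  · obtain ⟨C, hC, h2⟩ := w2 x (hg x hx) _ (Kill.mem_VV.2 ⟨y, hy, hn, rfl⟩)
    obtain ⟨a, ha⟩ := hh C hC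
    exact ⟨a, (Finset.mem_inter.1 ha).1, (Finset.mem_filter.1 (h2 (Finset.mem_inter.1 ha).2)).2⟩
  · rw [neg_div, neg_le_neg_iff, le_div_iff₀ (by positivity)]
    have := hY.2.2
    linarith

end Crest.Agent.R225
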