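import Crest.Agent.R225.Harris
import Crest.Agent.R225.GridVol

/-! Task `R225 VolK`: the random body is a symmetric convex body, of volume `≥ vol B / 4` with
probability `≥ 1/3`; the number of admissible configurations. -/

set_option autoImplicit false
open MeasureTheory
open scoped RealInnerProductSpace

namespace Crest.Agent.R225

variable {n : ℕ} {α : Type} [Fintype α] [DecidableEq α] {cL : ℝ} {u : α → E n} {lam : α → ℝ}

lemma Kb_body (hn : 1 ≤ n) (u : α → E n) (ω : Finset α) :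
    IsCompact (Kb u ω) ∧ Convex ℝ (Kb u ω) ∧ (interior (Kb u ω)).Nonempty ∧
      ∀ x ∈ Kb u ω, -x ∈ Kb u ω := by
  have hc : ∀ a, Continuous fun y : E n => |⟪u a, y⟫| := fun a => by fun_prop
  refine ⟨(isCompact_closedBall 0 1).of_isClosed_subset ?_ fun y hy =>
    mem_closedBall_zero_iff.2 hy.1, fun x hx y hy a b ha hb hab => ⟨?_, fun i hi => ?_⟩,
    ⟨0, mem_interior_iff_mem_nhds.2 ?_⟩, fun x hx => ?_⟩
  · rw [Kb, Set.ofPred_and, Set.ofPred_forall]
    refine (isClosed_le continuous_norm continuous_const).inter (isClosed_iInter fun a => ?_)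
    rw [Set.ofPred_forall]
    exact isClosed_iInter fun _ => isClosed_le (hc a) continuous_const
  · exact mem_closedBall_zero_iff.1 (convex_closedBall 0 1 (mem_closedBall_zero_iff.2 hx.1)
      (mem_closedBall_zero_iff.2 hy.1) ha hb hab)
  · rw [inner_add_right, inner_smul_right, inner_smul_right]
    exact convex_closedBall (0 : ℝ) _ (mem_closedBall_zero_iff.2 (hx.2 i hi))
      (mem_closedBall_zero_iff.2 (hy.2 i hi)) ha hb hab |> mem_closedBall_zero_iff.1
  · refine Filter.Eventually.and ((continuous_norm.continuousAt.eventually_lt continuousAt_const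
      (by simp)).mono fun _ => le_of_lt) ((Filter.eventually_all_finset ω).2 fun a _ =>
        ((hc a).continuousAt.eventually_lt continuousAt_const ?_).mono fun _ => le_of_lt)
    rw [inner_zero_right, abs_zero]
    positivity
  · simpa only [Kb, Set.mem_ofPred_eq, norm_neg, inner_neg_right, abs_neg] using hx

omit [DecidableEq α] in
lemma VolK_half (G : Gnd cL u lam) {y : E n} (hy : ‖y‖ ≤ 1) :
    ∑ a ∈ Hs u y (20 * √n), lam a ≤ 1 / 4 := by
  have h0 : 0 ≤ 20 * √(n : ℝ) := by positivity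
  rcases eq_or_ne y 0 with rfl | h
  · rw [Hs, Finset.filter_false_of_mem fun a _ => by rwa [inner_zero_right, not_lt],
      Finset.sum_empty]
    norm_num
  · have h1 : (20 * √(n : ℝ)) ^ 2 = 400 * n := by
      rw [mul_pow, Real.sq_sqrt n.cast_nonneg]
      norm_num
    have h2 := G.upper _ (norm_smul_inv_norm (𝕜 := ℝ) h) _ h0 h1.ge
    rw [h1, sub_self, zero_div, Real.exp_zero, mul_one] at h2
    refine le_trans (Finset.sum_le_sum_of_subset_of_nonneg (fun a ha => ?_)
      fun a _ _ => G.nonneg a) h2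
    simp only [Hs, Finset.mem_filter, Finset.mem_univ, true_and, inner_smul_right] at ha ⊢
    exact ha.trans_le (le_mul_of_one_le_left (h0.trans ha.le)
      ((one_le_inv₀ (norm_pos_iff.2 h)).2 hy))

omit [DecidableEq α] in
lemma VolK_q (G : Gnd cL u lam) : (∀ a, 0 ≤ qOf lam a) ∧ ∀ a, qOf lam a ≤ 1 :=
  ⟨fun a => sub_nonneg.2 (Real.exp_le_one_iff.2 (neg_nonpos.2 (G.nonneg a))),
    fun _ => sub_le_self _ (Real.exp_nonneg _)⟩

lemma VolK_pt (G : Gnd cL u lam) {y : E n} (hy : ‖y‖ ≤ 1) :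
    1 / 2 ≤ bP (qOf lam) fun ω => y ∈ Kb u ω := by
  refine le_trans ?_ ((bP_miss lam (Hs u y (20 * √n) ∪ Hs u (-y) (20 * √n))).ge.trans
    (bP_mono (VolK_q G).1 (VolK_q G).2 fun ω h => ⟨hy, fun a ha => ?_⟩))
  · refine le_trans ?_ (Real.add_one_le_exp _)
    linarith [Finset.sum_union_inter (s₁ := Hs u y (20 * √n)) (s₂ := Hs u (-y) (20 * √n)) (f := lam),
      Finset.sum_nonneg (s := Hs u y (20 * √n) ∩ Hs u (-y) (20 * √n)) fun a _ => G.nonneg a,
      VolK_half G hy, VolK_half G ((norm_neg y).trans_le hy)]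
  · by_contra h'
    refine h ⟨a, Finset.mem_inter.2 ⟨ha, ?_⟩⟩
    simpa only [Hs, Finset.mem_union, Finset.mem_filter, Finset.mem_univ, true_and,
      inner_neg_right, not_le, lt_abs] using h'

/-- For `‖y‖ ≤ 1`: `P(y ∈ K) = exp (-λ(H(y) ∪ H(-y))) ≥ e^{-1/2} ≥ 3/5` (`bP_miss`,
`G.upper` at `s = 20 √n / ‖y‖`); finite sum and integral commute, so `E vol K ≥ (3/5) vol B`,
and `vol K ≤ vol B`. -/
theorem volK_prob (G : Gnd cL u lam) (hn : 1 ≤ n) :
    1 / 3 ≤ bP (qOf lam) fun ω => volB n / 4 ≤ volume.real (Kb u ω) := by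
  have hi : ∀ {K : Set (E n)}, IsCompact K → ∀ c : ℝ, Integrable (K.indicator fun _ => c) ∧
      ∫ y, K.indicator (fun _ => c) y = volume.real K * c := fun hK c =>
    ⟨(integrable_indicator_iff hK.measurableSet).2 (integrableOn_const hK.measure_lt_top.ne),
      integral_indicator_const c hK.measurableSet⟩
  have hK := fun ω => (Kb_body hn u ω).1
  have h1 : volB n * (1 / 2) ≤ bE (qOf lam) fun ω => volume.real (Kb u ω) := by
    simp only [bE, mul_comm (bw _ _), ← (hi (hK _) _).2]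
    rw [volB, ← (hi (isCompact_closedBall 0 1) _).2,
      ← integral_finsetSum _ fun ω _ => (hi (hK ω) _).1]
    refine integral_mono (hi (isCompact_closedBall 0 1) _).1
      (integrable_finsetSum _ fun ω _ => (hi (hK ω) _).1) fun y => ?_
    have h2 : bP (qOf lam) (fun ω => y ∈ Kb u ω) =
        ∑ ω, (Kb u ω).indicator (fun _ => bw (qOf lam) ω) y := by
      simp only [bP, bE, mul_ite, mul_one, mul_zero, Set.indicator]
    refine le_trans ?_ h2.le
    by_cases hy : y ∈ Metric.closedBall (0 : E n) 1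
    · exact (Set.indicator_of_mem hy _).trans_le (VolK_pt G (mem_closedBall_zero_iff.1 hy))
    · exact (Set.indicator_of_notMem hy _).trans_le (bP_nonneg (VolK_q G).1 (VolK_q G).2 _)
  have h2 : bE (qOf lam) (fun ω => volume.real (Kb u ω)) ≤ volB n / 4 + 3 / 4 * volB n *
      bP (qOf lam) fun ω => volB n / 4 ≤ volume.real (Kb u ω) := by
    rw [← bE_const (q := qOf lam) (volB n / 4)]
    nth_rewrite 2 [bE_const]
    simp only [bP, bE, Finset.mul_sum, ← Finset.sum_add_distrib, mul_left_comm _ (bw _ _),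
      ← mul_add]
    refine Finset.sum_le_sum fun ω _ => mul_le_mul_of_nonneg_left ?_
      (bw_nonneg (VolK_q G).1 (VolK_q G).2 ω)
    split_ifs with h
    · have : volume.real (Kb u ω) ≤ volB n := measureReal_mono
        (fun y hy => mem_closedBall_zero_iff.2 hy.1) (isCompact_closedBall 0 1).measure_lt_top.ne
      linarith
    · linarith
  exact le_of_mul_le_mul_left (by linarith) (volB_pos n)

lemma VolK_card {β : Type} (s : Finset β) (k : ℕ) :
    (s.powerset.filter fun Y => Y.card ≤ k).card ≤ (s.card + 1) ^ k := by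
  classical
  have h : ∀ k, ∑ i ∈ Finset.range (k + 1), s.card ^ i ≤ (s.card + 1) ^ k := fun k => by
    induction k with
    | zero => simp
    | succ k ih =>
      rw [Finset.sum_range_succ, pow_succ, pow_succ, mul_add, mul_one, add_comm]
      gcongr
      exact Nat.le_succ _
  refine le_trans (Finset.card_le_card (t := (Finset.range (k + 1)).biUnion (s.powersetCard ·))
    fun Y hY => ?_) (Finset.card_biUnion_le.trans (le_trans (Finset.sum_le_sum fun i _ => ?_) (h k)))
  · simpa [Nat.lt_succ_iff, and_comm] using hY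
  · rw [Finset.card_powersetCard]
    exact Nat.choose_le_pow _ _

open Classical in
/-- At most `(|ZB| + 1)^{2ⁿ n³}` subsets of `ZB n` of size `≤ 2ⁿ n³`. -/
theorem card_adm : ∃ n₀ : ℕ, ∀ n : ℕ, n₀ ≤ n →
    (((ZB n).powerset.filter fun Y => Y.card ≤ 2 ^ n * n ^ 3).card : ℝ) *
      Real.exp (-(12 / 5 : ℝ) ^ n) < 1 / 3 := by
  obtain ⟨n₀, h⟩ := Filter.eventually_atTop.1 ((tendsto_pow_const_div_const_pow_of_one_lt 5
    (show (1 : ℝ) < 6 / 5 by norm_num)).eventually_le_const (show (0 : ℝ) < 1 / 8 by norm_num))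
  refine ⟨n₀ + 1, fun n hn => ?_⟩
  have h0 : (1 : ℝ) ≤ n := by exact_mod_cast (by omega)
  have h1 := (div_le_iff₀ (by positivity)).1 (h n (by omega))
  have h2 : (ZB n).card + 1 ≤ (6 * n ^ 3 + 1 + 1) ^ n := by
    rw [card_ZB]
    exact Nat.pow_lt_pow_left (Nat.lt_succ_self _) (by omega)
  have h3 : (6 * n ^ 3 + 1 + 1 : ℝ) ≤ Real.exp (2 * n) ^ 3 :=
    le_trans (by nlinarith [one_le_pow₀ (n := 3) h0]) (pow_le_pow_left₀ (by positivity)
      ((le_add_of_nonneg_right zero_le_one).trans (Real.add_one_le_exp (2 * n))) 3)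
  have h4 : (((ZB n).powerset.filter fun Y => Y.card ≤ 2 ^ n * n ^ 3).card : ℝ) ≤
      ((6 * n ^ 3 + 1 + 1) ^ n) ^ (2 ^ n * n ^ 3) := by
    exact_mod_cast (VolK_card _ _).trans (Nat.pow_le_pow_left h2 _)
  have h5 : (12 / 5 : ℝ) ^ n = 2 ^ n * (6 / 5) ^ n := by
    rw [← mul_pow]
    norm_num
  have h6 : (1 : ℝ) ≤ 2 ^ n * n ^ 5 :=
    one_le_mul_of_one_le_of_one_le (one_le_pow₀ one_le_two) (one_le_pow₀ h0)
  have h7 := mul_le_mul_of_nonneg_left h1 (show (0 : ℝ) ≤ 2 ^ n by positivity)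
  calc _ ≤ ((Real.exp (2 * n) ^ 3) ^ n) ^ (2 ^ n * n ^ 3) * Real.exp (-(12 / 5 : ℝ) ^ n) := by
        refine mul_le_mul_of_nonneg_right (h4.trans ?_) (Real.exp_nonneg _)
        gcongr
    _ ≤ Real.exp (-2) := by
        rw [← Real.exp_nat_mul, ← Real.exp_nat_mul, ← Real.exp_nat_mul, ← Real.exp_add,
          Real.exp_le_exp, h5]
        push_cast
        linarith
    _ < 1 / 3 := by
        rw [Real.exp_neg, one_div]
        exact inv_strictAnti₀ (by norm_num) (by linarith [Real.add_one_lt_exp two_ne_zero])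

end Crest.Agent.R225
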