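import Crest.Agent.R225.Ground
import Crest.Agent.R225.Kill
import Crest.Agent.R225.VolK
import Crest.Agent.R225.Avg

/-! Task `R225 Final348`: assembly of the lower bound. -/

set_option autoImplicit false
open MeasureTheory Filter
open scoped ENNReal

namespace Crest.Agent.R225

open scoped RealInnerProductSpace in
/-- A killed test point cannot be covered. -/
lemma F348_cover {n : ℕ} (hn : 1 ≤ n) {α : Type} {u : α → E n} (hu : ∀ a, ‖u a‖ ^ 2 ≤ 403 * n)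
    {ω : Finset α} {Y : Finset (Fin n → ℤ)} {x y : Fin n → ℤ} (hk : Killed u ω Y x) (hy : y ∈ Y)
    {z p : E n} (hp : gp x + z - p ∈ Kb u ω) (hpy : ‖p - z - gp y‖ ≤ 1 / (n : ℝ) ^ 2) : False := by
  have e : gp x - gp y = (gp x + z - p) + (p - z - gp y) := by abel
  obtain ⟨a, ha, hth⟩ := hk y hy (by
    rw [e]; exact (norm_add_le _ _).trans (add_le_add hp.1 hpy))
  have h1 := (le_abs_self _).trans (hp.2 a ha)
  have hn0 : (0 : ℝ) ≤ n := Nat.cast_nonneg n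
  have h2 : ‖u a‖ ≤ 21 * √n := by
    refine abs_le_of_sq_le_sq' ?_ (by positivity) |>.2
    rw [mul_pow, Real.sq_sqrt hn0]
    have := hu a
    linarith
  have h3 : ⟪u a, p - z - gp y⟫ ≤ 21 * √n / (n : ℝ) ^ 2 := by
    refine (real_inner_le_norm _ _).trans ?_
    rw [div_eq_mul_one_div]
    exact mul_le_mul h2 hpy (norm_nonneg _) (by positivity)
  rw [e, inner_add_right, th0] at hth
  linarith

/-- A good `ω`. -/
lemma F348_omega : ∃ c₁ : ℝ, 0 < c₁ ∧ ∃ n₀ : ℕ, ∀ n : ℕ, n₀ ≤ n → ∀ m : ℝ, 0 ≤ m →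
    m ≤ c₁ * n * Real.log n → ∃ (N : ℕ) (u : Fin N → E n) (ω : Finset (Fin N)),
      (∀ a, ‖u a‖ ^ 2 ≤ 403 * n) ∧ volB n / 4 ≤ volume.real (Kb u ω) ∧
      ∀ Y, Adm m Y → ∃ x ∈ Tn n, Killed u ω Y x := by
  classical
  obtain ⟨cL, hcL, hcL1, n₁, hG⟩ := exists_ground
  obtain ⟨c₁, hc₁, n₂, hK⟩ := kill cL hcL hcL1
  obtain ⟨n₃, hA⟩ := card_adm
  refine ⟨c₁, hc₁, n₁ + n₂ + n₃ + 1, fun n hn m hm0 hm => ?_⟩
  obtain ⟨N, u, lam, G⟩ := hG n (by omega)
  have h0 : ∀ a, 0 ≤ qOf lam a := fun a => by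
    have := Real.exp_le_one_iff.2 (neg_nonpos.2 (G.nonneg a))
    unfold qOf; linarith
  have h1 : ∀ a, qOf lam a ≤ 1 := fun a => by
    have := Real.exp_pos (-lam a)
    unfold qOf; linarith
  set S := ((ZB n).powerset.filter fun Y => Y.card ≤ 2 ^ n * n ^ 3).filter (Adm m) with hS
  have b1 := bP_exists_le h0 h1 S
    (fun Y ω => ∀ x ∈ Tn n, GoodPt m Y x → ¬ Killed u ω Y x)
  have b2 : ∑ Y ∈ S, bP (qOf lam) (fun ω => ∀ x ∈ Tn n, GoodPt m Y x → ¬ Killed u ω Y x) ≤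
      S.card * Real.exp (-(12 / 5 : ℝ) ^ n) := by
    rw [← nsmul_eq_mul]
    exact Finset.sum_le_card_nsmul _ _ _ fun Y hY =>
      hK n (by omega) _ u lam G m Y hm0 hm (Finset.mem_filter.1 hY).2
  have b3 : (S.card : ℝ) * Real.exp (-(12 / 5 : ℝ) ^ n) < 1 / 3 := by
    refine lt_of_le_of_lt ?_ (hA n (by omega))
    refine mul_le_mul_of_nonneg_right ?_ (Real.exp_pos _).le
    exact_mod_cast Finset.card_filter_le _ _
  have b4 := volK_prob G (by omega)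
  have b5 := bP_not (q := qOf lam)
    (fun ω => ∃ Y ∈ S, ∀ x ∈ Tn n, GoodPt m Y x → ¬ Killed u ω Y x)
  obtain ⟨ω, hω1, hω2⟩ := exists_of_one_lt_bP h0 h1
    (A := fun ω => volB n / 4 ≤ volume.real (Kb u ω))
    (B := fun ω => ¬ ∃ Y ∈ S, ∀ x ∈ Tn n, GoodPt m Y x → ¬ Killed u ω Y x) (by linarith)
  refine ⟨N, u, ω, G.norm_le, hω1, fun Y hY => ?_⟩
  by_contra hc
  refine hω2 ⟨Y, ?_, fun x hx _ hk => hc ⟨x, hx, hk⟩⟩
  exact Finset.mem_filter.2 ⟨Finset.mem_filter.2 ⟨Finset.mem_powerset.2 hY.1, hY.2.1⟩, hY⟩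

/-- `c = min c₁ 1 / 400`, `ρ = 4 c n log n`, `m = 100 ρ`. Union bound (`kill`, `card_adm`) and
`volK_prob` give `ω` with `vol K ≥ vol B / 4` such that every admissible `Y` has a killed good
test point. If the upper density of `X` were `< δ = ρ / vol B`, `exists_adm` gives `z, Y`; the
point `gp x + z` is covered by some `p ∈ X`, whose rounding `y` contradicts `Killed`. -/
theorem lower_E : ∃ c : ℝ, 0 < c ∧ ∃ n₀ : ℕ, ∀ n : ℕ, n₀ ≤ n →
    ∃ K : Set (E n), IsCompact K ∧ Convex ℝ K ∧ (interior K).Nonempty ∧ (∀ x ∈ K, -x ∈ K) ∧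
      ∀ X : Set (E n), (∀ R : ℝ, (X ∩ {x | ∀ i, |x i| ≤ R}).Finite) →
        (∀ y : E n, ∃ x ∈ X, y - x ∈ K) →
        ENNReal.ofReal (c * n * Real.log n) ≤
          volume K * limsup (fun R : ℝ => ((X ∩ {x | ∀ i, |x i| ≤ R}).ncard : ℝ≥0∞) /
            ENNReal.ofReal ((2 * R) ^ n)) atTop := by
  classical
  obtain ⟨c₁, hc₁, n₁, hω⟩ := F348_omega
  obtain ⟨n₂, hA⟩ := exists_adm
  have hmin : 0 < min c₁ 1 := lt_min hc₁ one_pos
  refine ⟨min c₁ 1 / 400, by positivity, n₁ + n₂ + 2, fun n hn => ?_⟩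
  have hn2 : (2 : ℝ) ≤ n := by exact_mod_cast (by omega : 2 ≤ n)
  have hlog : 0 < Real.log n := Real.log_pos (by linarith)
  have hnl : 0 < (n : ℝ) * Real.log n := by positivity
  set ρ := min c₁ 1 / 100 * (n * Real.log n) with hρ
  have hρ0 : 0 < ρ := by positivity
  obtain ⟨N, u, ω, hu, hvol, hkill⟩ := hω n (by omega) (100 * ρ) (by positivity) (by
    have := mul_le_mul_of_nonneg_right (min_le_left c₁ 1) hnl.le
    rw [hρ]; linarith)
  obtain ⟨k1, k2, k3, k4⟩ := Kb_body (by omega : 1 ≤ n) u ω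
  refine ⟨Kb u ω, k1, k2, k3, k4, fun X hX hcov => ?_⟩
  have hB := volB_pos n
  by_contra hlt
  have hlim : limsup (fun R : ℝ => ((X ∩ {x | ∀ i, |x i| ≤ R}).ncard : ℝ≥0∞) /
      ENNReal.ofReal ((2 * R) ^ n)) atTop < ENNReal.ofReal (ρ / volB n) := by
    by_contra hge
    refine hlt ?_
    have v1 : ENNReal.ofReal (volB n / 4) ≤ volume (Kb u ω) :=
      ENNReal.ofReal_le_of_le_toReal hvol
    refine le_trans (le_of_eq ?_) (mul_le_mul' v1 (not_lt.1 hge))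
    rw [← ENNReal.ofReal_mul (by positivity)]
    congr 1
    rw [hρ]
    field_simp
    norm_num
  have hev : ∀ᶠ R : ℝ in atTop,
      ((X ∩ {x | ∀ i, |x i| ≤ R}).ncard : ℝ) ≤ ρ / volB n * (2 * R) ^ n := by
    filter_upwards [eventually_lt_of_limsup_lt hlim, eventually_gt_atTop 0] with R hR hR0
    have hp : 0 < (2 * R) ^ n := by positivity
    rw [← ENNReal.ofReal_natCast, ← ENNReal.ofReal_div_of_pos hp,
      ENNReal.ofReal_lt_ofReal_iff (by positivity), div_lt_iff₀ hp] at hR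
    exact hR.le
  obtain ⟨z, Y, hY, hnear⟩ := hA n (by omega) X hX (ρ / volB n) ρ (by positivity)
    (by rw [div_mul_cancel₀ _ hB.ne']) hρ0 (by
      have := mul_le_mul_of_nonneg_right (min_le_right c₁ 1) hnl.le
      rw [hρ]; linarith) hev
  obtain ⟨x, hx, hk⟩ := hkill Y hY
  obtain ⟨p, hp, hpK⟩ := hcov (gp x + z)
  have hx1 : ‖gp x‖ ≤ 1 := (Finset.mem_filter.1 hx).2
  obtain ⟨y, hy, hpy⟩ := hnear p hp (by
    have e : p - z = gp x - (gp x + z - p) := by abel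
    rw [e]
    have := norm_sub_le (gp x) (gp x + z - p)
    have := hpK.1
    linarith)
  exact F348_cover (by omega) hu hk hy hpK hpy

/-- Transfer along `WithLp.ofLp` (`PiLp.volume_preserving_ofLp`). This is S0348. -/
theorem lower_pi :
    ∃ c : ℝ, 0 < c ∧ ∃ n₀ : ℕ, ∀ n : ℕ, n₀ ≤ n →
      ∃ K : Set (Fin n → ℝ), IsCompact K ∧ Convex ℝ K ∧ (interior K).Nonempty ∧
        (∀ x ∈ K, -x ∈ K) ∧
        ∀ X : Set (Fin n → ℝ), (∀ R : ℝ, (X ∩ {x | ∀ i, |x i| ≤ R}).Finite) →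
          (∀ y : Fin n → ℝ, ∃ x ∈ X, y - x ∈ K) →
          ENNReal.ofReal (c * n * Real.log n) ≤
            volume K * limsup (fun R : ℝ => ((X ∩ {x | ∀ i, |x i| ≤ R}).ncard : ℝ≥0∞) /
              ENNReal.ofReal ((2 * R) ^ n)) atTop := by
  obtain ⟨c, hc, n₀, H⟩ := lower_E
  refine ⟨c, hc, n₀, fun n hn => ?_⟩
  obtain ⟨K, k1, k2, k3, k4, hK⟩ := H n hn
  let e : (Fin n → ℝ) ≃L[ℝ] E n := (PiLp.continuousLinearEquiv 2 ℝ fun _ : Fin n => ℝ).symm
  have he : ∀ x i, e x i = x i := fun _ _ => rfl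
  refine ⟨e ⁻¹' K, e.toHomeomorph.isCompact_preimage.2 k1,
    k2.linear_preimage (e : (Fin n → ℝ) →ₗ[ℝ] E n), ?_, fun x hx => ?_, fun X hX hcov => ?_⟩
  · have := e.toHomeomorph.preimage_interior K
    change e ⁻¹' interior K = interior (e ⁻¹' K) at this
    rw [← this]
    exact k3.preimage e.surjective
  · change e (-x) ∈ K
    rw [map_neg]
    exact k4 _ hx
  have hset : ∀ R : ℝ, e '' X ∩ {x | ∀ i, |x i| ≤ R} = e '' (X ∩ {x | ∀ i, |x i| ≤ R}) := by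
    intro R
    ext y
    constructor
    · rintro ⟨⟨x, hx, rfl⟩, h⟩
      exact ⟨x, ⟨hx, h⟩, rfl⟩
    · rintro ⟨x, ⟨hx, h⟩, rfl⟩
      exact ⟨⟨x, hx, rfl⟩, h⟩
  have h1 := hK (e '' X) (fun R => by rw [hset]; exact (hX R).image _) (fun y => by
    obtain ⟨x, hx, h⟩ := hcov (e.symm y)
    refine ⟨e x, ⟨x, hx, rfl⟩, ?_⟩
    change e (e.symm y - x) ∈ K at h
    rwa [map_sub, e.apply_symm_apply] at h)
  have hv : volume (e ⁻¹' K) = volume K :=
    (PiLp.volume_preserving_toLp (Fin n)).measure_preimage k1.measurableSet.nullMeasurableSet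
  simp only [hset, Set.ncard_image_of_injective _ e.injective] at h1
  rw [hv]
  exact h1

end Crest.Agent.R225
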