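import Crest.Agent.R225.LDefs
import Crest.Agent.R215.Gauss

/-! Task `R225 GTail`: Gaussian half space estimates on `E n`. -/

set_option autoImplicit false
open MeasureTheory ProbabilityTheory
open scoped RealInnerProductSpace

namespace Crest.Agent.R225

lemma GTail_real (S : Set ℝ) : (gaussianReal 0 1).real S = ∫ x in S, g1 x := by
  rw [Measure.real, gaussianReal_apply_eq_integral _ one_ne_zero,
    ENNReal.toReal_ofReal (integral_nonneg fun x => gaussianPDFReal_nonneg _ _ _)]
  simp only [g1_eq_pdf]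

lemma GTail_int : Integrable g1 := by
  rw [show g1 = gaussianPDFReal 0 1 from funext g1_eq_pdf]
  exact integrable_gaussianPDFReal 0 1

lemma GTail_deriv (x : ℝ) : HasDerivAt (fun x => -g1 x) (x * g1 x) x := by
  have h : HasDerivAt (fun x : ℝ => -x ^ 2 / 2) (-x) x := by
    simpa [neg_div] using ((hasDerivAt_pow 2 x).neg.div_const 2)
  have h2 := (h.exp.div_const (Real.sqrt (2 * Real.pi))).neg
  refine h2.congr_deriv ?_
  unfold g1
  ring

lemma GTail_tendsto : Filter.Tendsto (fun x => -g1 x) Filter.atTop (nhds 0) := by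
  have h : Filter.Tendsto (fun x : ℝ => -x ^ 2 / 2) Filter.atTop Filter.atBot :=
    (Filter.tendsto_neg_atTop_atBot.comp (Filter.tendsto_pow_atTop two_ne_zero)).atBot_div_const
      two_pos
  have h2 := ((Real.tendsto_exp_atBot.comp h).div_const (Real.sqrt (2 * Real.pi))).neg
  rw [zero_div, neg_zero] at h2
  exact h2

/-- Mills bound `P(N > s) ≤ γ(s) / s`. -/
lemma gauss_tail_le {s : ℝ} (hs : 0 < s) :
    (gaussianReal 0 1).real (Set.Ioi s) ≤ g1 s / s := by
  have hp : ∀ x ∈ Set.Ioi s, 0 ≤ x * g1 x := fun x hx => mul_nonneg (hs.trans hx).le (g1_pos x).le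
  have h1 := integral_Ioi_of_hasDerivAt_of_nonneg' (fun x _ => GTail_deriv x) hp GTail_tendsto
  have h2 := integrableOn_Ioi_deriv_of_nonneg' (fun x _ => GTail_deriv x) hp GTail_tendsto
  rw [GTail_real, le_div_iff₀ hs, ← integral_mul_const]
  refine (setIntegral_mono_on (GTail_int.mul_const s).integrableOn h2 measurableSet_Ioi
    fun x hx => ?_).trans (by rw [h1, zero_sub, neg_neg])
  rw [mul_comm]
  exact mul_le_mul_of_nonneg_right (le_of_lt hx) (g1_pos x).le

lemma gauss_window_ge {s t : ℝ} (hs : 0 ≤ s) (ht : 0 ≤ t) :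
    t * g1 (s + t) ≤ (gaussianReal 0 1).real (Set.Ioc s (s + t)) := by
  rw [GTail_real]
  refine le_trans (le_of_eq ?_) (setIntegral_mono_on (integrableOn_const (C := g1 (s + t))
    measure_Ioc_lt_top.ne) GTail_int.integrableOn measurableSet_Ioc fun x hx => g1_anti ?_)
  · rw [setIntegral_const, Real.volume_real_Ioc_of_le (by linarith), add_sub_cancel_left,
      smul_eq_mul]
  · rw [abs_of_nonneg (hs.trans hx.1.le), abs_of_nonneg (by linarith)]
    exact hx.2

lemma stdG_half {n : ℕ} (e : E n) (he : ‖e‖ = 1) {s : ℝ} (hs : 0 < s) :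
    (stdGaussian (E n)).real {u | s < ⟪u, e⟫} ≤ g1 s / s := by
  refine le_trans (le_of_eq ?_) (gauss_tail_le hs)
  rw [← R215.map_inner_unit he, map_measureReal_apply (by fun_prop) measurableSet_Ioi]
  congr 1
  ext u
  simp only [Set.mem_ofPred_eq, Set.mem_preimage, Set.mem_Ioi, real_inner_comm]

/-- Markov on the part of `u` orthogonal to `e`: `‖u‖² - ⟪u,e⟫² = ∑ i ⟪u, e_i - e i • e⟫²`, each
term is independent of `⟪u,e⟫` (`R215.integral_eq_of_gram` with the two vectors `e`,
`e_i - e i • e`, compare with orthogonal vectors of `E 2`), total mean `n - 1 ≤ n`. -/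
lemma stdG_window {n : ℕ} (hn : 1 ≤ n) (e : E n) (he : ‖e‖ = 1) {s t : ℝ} (hs : 0 ≤ s)
    (ht : 0 ≤ t) :
    t * g1 (s + t) / 2 ≤
      (stdGaussian (E n)).real {u | s < ⟪u, e⟫ ∧ ‖u‖ ^ 2 ≤ (s + t) ^ 2 + 2 * n} := by
  obtain ⟨i₀⟩ : Nonempty (Fin n) := ⟨⟨0, hn⟩⟩
  obtain ⟨b, hb⟩ := Orthonormal.exists_orthonormalBasis_extension_of_card_eq (𝕜 := ℝ)
    (E := E n) (ι := Fin n) (by simp) (v := fun _ => e) (s := {i₀})
    ⟨fun _ => he, fun i j hij => absurd (Subsingleton.elim i j) hij⟩
  have hb0 : b i₀ = e := hb i₀ rfl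
  set P : Measure (Fin n → ℝ) := Measure.pi fun _ => gaussianReal 0 1 with hP
  have hev : ∀ i, MeasurePreserving (Function.eval i) P (gaussianReal 0 1) := fun i =>
    measurePreserving_eval _ i
  have hind : IndepFun (fun x : Fin n → ℝ => ∑ i ∈ Finset.univ.erase i₀, x i ^ 2)
      (fun x => x i₀) P := by
    have h1 := iIndepFun_pi (μ := fun _ : Fin n => gaussianReal 0 1)
      (X := fun i x => x ^ (if i = i₀ then 1 else 2)) fun i => by fun_prop
    have h2 := h1.indepFun_finsetSum_of_notMem (fun i => by fun_prop)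
      (Finset.notMem_erase i₀ Finset.univ)
    convert h2 using 1
    · ext x
      rw [Finset.sum_apply]
      exact Finset.sum_congr rfl fun i hi => by rw [if_neg (Finset.ne_of_mem_erase hi)]
    · ext x
      rw [if_pos rfl, pow_one]
  have hi2 : Integrable (fun x : ℝ => x ^ 2) (gaussianReal 0 1) :=
    (memLp_id_gaussianReal 2).integrable_sq
  have h2 : ∫ x : ℝ, x ^ 2 ∂gaussianReal 0 1 = 1 := by
    have := variance_of_integral_eq_zero (μ := gaussianReal 0 1) (X := fun x : ℝ => x)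
      (by fun_prop) integral_id_gaussianReal
    rw [variance_fun_id_gaussianReal] at this
    exact this.symm
  have hi3 : ∀ i, Integrable (fun x : Fin n → ℝ => x i ^ 2) P := fun i =>
    (hev i).integrable_comp_of_integrable hi2
  have h3 : ∀ i, ∫ x : Fin n → ℝ, x i ^ 2 ∂P = 1 := fun i => by
    rw [← h2, ← (hev i).map_eq, integral_map (hev i).measurable.aemeasurable (by fun_prop)]
  have hn' : (0 : ℝ) < n := by exact_mod_cast hn
  have hm : Measurable fun x : Fin n → ℝ => ∑ i ∈ Finset.univ.erase i₀, x i ^ 2 := by fun_prop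
  have h4 : 1 / 2 ≤ P.real ((fun x : Fin n → ℝ => ∑ i ∈ Finset.univ.erase i₀, x i ^ 2) ⁻¹'
      Set.Iio (2 * (n : ℝ))) := by
    have h5 := mul_meas_ge_le_integral_of_nonneg (μ := P)
      (f := fun x : Fin n → ℝ => ∑ i ∈ Finset.univ.erase i₀, x i ^ 2)
      (ae_of_all _ fun x => Finset.sum_nonneg fun i _ => sq_nonneg _)
      (integrable_finsetSum _ fun i _ => hi3 i) (2 * n)
    rw [integral_finsetSum _ fun i _ => hi3 i] at h5
    simp only [h3, Finset.sum_const, nsmul_eq_mul, mul_one] at h5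
    have h6 : ((Finset.univ.erase i₀).card : ℝ) ≤ n := by
      exact_mod_cast Finset.card_erase_le.trans (by simp)
    have h7 := probReal_add_probReal_compl (μ := P) (hm (measurableSet_Iio (a := 2 * (n : ℝ))))
    rw [← Set.preimage_compl, Set.compl_Iio] at h7
    have h8 : P.real ((fun x : Fin n → ℝ => ∑ i ∈ Finset.univ.erase i₀, x i ^ 2) ⁻¹'
        Set.Ici (2 * (n : ℝ))) ≤ 1 / 2 :=
      le_of_mul_le_mul_left (h5.trans (by linarith)) (by positivity : (0 : ℝ) < 2 * n)
    linarith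
  have h5 : t * g1 (s + t) ≤ P.real ((fun x : Fin n → ℝ => x i₀) ⁻¹' Set.Ioc s (s + t)) := by
    refine (gauss_window_ge hs ht).trans (le_of_eq ?_)
    exact ((hev i₀).measureReal_preimage measurableSet_Ioc.nullMeasurableSet).symm
  have h6 := congrArg ENNReal.toReal (hind.measure_inter_preimage_eq_mul _ _
    (measurableSet_Iio (a := 2 * (n : ℝ))) (measurableSet_Ioc (a := s) (b := s + t)))
  rw [ENNReal.toReal_mul] at h6
  have hS : MeasurableSet {u : E n | s < ⟪u, e⟫ ∧ ‖u‖ ^ 2 ≤ (s + t) ^ 2 + 2 * n} :=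
    (measurableSet_lt measurable_const (g := fun u : E n => ⟪u, e⟫) (by fun_prop)).inter
      (measurableSet_le (f := fun u : E n => ‖u‖ ^ 2) (by fun_prop) measurable_const)
  rw [stdGaussian_eq_map_pi_orthonormalBasis b, map_measureReal_apply (by fun_prop) hS]
  refine le_trans ?_ (le_trans (le_of_eq h6.symm) (measureReal_mono fun x hx => ?_))
  · refine le_trans (le_of_eq ?_) (mul_le_mul h4 h5 (mul_nonneg ht (g1_pos _).le)
      measureReal_nonneg)
    ring
  · obtain ⟨h7, h8, h9⟩ := hx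
    have e1 : ⟪∑ i, x i • b i, e⟫ = x i₀ := by
      rw [← hb0, b.orthonormal.inner_left_fintype, conj_trivial]
    have e2 : ‖∑ i, x i • b i‖ ^ 2 = x i₀ ^ 2 + ∑ i ∈ Finset.univ.erase i₀, x i ^ 2 := by
      rw [← real_inner_self_eq_norm_sq, b.orthonormal.inner_sum,
        Finset.add_sum_erase _ (fun i => x i ^ 2) (Finset.mem_univ i₀)]
      simp only [conj_trivial, sq]
    refine ⟨e1 ▸ h8, e2 ▸ add_le_add ?_ (le_of_lt h7)⟩
    exact pow_le_pow_left₀ (hs.trans h8.le) h9 2

end Crest.Agent.R225
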