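import Crest.Agent.R225.GTail

/-! Task `R225 Ground`: the finite ground set. -/

set_option autoImplicit false
open MeasureTheory ProbabilityTheory
open scoped RealInnerProductSpace

namespace Crest.Agent.R225

/-- Discretisation of a probability measure on `E n` by a finite `ε`-net of the ball of radius `U`
(cells: the disjointed `ε`-balls); `w a` is the mass of the
cell. -/
lemma exists_discretise {n : ℕ} (μ : Measure (E n)) [IsProbabilityMeasure μ] (U ε : ℝ)
    (hε : 0 < ε) :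
    ∃ (N : ℕ) (u : Fin N → E n) (w : Fin N → ℝ), (∀ a, 0 ≤ w a) ∧ (∀ a, ‖u a‖ ≤ U) ∧
      ∀ e : E n, ‖e‖ = 1 → ∀ s : ℝ,
        μ.real {x | s + ε < ⟪x, e⟫ ∧ ‖x‖ ≤ U - ε} ≤ ∑ a ∈ Hs u e s, w a ∧
        ∑ a ∈ Hs u e s, w a ≤ μ.real {x | s - ε < ⟪x, e⟫} := by
  obtain ⟨t, ht, hf, hc⟩ := finite_cover_balls_of_compact (isCompact_closedBall (0 : E n) U) hε
  obtain ⟨N, u, -, rfl⟩ := hf.fin_param
  have hs : ∀ a, disjointed (fun a => Metric.ball (u a) ε) a ⊆ Metric.ball (u a) ε :=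
    disjointed_subset _
  have hb : ∀ {e x : E n} {a}, ‖e‖ = 1 → x ∈ disjointed (fun a => Metric.ball (u a) ε) a →
      |⟪x, e⟫ - ⟪u a, e⟫| < ε := fun he hx => by
    rw [← inner_sub_left]
    exact (abs_real_inner_le_norm _ _).trans_lt
      (by rw [he, mul_one]; exact mem_ball_iff_norm.1 (hs _ hx))
  refine ⟨N, u, fun a => μ.real (disjointed (fun a => Metric.ball (u a) ε) a),
    fun _ => measureReal_nonneg, fun a => mem_closedBall_zero_iff.1 (ht ⟨a, rfl⟩),
    fun e he s => ⟨?_, ?_⟩⟩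
  · refine (measureReal_mono (fun x hx => ?_) (measure_ne_top _ _)).trans
      (measureReal_biUnion_finset_le _ _)
    have := hc (mem_closedBall_zero_iff.2 (hx.2.trans (sub_le_self U hε.le)))
    rw [Set.biUnion_range, ← iUnion_disjointed] at this
    obtain ⟨a, ha⟩ := Set.mem_iUnion.1 this
    refine Set.mem_biUnion (x := a) ?_ ha
    simp only [Hs, Finset.coe_filter, Finset.mem_univ, true_and, Set.mem_ofPred_eq]
    linarith [(abs_lt.1 (hb he ha)).2, hx.1]
  · rw [← measureReal_biUnion_finset ((disjoint_disjointed _).set_pairwise _) fun a _ => ?_]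
    · refine measureReal_mono (Set.iUnion₂_subset fun a ha x hx => ?_)
      simp only [Hs, Finset.mem_filter, Finset.mem_univ, true_and] at ha
      rw [Set.mem_ofPred_eq]
      linarith [(abs_lt.1 (hb he hx)).1]
    · rw [disjointed_apply, Finset.sup_set_eq_biUnion]
      exact measurableSet_ball.diff (Finset.measurableSet_biUnion _ fun _ _ => measurableSet_ball)

lemma Ground_g1 (U c x : ℝ) :
    U / 16 * (√(2 * Real.pi) * Real.exp (c / 2)) * g1 x = U / 16 * Real.exp ((c - x ^ 2) / 2) := by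
  have : 0 < √(2 * Real.pi) := by positivity
  rw [g1, show (c - x ^ 2) / 2 = c / 2 + -x ^ 2 / 2 by ring, Real.exp_add]
  field_simp

lemma Ground_up {U ε s c : ℝ} (hU : 20 ≤ U) (hε : 0 < ε) (h : U * ε = 1 / 100) (h1 : U ≤ 2 * s)
    (h2 : s ≤ U) :
    U / 16 * Real.exp ((c - (s - ε) ^ 2) / 2) / (s - ε) ≤ 1 / 4 * Real.exp ((c - s ^ 2) / 2) := by
  have h3 : ε ≤ 1 := by nlinarith
  have h4 : Real.exp ((c - (s - ε) ^ 2) / 2) * Real.exp (-(1 / 100)) ≤
      Real.exp ((c - s ^ 2) / 2) := by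
    rw [← Real.exp_add]
    exact Real.exp_le_exp.2 (by nlinarith)
  have h5 := Real.add_one_le_exp (-(1 / 100))
  have h6 := Real.exp_pos ((c - (s - ε) ^ 2) / 2)
  have h7 : Real.exp ((c - (s - ε) ^ 2) / 2) ≤ 4 / 3 * Real.exp ((c - s ^ 2) / 2) := by nlinarith
  rw [div_le_iff₀ (by linarith)]
  have h8 := mul_le_mul (show U ≤ 3 * (s - ε) by linarith) h7 h6.le (by linarith)
  linarith

/-- `τ = 20 √n`, `U = √(403 n)`, `lam = M w`, `M = U / (16 γ(τ))`, `ε = 1 / (100 U)`.
Upper bound: empty for `s ≥ U`, else `stdG_half` at `s - ε`. Lower bound: `stdG_window` at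
`s + ε`, `t = 1 / U`. -/
theorem exists_ground : ∃ cL : ℝ, 0 < cL ∧ cL ≤ 1 ∧ ∃ n₀ : ℕ, ∀ n : ℕ, n₀ ≤ n →
    ∃ (N : ℕ) (u : Fin N → E n) (lam : Fin N → ℝ), Gnd cL u lam := by
  refine ⟨Real.exp (-(3 / 2)) / 32, by positivity, ?_, 7, fun n hn => ?_⟩
  · linarith [Real.exp_le_one_iff.2 (show (-(3 / 2) : ℝ) ≤ 0 by norm_num)]
  have hn' : (7 : ℝ) ≤ n := by exact_mod_cast hn
  obtain ⟨U, hU0, hU⟩ : ∃ U : ℝ, 0 ≤ U ∧ U ^ 2 = 403 * n :=
    ⟨√(403 * n), Real.sqrt_nonneg _, Real.sq_sqrt (by positivity)⟩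
  have hU1 : 20 ≤ U := by nlinarith
  obtain ⟨ε, hε, h⟩ : ∃ ε : ℝ, 0 < ε ∧ U * ε = 1 / 100 :=
    ⟨1 / (100 * U), by positivity, by field_simp⟩
  have hε1 : ε ≤ 1 / 2000 := by nlinarith
  obtain ⟨N, u, w, hw, hu, hH⟩ := exists_discretise (stdGaussian (E n)) U ε hε
  have hM : 0 ≤ U / 16 * (√(2 * Real.pi) * Real.exp (400 * n / 2)) := by positivity
  refine ⟨N, u, fun a => U / 16 * (√(2 * Real.pi) * Real.exp (400 * n / 2)) * w a,
    fun a => mul_nonneg hM (hw a), fun a => hU ▸ pow_le_pow_left₀ (norm_nonneg _) (hu a) 2,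
    fun e he s hs h1 => ?_, fun e he s hs h1 h2 => ?_⟩
  · rcases le_total U s with h2 | h2
    · rw [Finset.sum_eq_zero fun a ha => ?_]
      · positivity
      simp only [Hs, Finset.mem_filter, Finset.mem_univ, true_and] at ha
      have := real_inner_le_norm (u a) e
      rw [he, mul_one] at this
      linarith [hu a]
    have h3 : U ≤ 2 * s := by nlinarith
    rw [← Finset.mul_sum]
    refine (mul_le_mul_of_nonneg_left ((hH e he s).2.trans
      (stdG_half e he (by linarith))) hM).trans ?_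
    rw [← mul_div_assoc, Ground_g1]
    exact Ground_up hU1 hε h h3 h2
  · have h3 : s ≤ U := by nlinarith
    have h4 : (s + ε + 100 * ε) ^ 2 ≤ s ^ 2 + 3 := by nlinarith
    rw [← Finset.mul_sum]
    refine le_trans ?_ (mul_le_mul_of_nonneg_left (((stdG_window (by omega) e he (s := s + ε)
      (t := 100 * ε) (by positivity) (by positivity)).trans
      (measureReal_mono fun x hx => And.intro hx.1 ?_)).trans (hH e he s).1) hM)
    · rw [← mul_div_assoc, mul_left_comm, Ground_g1, ← mul_assoc,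
        show 100 * ε * (U / 16) = 1 / 16 by linarith]
      have h5 : Real.exp (-(3 / 2)) * Real.exp ((400 * n - s ^ 2) / 2) ≤
          Real.exp ((400 * n - (s + ε + 100 * ε) ^ 2) / 2) := by
        rw [← Real.exp_add]
        exact Real.exp_le_exp.2 (by linarith)
      linarith
    · exact (pow_le_pow_iff_left₀ (norm_nonneg _) (by linarith) two_ne_zero).1
        (hx.2.trans (by nlinarith))

end Crest.Agent.R225
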