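import Crest.Agent.R225.LDefs

/-! Task `R225 Harris`: basic calculus of the product Bernoulli measure, Harris, independence. -/

set_option autoImplicit false

namespace Crest.Agent.R225

variable {α : Type} [Fintype α] [DecidableEq α] {q : α → ℝ}

lemma bw_nonneg (h0 : ∀ a, 0 ≤ q a) (h1 : ∀ a, q a ≤ 1) (ω : Finset α) : 0 ≤ bw q ω := by
  refine Finset.prod_nonneg fun a _ => ?_
  split_ifs
  exacts [h0 a, sub_nonneg.2 (h1 a)]

/-- `∑ ω, bw q ω * ∏ a ∈ ω ∩ S, f a = ∏ a ∈ S, (1 - q a + q a * f a)` (`Finset.prod_add`). -/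
lemma bE_prod (S : Finset α) (f : α → ℝ) :
    bE q (fun ω => ∏ a ∈ ω ∩ S, f a) = ∏ a ∈ S, (1 - q a + q a * f a) := by
  have h : ∀ ω : Finset α, bw q ω * ∏ a ∈ ω ∩ S, f a =
      (∏ a ∈ ω, q a * if a ∈ S then f a else 1) * ∏ a ∈ ωᶜ, (1 - q a) := fun ω => by
    rw [bw, Finset.prod_mul_distrib, Finset.prod_ite_mem, ← Finset.prod_mul_prod_compl ω,
      Finset.prod_congr rfl fun a ha => if_pos ha,
      Finset.prod_congr rfl fun a ha => if_neg (Finset.mem_compl.1 ha), mul_right_comm]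
  rw [bE, Finset.sum_congr rfl fun ω _ => h ω, ← Fintype.prod_add, ← Finset.prod_mul_prod_compl S,
    Finset.prod_eq_one (s := Sᶜ) fun a ha => by rw [if_neg (Finset.mem_compl.1 ha)]; ring, mul_one]
  exact Finset.prod_congr rfl fun a ha => by rw [if_pos ha, add_comm]

lemma Hr_sum_bw : ∑ ω, bw q ω = 1 := by
  simpa [bE] using bE_prod (q := q) ∅ fun _ => 1

lemma bE_const (c : ℝ) : bE q (fun _ => c) = c := by
  rw [bE, ← Finset.sum_mul, Hr_sum_bw, one_mul]

lemma Hr_bE_add (f g : Finset α → ℝ) : bE q (fun ω => f ω + g ω) = bE q f + bE q g := by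
  simp only [bE, mul_add, Finset.sum_add_distrib]

lemma Hr_bE_sum {J : Type*} (s : Finset J) (f : J → Finset α → ℝ) :
    bE q (fun ω => ∑ j ∈ s, f j ω) = ∑ j ∈ s, bE q (f j) := by
  simp only [bE, Finset.mul_sum]
  exact Finset.sum_comm

lemma Hr_bE_const_mul (c : ℝ) (f : Finset α → ℝ) : bE q (fun ω => c * f ω) = c * bE q f := by
  simp only [bE, Finset.mul_sum, mul_left_comm]

lemma bE_mono (h0 : ∀ a, 0 ≤ q a) (h1 : ∀ a, q a ≤ 1) {f g : Finset α → ℝ}
    (h : ∀ ω, f ω ≤ g ω) : bE q f ≤ bE q g := by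
  exact Finset.sum_le_sum fun ω _ => mul_le_mul_of_nonneg_left (h ω) (bw_nonneg h0 h1 ω)

lemma bP_nonneg (h0 : ∀ a, 0 ≤ q a) (h1 : ∀ a, q a ≤ 1) (A : Finset α → Prop) :
    0 ≤ bP q A := by
  refine (bE_const 0).ge.trans (bE_mono h0 h1 fun ω => ?_)
  split_ifs <;> norm_num

lemma bP_mono (h0 : ∀ a, 0 ≤ q a) (h1 : ∀ a, q a ≤ 1) {A B : Finset α → Prop}
    (h : ∀ ω, A ω → B ω) : bP q A ≤ bP q B := by
  refine bE_mono h0 h1 fun ω => ?_
  by_cases hA : A ω
  · rw [if_pos hA, if_pos (h ω hA)]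
  · rw [if_neg hA]
    split_ifs <;> norm_num

lemma bP_le_one (h0 : ∀ a, 0 ≤ q a) (h1 : ∀ a, q a ≤ 1) (A : Finset α → Prop) :
    bP q A ≤ 1 := by
  refine (bE_mono h0 h1 fun ω => ?_).trans (bE_const 1).le
  split_ifs <;> norm_num

lemma bP_not (A : Finset α → Prop) : bP q (fun ω => ¬ A ω) = 1 - bP q A := by
  rw [eq_sub_iff_add_eq, bP, bP, ← Hr_bE_add]
  refine Eq.trans (congrArg _ (funext fun ω => ?_)) (bE_const 1)
  by_cases h : A ω <;> simp [h]

lemma bP_exists_le (h0 : ∀ a, 0 ≤ q a) (h1 : ∀ a, q a ≤ 1) {J : Type*} (s : Finset J)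
    (A : J → Finset α → Prop) : bP q (fun ω => ∃ j ∈ s, A j ω) ≤ ∑ j ∈ s, bP q (A j) := by
  unfold bP
  rw [← Hr_bE_sum]
  refine bE_mono h0 h1 fun ω => ?_
  split_ifs with h
  · obtain ⟨j, hj, hp⟩ := h
    refine le_trans ?_ (Finset.single_le_sum
      (f := fun j => @ite ℝ (A j ω) (Classical.propDecidable _) 1 0)
      (fun i _ => by split_ifs <;> norm_num) hj)
    rw [if_pos hp]
  · exact Finset.sum_nonneg fun i _ => by split_ifs <;> norm_num

/-- If two events have total probability `> 1` they meet. -/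
lemma exists_of_one_lt_bP (h0 : ∀ a, 0 ≤ q a) (h1 : ∀ a, q a ≤ 1) {A B : Finset α → Prop}
    (h : 1 < bP q A + bP q B) : ∃ ω, A ω ∧ B ω := by
  by_contra hn
  have := bP_mono h0 h1 (A := A) (B := fun ω => ¬ B ω) fun ω hA hB => hn ⟨ω, hA, hB⟩
  rw [bP_not] at this
  linarith

lemma Hr_bE_cond (O : Finset α) (f : Finset α → ℝ) :
    bE q f = bE q fun σ => bE q fun ω => f (σ ∩ O ∪ ω \ O) := by
  have hi : Function.Involutive fun x : Finset α × Finset α =>
      (x.1 ∩ O ∪ x.2 \ O, x.2 ∩ O ∪ x.1 \ O) := fun x => by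
    ext a <;> by_cases h : a ∈ O <;> simp [h]
  calc bE q f = ∑ x : Finset α × Finset α, bw q x.1 * bw q x.2 * f x.1 := by
        simp only [bE, Fintype.sum_prod_type, ← Finset.sum_mul, ← Finset.mul_sum, Hr_sum_bw, mul_one]
    _ = ∑ x : Finset α × Finset α, bw q x.1 * (bw q x.2 * f (x.1 ∩ O ∪ x.2 \ O)) := by
        rw [← Equiv.sum_comp hi.toPerm]
        refine Finset.sum_congr rfl fun x _ => ?_
        rw [← mul_assoc]
        congr 1
        simp only [bw, ← Finset.prod_mul_distrib, Function.Involutive.coe_toPerm]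
        refine Finset.prod_congr rfl fun a _ => ?_
        by_cases h : a ∈ O <;> simp [h, mul_comm]
    _ = _ := by simp only [bE, Fintype.sum_prod_type, Finset.mul_sum]

/-- Independence of functions of disjoint blocks of coordinates. -/
lemma bE_indep {S T : Finset α} (hd : Disjoint S T) {f g : Finset α → ℝ}
    (hf : ∀ ω, f ω = f (ω ∩ S)) (hg : ∀ ω, g ω = g (ω ∩ T)) :
    bE q (fun ω => f ω * g ω) = bE q f * bE q g := by
  rw [Hr_bE_cond S, mul_comm, ← Hr_bE_const_mul]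
  congr 1
  funext σ
  rw [mul_comm, ← Hr_bE_const_mul]
  congr 1
  funext ω
  rw [hf, hg, hf σ, hg ω]
  congr 2
  · ext a
    by_cases h : a ∈ S <;> simp [h]
  · ext a
    by_cases h : a ∈ T
    · simp [h, Finset.disjoint_right.1 hd h]
    · simp [h]

/-- Conditioning on the trace on `O`. -/
lemma bE_cond (O : Finset α) (f : Finset α → ℝ) :
    bE q f = bE q fun σ => bE q fun ω => f (σ ∩ O ∪ ω \ O) := by
  exact Hr_bE_cond O f

/-- Harris inequality (Mathlib `fkg` on the lattice `Finset α`; `bw q` is log-modular). -/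
theorem harris (h0 : ∀ a, 0 ≤ q a) (h1 : ∀ a, q a ≤ 1) {A B : Finset α → Prop}
    (hA : Monotone A) (hB : Monotone B) : bP q A * bP q B ≤ bP q fun ω => A ω ∧ B ω := by
  classical
  have hm : ∀ {A : Finset α → Prop}, Monotone A → Monotone fun ω => if A ω then (1 : ℝ) else 0 :=
    fun {A} hA ω ω' h => by
      by_cases h' : A ω
      · simp only [if_pos h', if_pos (hA h h'), le_refl]
      · simp only [if_neg h']
        split_ifs <;> norm_num
  have hp : ∀ A : Finset α → Prop, 0 ≤ fun ω => if A ω then (1 : ℝ) else 0 := fun A ω => by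
    simp only [Pi.zero_apply]
    split_ifs <;> norm_num
  have := fkg _ _ (bw q) (bw_nonneg h0 h1) (hp A) (hp B) (hm hA) (hm hB) fun a b => by
    simp only [bw, ← Finset.prod_mul_distrib]
    refine le_of_eq (Finset.prod_congr rfl fun x _ => ?_)
    by_cases ha : x ∈ a <;> by_cases hb : x ∈ b <;> simp [ha, hb, mul_comm]
  rw [Hr_sum_bw, one_mul] at this
  refine this.trans_eq (Finset.sum_congr rfl fun ω _ => ?_)
  by_cases ha : A ω <;> by_cases hb : B ω <;> simp [ha, hb]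

/-- Harris for an up-set and a down-set. -/
theorem harris_anti (h0 : ∀ a, 0 ≤ q a) (h1 : ∀ a, q a ≤ 1) {A B : Finset α → Prop}
    (hA : Monotone A) (hB : Antitone B) : (bP q fun ω => A ω ∧ B ω) ≤ bP q A * bP q B := by
  have h2 := harris h0 h1 hA (B := fun ω => ¬ B ω) fun ω ω' h hn hb => hn (hB h hb)
  have h3 : (bP q fun ω => A ω ∧ B ω) + (bP q fun ω => A ω ∧ ¬ B ω) = bP q A := by
    rw [bP, bP, bP, ← Hr_bE_add]
    congr 1
    funext ω
    by_cases ha : A ω <;> by_cases hb : B ω <;> simp [ha, hb]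
  rw [bP_not] at h2
  linarith

lemma bP_miss (lam : α → ℝ) (C : Finset α) :
    bP (qOf lam) (fun ω => ¬ (ω ∩ C).Nonempty) = Real.exp (-∑ a ∈ C, lam a) := by
  have h := bE_prod (q := qOf lam) C fun _ => 0
  rw [← Finset.sum_neg_distrib, Real.exp_sum]
  refine Eq.trans ?_ (h.trans (Finset.prod_congr rfl fun a _ => by rw [qOf]; ring))
  rw [bP]
  congr 1
  funext ω
  rw [Finset.prod_const]
  split_ifs with h
  · rw [zero_pow h.card_pos.ne']
  · rw [Finset.not_nonempty_iff_eq_empty.1 h, Finset.card_empty, pow_zero]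

end Crest.Agent.R225
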