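import Crest.Agent.R225.Harris

/-! Task `R225 Janson`: Janson's inequality for general up-sets (Boppana–Spencer proof). -/

set_option autoImplicit false

namespace Crest.Agent.R225

variable {α : Type} [Fintype α] [DecidableEq α] {q : α → ℝ}

lemma jn_split (A B : Finset α → Prop) :
    bP q B = bP q (fun ω => A ω ∧ B ω) + bP q (fun ω => ¬ A ω ∧ B ω) := by
  unfold bP bE
  rw [← Finset.sum_add_distrib]
  refine Finset.sum_congr rfl fun ω _ => ?_
  by_cases hA : A ω <;> by_cases hB : B ω <;> simp [hA, hB]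

lemma jn_congr {A B : Finset α → Prop} (h : ∀ ω, A ω ↔ B ω) : bP q A = bP q B := by
  have : A = B := funext fun ω => propext (h ω)
  rw [this]

lemma jn_indep {S T : Finset α} (hd : Disjoint S T) {A B : Finset α → Prop}
    (hA : ∀ ω, A ω ↔ A (ω ∩ S)) (hB : ∀ ω, B ω ↔ B (ω ∩ T)) :
    bP q (fun ω => A ω ∧ B ω) = bP q A * bP q B := by
  classical
  unfold bP
  rw [← bE_indep hd (fun ω => by simp only [← hA ω]) (fun ω => by simp only [← hB ω])]
  congr 1
  funext ω
  by_cases h1 : A ω <;> by_cases h2 : B ω <;> simp [h1, h2]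

open Classical in
lemma jn_step (h0 : ∀ a, 0 ≤ q a) (h1 : ∀ a, q a ≤ 1) {I : Type} [DecidableEq I]
    (A : I → Finset α → Prop) (S : I → Finset α) (hA : ∀ i, Monotone (A i))
    (hS : ∀ i ω, A i ω ↔ A i (ω ∩ S i)) (s : Finset I) (i : I) :
    bP q (fun ω => ¬ A i ω ∧ ∀ j ∈ s, ¬ A j ω) ≤
      bP q (fun ω => ∀ j ∈ s, ¬ A j ω) *
        Real.exp (-bP q (A i) + ∑ j ∈ s.filter (fun j => ¬ Disjoint (S i) (S j)),
          bP q fun ω => A i ω ∧ A j ω) := by
  set B : Finset α → Prop := fun ω => ∀ j ∈ s, ¬ A j ω with hB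
  set T : Finset α → Prop := fun ω => ∀ j ∈ s.filter (fun j => Disjoint (S i) (S j)), ¬ A j ω
    with hT
  set N : Finset α → Prop := fun ω => ∃ j ∈ s.filter (fun j => ¬ Disjoint (S i) (S j)), A j ω
    with hN
  set δ := ∑ j ∈ s.filter (fun j => ¬ Disjoint (S i) (S j)), bP q fun ω => A i ω ∧ A j ω with hδ
  have hBT : ∀ ω, B ω ↔ ¬ N ω ∧ T ω := by
    intro ω
    simp only [hB, hT, hN, Finset.mem_filter]
    constructor
    · intro h
      exact ⟨fun ⟨j, hj, hj'⟩ => h j hj.1 hj', fun j hj => h j hj.1⟩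
    · rintro ⟨h, h'⟩ j hj hAj
      by_cases hd : Disjoint (S i) (S j)
      · exact h' j ⟨hj, hd⟩ hAj
      · exact h ⟨j, ⟨hj, hd⟩, hAj⟩
  have hind : bP q (fun ω => A i ω ∧ T ω) = bP q (A i) * bP q T := by
    refine jn_indep (S := S i)
      (T := (s.filter (fun j => Disjoint (S i) (S j))).biUnion S) ?_ (hS i) ?_
    · rw [Finset.disjoint_biUnion_right]
      intro j hj
      exact (Finset.mem_filter.1 hj).2
    · intro ω
      simp only [hT]
      refine forall₂_congr fun j hj => not_congr ?_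
      rw [hS j (ω ∩ _), Finset.inter_assoc,
        Finset.inter_eq_right.2 (Finset.subset_biUnion_of_mem S hj)]
      exact hS j ω
  have hTanti : Antitone T := by
    intro ω ω' hω h j hj hAj
    exact h j hj (hA j hω hAj)
  have hNmono : Monotone (fun ω => A i ω ∧ N ω) := by
    rintro ω ω' hω ⟨h, j, hj, hAj⟩
    exact ⟨hA i hω h, j, hj, hA j hω hAj⟩
  have hhar := harris_anti h0 h1 hNmono hTanti
  have hun : bP q (fun ω => A i ω ∧ N ω) ≤ δ := by
    refine le_trans (bP_mono h0 h1 ?_) (bP_exists_le h0 h1 _ (fun j ω => A i ω ∧ A j ω))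
    rintro ω ⟨h, j, hj, hAj⟩
    exact ⟨j, hj, h, hAj⟩
  have hs1 := jn_split (q := q) N (fun ω => A i ω ∧ T ω)
  have e1 : bP q (fun ω => N ω ∧ A i ω ∧ T ω) = bP q (fun ω => (A i ω ∧ N ω) ∧ T ω) :=
    jn_congr fun ω => by tauto
  have e2 : bP q (fun ω => ¬ N ω ∧ A i ω ∧ T ω) = bP q (fun ω => A i ω ∧ B ω) :=
    jn_congr fun ω => by rw [hBT]; tauto
  have hs2 := jn_split (q := q) (A i) B
  have hT0 := bP_nonneg h0 h1 T
  have hB0 := bP_nonneg h0 h1 B
  have hBT' : bP q B ≤ bP q T := bP_mono h0 h1 fun ω h => ((hBT ω).1 h).2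
  have hAB0 := bP_nonneg h0 h1 (fun ω => A i ω ∧ B ω)
  have key : bP q T * (bP q (A i) - δ) ≤ bP q (fun ω => A i ω ∧ B ω) := by
    have := mul_le_mul_of_nonneg_right hun hT0
    nlinarith
  have hexp := Real.add_one_le_exp (-bP q (A i) + δ)
  change bP q (fun ω => ¬ A i ω ∧ B ω) ≤ _
  rcases le_total 0 (bP q (A i) - δ) with hx | hx
  · have h2 := mul_le_mul_of_nonneg_right hBT' hx
    have h3 := mul_le_mul_of_nonneg_left hexp hB0
    nlinarith
  · have h3 := mul_le_mul_of_nonneg_left hexp hB0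
    have h4 := mul_nonneg hB0 (neg_nonneg.2 hx)
    nlinarith

open Classical in
/-- Induction on `s` (insert `i`): with `R = ⋂_{j ∼ i} ¬A j`, `S = ⋂_{j ≁ i} ¬A j`,
`P(A i ∧ R ∧ S) = P(A i ∧ S) - P(A i ∧ ¬R ∧ S) ≥ P(S) (p i - P(A i ∧ ¬R))` by `bE_indep` and
`harris_anti` (`A i ∧ ¬R` is an up-set, `S` a down-set); if the bracket is `≥ 0` use
`P(S) ≥ P(R ∧ S)` and `1 - x ≤ exp (-x)`, otherwise the step is trivial. -/
theorem janson (h0 : ∀ a, 0 ≤ q a) (h1 : ∀ a, q a ≤ 1) {I : Type} [DecidableEq I]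
    (A : I → Finset α → Prop) (S : I → Finset α) (hA : ∀ i, Monotone (A i))
    (hS : ∀ i ω, A i ω ↔ A i (ω ∩ S i)) (s : Finset I) :
    bP q (fun ω => ∀ i ∈ s, ¬ A i ω) ≤
      Real.exp (-∑ i ∈ s, bP q (A i) +
        ∑ i ∈ s, ∑ j ∈ s.filter (fun j => j ≠ i ∧ ¬ Disjoint (S i) (S j)),
          bP q fun ω => A i ω ∧ A j ω) := by
  induction s using Finset.induction_on with
  | empty => simpa using bP_le_one h0 h1 _
  | insert i s hi ih =>
    have e : bP q (fun ω => ∀ j ∈ insert i s, ¬ A j ω) =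
        bP q (fun ω => ¬ A i ω ∧ ∀ j ∈ s, ¬ A j ω) :=
      jn_congr fun ω => by simp only [Finset.forall_mem_insert]
    rw [e]
    refine (jn_step h0 h1 A S hA hS s i).trans ?_
    refine (mul_le_mul_of_nonneg_right ih (Real.exp_pos _).le).trans ?_
    rw [← Real.exp_add, Real.exp_le_exp, Finset.sum_insert hi, Finset.sum_insert hi]
    have a1 : ∑ j ∈ s.filter (fun j => ¬ Disjoint (S i) (S j)), (bP q fun ω => A i ω ∧ A j ω) ≤
        ∑ j ∈ (insert i s).filter (fun j => j ≠ i ∧ ¬ Disjoint (S i) (S j)),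
          bP q fun ω => A i ω ∧ A j ω := by
      refine Finset.sum_le_sum_of_subset_of_nonneg ?_ fun j _ _ => bP_nonneg h0 h1 _
      intro j hj
      rw [Finset.mem_filter] at hj ⊢
      exact ⟨Finset.mem_insert_of_mem hj.1, fun h => hi (h ▸ hj.1), hj.2⟩
    have a2 : ∑ k ∈ s, ∑ j ∈ s.filter (fun j => j ≠ k ∧ ¬ Disjoint (S k) (S j)),
          (bP q fun ω => A k ω ∧ A j ω) ≤
        ∑ k ∈ s, ∑ j ∈ (insert i s).filter (fun j => j ≠ k ∧ ¬ Disjoint (S k) (S j)),
          bP q fun ω => A k ω ∧ A j ω := by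
      refine Finset.sum_le_sum fun k _ => ?_
      refine Finset.sum_le_sum_of_subset_of_nonneg ?_ fun j _ _ => bP_nonneg h0 h1 _
      exact Finset.filter_subset_filter _ (Finset.subset_insert i s)
    linarith

lemma jn_sum {J : Type*} (t : Finset J) (f : J → Finset α → ℝ) :
    bE q (fun ω => ∑ j ∈ t, f j ω) = ∑ j ∈ t, bE q (f j) := by
  unfold bE
  simp only [Finset.mul_sum]
  exact Finset.sum_comm

lemma jn_add (f g : Finset α → ℝ) : bE q (fun ω => f ω + g ω) = bE q f + bE q g := by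
  unfold bE
  simp only [mul_add, Finset.sum_add_distrib]

lemma jn_mul (f : Finset α → ℝ) (c : ℝ) : bE q (fun ω => f ω * c) = bE q f * c := by
  unfold bE
  simp only [Finset.sum_mul, mul_assoc]

lemma jn_ind1 (a : α) : bE q (fun ω => if a ∈ ω then (1 : ℝ) else 0) = q a := by
  have h := bE_prod (q := q) {a} (fun _ => (2 : ℝ))
  have e : (fun ω : Finset α => ∏ _b ∈ ω ∩ {a}, (2 : ℝ)) =
      fun ω => (if a ∈ ω then (1 : ℝ) else 0) + 1 := by
    funext ω
    by_cases ha : a ∈ ω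
    · rw [Finset.inter_singleton_of_mem ha]; simp [ha]; norm_num
    · rw [Finset.inter_singleton_of_notMem ha]; simp [ha]
  rw [e, jn_add, bE_const, Finset.prod_singleton] at h
  linarith

lemma jn_ind2 {a b : α} (hab : b ≠ a) :
    bE q (fun ω => (if a ∈ ω then (1 : ℝ) else 0) * (if b ∈ ω then (1 : ℝ) else 0)) =
      q a * q b := by
  rw [bE_indep (S := {a}) (T := {b}) (by simpa using hab.symm) (fun ω => by simp)
    (fun ω => by simp), jn_ind1, jn_ind1]

open Classical in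
lemma jn_Q_fin (h0 : ∀ a, 0 ≤ q a) (h1 : ∀ a, q a ≤ 1) {I : Type} [DecidableEq I] [Fintype I]
    (A : I → Finset α → Prop) (S : I → Finset α) (hA : ∀ i, Monotone (A i))
    (hS : ∀ i ω, A i ω ↔ A i (ω ∩ S i)) (Q : ℝ) (hQ : 0 < Q)
    (hp : ∀ i, 1 ≤ 2 * Q * bP q (A i))
    (hpair : ∀ i, ∑ j, (if j ≠ i ∧ ¬ Disjoint (S i) (S j) then
      (bP q fun ω => A i ω ∧ A j ω) / (bP q (A i) * bP q (A j)) else 0) ≤ Q) :
    bP q (fun ω => ∀ i, ¬ A i ω) ≤ Real.exp (-(Fintype.card I : ℝ) / (4 * Q)) := by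
  set w : I → ℝ := fun i => 1 / (2 * Q * bP q (A i)) with hw
  have hpos : ∀ i, 0 < bP q (A i) := fun i => by
    by_contra h
    push Not at h
    have := mul_nonpos_of_nonneg_of_nonpos (by positivity : (0 : ℝ) ≤ 2 * Q) h
    linarith [hp i]
  have hw0 : ∀ i, 0 ≤ w i := fun i => by
    have := hpos i
    simp only [hw]; positivity
  have hw1 : ∀ i, w i ≤ 1 := fun i => by
    simp only [hw]
    exact (div_le_one (by linarith [hp i])).2 (hp i)
  set E : Finset I → ℝ := fun σ => -∑ i ∈ σ, bP q (A i) +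
        ∑ i ∈ σ, ∑ j ∈ σ.filter (fun j => j ≠ i ∧ ¬ Disjoint (S i) (S j)),
          bP q fun ω => A i ω ∧ A j ω with hE
  obtain ⟨σ, -, hσ⟩ := Finset.exists_min_image Finset.univ E Finset.univ_nonempty
  have hmean : E σ ≤ bE w E := by
    rw [← bE_const (q := w) (E σ)]
    exact bE_mono hw0 hw1 fun τ => hσ τ (Finset.mem_univ _)
  have hE' : E = fun τ => ∑ i, (if i ∈ τ then (1 : ℝ) else 0) * (-bP q (A i)) +
      ∑ i, ∑ j, ((if i ∈ τ then (1 : ℝ) else 0) * (if j ∈ τ then (1 : ℝ) else 0)) *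
        (if j ≠ i ∧ ¬ Disjoint (S i) (S j) then bP q fun ω => A i ω ∧ A j ω else 0) := by
    funext τ
    simp only [hE]
    congr 1
    · simp [Finset.sum_ite_mem]
    · rw [← Finset.sum_subset (Finset.subset_univ τ) (fun i _ hi => by simp [hi])]
      refine Finset.sum_congr rfl fun i hi => ?_
      rw [Finset.sum_filter,
        ← Finset.sum_subset (Finset.subset_univ τ) (fun j _ hj => by simp [hj])]
      refine Finset.sum_congr rfl fun j hj => ?_
      simp only [hi, hj, if_true, one_mul]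
  have hval : bE w E ≤ -(Fintype.card I : ℝ) / (4 * Q) := by
    rw [hE', jn_add, jn_sum, jn_sum, ← Finset.sum_add_distrib]
    have hc : -(Fintype.card I : ℝ) / (4 * Q) = ∑ _i : I, -1 / (4 * Q) := by
      simp only [Finset.sum_const, Finset.card_univ, nsmul_eq_mul]
      ring
    rw [hc]
    refine Finset.sum_le_sum fun i _ => ?_
    rw [jn_mul, jn_ind1, jn_sum]
    have h2 : ∑ j, bE w (fun τ => ((if i ∈ τ then (1 : ℝ) else 0) *
        (if j ∈ τ then (1 : ℝ) else 0)) *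
        (if j ≠ i ∧ ¬ Disjoint (S i) (S j) then bP q fun ω => A i ω ∧ A j ω else 0)) =
        (∑ j, (if j ≠ i ∧ ¬ Disjoint (S i) (S j) then
          (bP q fun ω => A i ω ∧ A j ω) / (bP q (A i) * bP q (A j)) else 0)) / (4 * Q ^ 2) := by
      rw [Finset.sum_div]
      refine Finset.sum_congr rfl fun j _ => ?_
      rw [jn_mul]
      split_ifs with hj
      · rw [jn_ind2 hj.1]
        have := hpos i
        have := hpos j
        simp only [hw]
        field_simp
        ring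
      · simp
    rw [h2]
    have h3 := div_le_div_of_nonneg_right (hpair i) (by positivity : (0 : ℝ) ≤ 4 * Q ^ 2)
    have h4 : w i * -bP q (A i) + Q / (4 * Q ^ 2) = -1 / (4 * Q) := by
      have := hpos i
      simp only [hw]
      field_simp
      ring
    linarith
  refine le_trans (bP_mono h0 h1 fun ω h i _ => h i) ((janson h0 h1 A S hA hS σ).trans ?_)
  exact Real.exp_le_exp.2 (hmean.trans hval)

open Classical in
/-- Normalised form. Subsample `s`: keep `i` with probability `w i = 1 / (2 Q p i) ≤ 1`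
independently (use `bE w` on `Finset I`-like sums over `s.powerset`, or on the subtype `↥s`),
some sub-family `s'` has Janson exponent at most the mean
`-|s| / (2Q) + |s| Q / (4 Q²) = -|s| / (4Q)`. -/
theorem janson_Q (h0 : ∀ a, 0 ≤ q a) (h1 : ∀ a, q a ≤ 1) {I : Type} [DecidableEq I]
    (A : I → Finset α → Prop) (S : I → Finset α) (hA : ∀ i, Monotone (A i))
    (hS : ∀ i ω, A i ω ↔ A i (ω ∩ S i)) (s : Finset I) (Q : ℝ) (hQ : 0 < Q)
    (hp : ∀ i ∈ s, 1 ≤ 2 * Q * bP q (A i))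
    (hpair : ∀ i ∈ s, ∑ j ∈ s.filter (fun j => j ≠ i ∧ ¬ Disjoint (S i) (S j)),
      (bP q fun ω => A i ω ∧ A j ω) / (bP q (A i) * bP q (A j)) ≤ Q) :
    bP q (fun ω => ∀ i ∈ s, ¬ A i ω) ≤ Real.exp (-(s.card : ℝ) / (4 * Q)) := by
  have h := jn_Q_fin h0 h1 (I := ↥s) (fun i => A i) (fun i => S i) (fun i => hA i)
    (fun i => hS i) Q hQ (fun i => hp i i.2) (fun i => by
      have h2 := hpair i i.2
      rw [Finset.sum_filter, ← Finset.sum_coe_sort] at h2
      refine le_of_eq_of_le (Finset.sum_congr rfl fun j _ => ?_) h2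
      simp only [ne_eq, Subtype.ext_iff])
  rw [Fintype.card_coe] at h
  refine le_trans (bP_mono h0 h1 fun ω hω (i : ↥s) => hω i i.2) h

end Crest.Agent.R225
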