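import Crest.Agent.R225.Defs

/-! Row 225, S0348 (lower bound): definitions. `K = unit ball ∩ random slabs`; the slab directions
are a Bernoulli random subset `ω` of a finite ground set `u : α → E n` carrying intensities `lam`
(a discretised Poisson process with Gaussian intensity, cut off at `‖u‖² ≤ 403 n`). -/

set_option autoImplicit false
open MeasureTheory
open scoped RealInnerProductSpace

namespace Crest.Agent.R225

section Bern
variable {α : Type} [Fintype α] [DecidableEq α]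

/-- Product Bernoulli weight of the subset `ω`. -/
noncomputable def bw (q : α → ℝ) (ω : Finset α) : ℝ := ∏ a, if a ∈ ω then q a else 1 - q a

/-- Expectation. -/
noncomputable def bE (q : α → ℝ) (f : Finset α → ℝ) : ℝ := ∑ ω, bw q ω * f ω

open Classical in
/-- Probability. -/
noncomputable def bP (q : α → ℝ) (A : Finset α → Prop) : ℝ :=
  bE q fun ω => if A ω then 1 else 0

/-- Inclusion probabilities of the discretised Poisson process with intensities `lam`. -/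
noncomputable def qOf (lam : α → ℝ) : α → ℝ := fun a => 1 - Real.exp (-lam a)

/-- `-log P(ω ∩ C ≠ ∅)`. -/
noncomputable def cost (lam : α → ℝ) (C : Finset α) : ℝ :=
  -Real.log (1 - Real.exp (-∑ a ∈ C, lam a))

/-- `ω` meets every member of `𝒞`. -/
def Hit (𝒞 : Finset (Finset α)) (ω : Finset α) : Prop := ∀ C ∈ 𝒞, (ω ∩ C).Nonempty

end Bern

abbrev E (n : ℕ) := EuclideanSpace ℝ (Fin n)

/-- Volume of the unit ball. -/
noncomputable def volB (n : ℕ) : ℝ := volume.real (Metric.closedBall (0 : E n) 1)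

open Classical in
/-- Ground points in the half space `⟪u, v⟫ > θ`. -/
noncomputable def Hs {n : ℕ} {α : Type} [Fintype α] (u : α → E n) (v : E n) (θ : ℝ) :
    Finset α := Finset.univ.filter fun a => θ < ⟪u a, v⟫

/-- The ground set: two sided Gaussian tail bounds for the intensity of half spaces. -/
structure Gnd {n : ℕ} {α : Type} [Fintype α] (cL : ℝ) (u : α → E n) (lam : α → ℝ) : Prop where
  nonneg : ∀ a, 0 ≤ lam a
  norm_le : ∀ a, ‖u a‖ ^ 2 ≤ 403 * n
  upper : ∀ e : E n, ‖e‖ = 1 → ∀ s : ℝ, 0 ≤ s → 400 * n ≤ s ^ 2 →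
    ∑ a ∈ Hs u e s, lam a ≤ 1 / 4 * Real.exp ((400 * n - s ^ 2) / 2)
  lower : ∀ e : E n, ‖e‖ = 1 → ∀ s : ℝ, 0 ≤ s → 400 * n ≤ s ^ 2 → s ^ 2 ≤ 400.5 * n →
    cL * Real.exp ((400 * n - s ^ 2) / 2) ≤ ∑ a ∈ Hs u e s, lam a

/-- The random body. -/
def Kb {n : ℕ} {α : Type} (u : α → E n) (ω : Finset α) : Set (E n) :=
  {y | ‖y‖ ≤ 1 ∧ ∀ a ∈ ω, |⟪u a, y⟫| ≤ 20 * √n}

/-- The killing threshold (slab width plus rounding error). -/
noncomputable def th0 (n : ℕ) : ℝ := 20 * √n + 21 * √n / (n : ℝ) ^ 2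

open Classical in
/-- Depth count of a vector in the slightly enlarged unit ball. -/
noncomputable def Phi {n : ℕ} (v : E n) : ℕ :=
  ((Finset.range n).filter fun i : ℕ => ‖v‖ ≤ 1 + 1 / (n : ℝ) ^ 2 - i / n).card

/-- Grid point of the grid `n⁻³ ℤⁿ`. -/
noncomputable def gp {n : ℕ} (z : Fin n → ℤ) : E n :=
  WithLp.toLp 2 fun i => (z i : ℝ) / (n : ℝ) ^ 3

/-- The integer box `[-3n³, 3n³]ⁿ`. -/
noncomputable def ZB (n : ℕ) : Finset (Fin n → ℤ) :=
  Fintype.piFinset fun _ => Finset.Icc (-(3 * (n : ℤ) ^ 3)) (3 * (n : ℤ) ^ 3)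

open Classical in
/-- Test points: grid points of the unit ball. -/
noncomputable def Tn (n : ℕ) : Finset (Fin n → ℤ) := (ZB n).filter fun z => ‖gp z‖ ≤ 1

/-- A good test point for the configuration of centres `Y`. -/
def GoodPt {n : ℕ} (m : ℝ) (Y : Finset (Fin n → ℤ)) (x : Fin n → ℤ) : Prop :=
  (∑ y ∈ Y, (Phi (gp x - gp y) : ℝ)) ≤ m ∧
    ∀ y ∈ Y, 1 - (n : ℝ) ^ (1 / 20 : ℝ) / n ≤ ‖gp x - gp y‖

/-- All centres which could cover `x` are cut off by a slab. -/
def Killed {n : ℕ} {α : Type} (u : α → E n) (ω : Finset α) (Y : Finset (Fin n → ℤ))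
    (x : Fin n → ℤ) : Prop :=
  ∀ y ∈ Y, ‖gp x - gp y‖ ≤ 1 + 1 / (n : ℝ) ^ 2 → ∃ a ∈ ω, th0 n < ⟪u a, gp x - gp y⟫

open Classical in
/-- Admissible configurations of centres. -/
def Adm {n : ℕ} (m : ℝ) (Y : Finset (Fin n → ℤ)) : Prop :=
  Y ⊆ ZB n ∧ Y.card ≤ 2 ^ n * n ^ 3 ∧
    ((Tn n).card : ℝ) / 2 ≤ ((Tn n).filter (GoodPt m Y)).card

end Crest.Agent.R225
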