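import Crest.Agent.R225.Defs
import Crest.Agent.R215.Gauss

/-! Row 225: definitions for Gaussian marginals of convex bodies and for the assembly. -/

set_option autoImplicit false
open MeasureTheory ProbabilityTheory

namespace Crest.Agent.R225

/-- Second moment matrix (about the origin, no centring) is the identity. -/
def Iso {κ : Type} [Fintype κ] [DecidableEq κ] (K : Set (κ → ℝ)) : Prop :=
  ∀ i j, ∫ x in K, x i * x j = if i = j then volume.real K else 0

/-- Euclidean norm. -/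
noncomputable def nrm {κ : Type} [Fintype κ] (x : κ → ℝ) : ℝ := √(∑ i, x i ^ 2)

/-- `P(lo ≤ r N ≤ hi)` for a standard normal `N`. -/
noncomputable def gI (lo hi r : ℝ) : ℝ := (gaussianReal 0 1).real {t | lo ≤ r * t ∧ r * t ≤ hi}

/-- `P(r N ∈ [lo, hi])` for a standard normal vector `N`. -/
noncomputable def gq {ι : Type} [Fintype ι] (lo hi : ι → ℝ) (r : ℝ) : ℝ :=
  ∏ i, gI (lo i) (hi i) r

/-- Gaussian lower bound for the slices over the box of half side `R`. -/
def Marg {ι κ : Type} [Fintype ι] [Fintype κ] (K : Set (ι ⊕ κ → ℝ)) (c R : ℝ) : Prop :=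
  ∀ z : ι → ℝ, (∀ i, |z i| ≤ R) → c * gd z * volume.real K ≤ volume.real (slice K z)

/-- The vertical lattice `M ℤ^d`: every point sees a tree pattern of lattice points carrying a
constant fraction of the Gaussian mass in atoms of size at most `w`. -/
def VertP {d : ℕ} (M : Matrix (Fin d) (Fin d) ℝ) (Ω : Finset (Fin d → ℤ)) (D : ℕ)
    (R c₀ w : ℝ) : Prop :=
  M.det ≠ 0 ∧ ∀ h : Fin d → ℝ, ∃ (P : Finset (Fin d → ℤ)) (u : (Fin d → ℤ) → ℝ),
    Tree (fun a : Fin d → ℤ => a) D P ∧ c₀ / 2 ≤ ∑ a ∈ P, u a ∧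
    ∀ a ∈ P, 0 ≤ u a ∧ u a ≤ w ∧ u a ≤ |M.det| * gd (h - M.mulVec fun i => (a i : ℝ)) ∧
      (∀ i, |(h - M.mulVec fun i => (a i : ℝ)) i| ≤ R) ∧ ∀ a' ∈ P, a - a' ∈ Ω

end Crest.Agent.R225
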