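import Crest.Agent.R225.CovAff
import Crest.Agent.R225.Brunn

/-! Task `R225 Norm`: shear and rescale horizontally. -/

set_option autoImplicit false
open MeasureTheory

namespace Crest.Agent.R225

namespace NormAux

variable {d m : ℕ} {K : Set (Fin d ⊕ Fin m → ℝ)}

lemma shear_apply (B : Matrix (Fin m) (Fin d) ℝ) (L : Matrix (Fin m) (Fin m) ℝ) (b : Fin m → ℝ)
    (z : Fin d → ℝ) (y : Fin m → ℝ) :
    (Matrix.fromBlocks 1 0 B L).mulVec (Sum.elim z y) + Sum.elim (0 : Fin d → ℝ) b =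
      Sum.elim z (L.mulVec y + (B.mulVec z + b)) := by
  rw [Matrix.fromBlocks_mulVec]
  funext i
  rcases i with i | i
  · simp
  · simp only [Sum.elim_comp_inl, Sum.elim_comp_inr, Pi.add_apply, Sum.elim_inr]
    ring

lemma slice_shear (B : Matrix (Fin m) (Fin d) ℝ) (L : Matrix (Fin m) (Fin m) ℝ) (b : Fin m → ℝ)
    (z : Fin d → ℝ) :
    slice ((fun x => (Matrix.fromBlocks 1 0 B L).mulVec x + Sum.elim (0 : Fin d → ℝ) b) '' K) z =
      (fun y => L.mulVec y + (B.mulVec z + b)) '' slice K z := by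
  ext y
  constructor
  · rintro ⟨x, hx, e⟩
    rw [← Sum.elim_comp_inl_inr x] at hx e
    simp only [shear_apply] at e
    have e1 : x ∘ Sum.inl = z := funext fun i => congrFun e (Sum.inl i)
    rw [e1] at hx e
    exact ⟨_, hx, funext fun i => congrFun e (Sum.inr i)⟩
  · rintro ⟨y, hy, rfl⟩
    exact ⟨_, hy, shear_apply B L b z y⟩

lemma slice_nonempty (hK : Body K) {c₁ R : ℝ} (hc : 0 < c₁) (hM : Marg K c₁ R) {z : Fin d → ℝ}
    (hz : ∀ i, |z i| ≤ R) : 0 < volume.real (slice K z) :=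
  (mul_pos (mul_pos hc (gd_pos z)) hK.vol_pos).trans_le (hM z hz)

/-- An affine section over a smaller box. -/
lemma exists_section (hK : Body K) {c₁ r : ℝ} (hc : 0 < c₁) (hr : 0 < r)
    (hM : Marg K c₁ ((d + 1) * r)) : ∃ (B : Matrix (Fin m) (Fin d) ℝ) (w : Fin m → ℝ),
      ∀ z : Fin d → ℝ, (∀ i, |z i| ≤ r) → Sum.elim z (B.mulVec z + w) ∈ K := by
  have hd : (0 : ℝ) < d + 1 := by positivity
  have hR : 0 < (d + 1) * r := by positivity
  have hne : ∀ z : Fin d → ℝ, (∀ i, |z i| ≤ (d + 1) * r) → ∃ y, Sum.elim z y ∈ K := fun z hz =>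
    nonempty_of_measure_ne_zero (μ := volume) (s := slice K z) fun h0 => by
      have := slice_nonempty hK hc hM hz
      simp [measureReal_def, h0] at this
  have hs : ∀ (i : Fin d) (t : ℝ), |t| ≤ (d + 1) * r → ∃ y, Sum.elim (Pi.single i t) y ∈ K :=
    fun i t ht => hne _ fun j => by
      by_cases h : j = i
      · subst h; simpa using ht
      · simpa [h] using hR.le
  choose p hp using fun i => hs i ((d + 1) * r) (abs_of_pos hR).le
  choose q hq using fun i => hs i (-((d + 1) * r)) (by rw [abs_neg, abs_of_pos hR])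
  obtain ⟨y₀, hy₀⟩ := hne 0 fun i => by simpa using hR.le
  refine ⟨Matrix.of fun a i => (p i a - q i a) / (2 * ((d + 1) * r)),
    fun a => (1 / (d + 1)) * y₀ a + ∑ i, (1 / (d + 1)) * ((p i a + q i a) / 2), fun z hz => ?_⟩
  have h1 := hK.2.1.sum_mem (t := (Finset.univ : Finset (Option (Fin d))))
    (w := fun _ => (1 / (d + 1) : ℝ))
    (z := fun o => o.elim (Sum.elim (0 : Fin d → ℝ) y₀) fun i =>
      (1 / 2 + z i / (2 * r)) • Sum.elim (Pi.single i ((d + 1) * r)) (p i) +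
        (1 / 2 - z i / (2 * r)) • Sum.elim (Pi.single i (-((d + 1) * r))) (q i))
    (fun _ _ => by positivity) (by simp [hd.ne']) fun o _ => by
      rcases o with _ | i
      · exact hy₀
      · have h2 : |z i / (2 * r)| ≤ 1 / 2 := by
          rw [abs_div, abs_of_pos (by positivity : 0 < 2 * r), div_le_iff₀ (by positivity)]
          linarith [hz i]
        obtain ⟨h3, h4⟩ := abs_le.1 h2
        exact hK.2.1 (hp i) (hq i) (by linarith) (by linarith) (by ring)
  convert h1 using 1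
  rw [Fintype.sum_option]
  funext a
  rcases a with j | a
  · simp only [Sum.elim_inl, Option.elim, Pi.add_apply, Pi.smul_apply, Finset.sum_apply,
      smul_eq_mul, Pi.zero_apply, mul_zero, zero_add]
    rw [Finset.sum_eq_single j]
    · simp only [Pi.single_eq_same]
      field_simp
      ring
    · intro i _ hi
      simp [Pi.single_eq_of_ne hi.symm]
    · simp
  · simp only [Sum.elim_inr, Option.elim, Pi.add_apply, Pi.smul_apply, Finset.sum_apply,
      smul_eq_mul, Matrix.mulVec, dotProduct, Matrix.of_apply]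
    rw [add_left_comm, ← Finset.sum_add_distrib]
    congr 1
    refine Finset.sum_congr rfl fun i _ => ?_
    field_simp
    ring

lemma vol_le_of_sandwich {K₀ : Set (Fin m → ℝ)} {A : Matrix (Fin m) (Fin m) ℝ} {x₀ : Fin m → ℝ}
    (h : ∀ x ∈ K₀, ∃ y : Fin m → ℝ, (∀ i, |y i| ≤ 1) ∧ x = A.mulVec y + x₀) :
    volume.real K₀ ≤ |A.det| * 2 ^ m := by
  have h3 : K₀ ⊆ (fun x => A.mulVec x + x₀) '' Metric.closedBall 0 1 := by
    intro x hx
    obtain ⟨y, hy, rfl⟩ := h x hx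
    exact ⟨y, mem_closedBall_zero_iff.2 ((pi_norm_le_iff_of_nonneg zero_le_one).2 hy), rfl⟩
  have h4 := measureReal_mono (μ := volume) h3
    ((isCompact_closedBall _ _).image (by fun_prop)).measure_lt_top.ne
  rwa [vol_affine, measureReal_def _ (Metric.closedBall _ _),
    Real.volume_pi_closedBall _ zero_le_one, ENNReal.toReal_ofReal (by positivity), mul_one,
    Fintype.card_fin] at h4

end NormAux

/-- The map `(z, y) ↦ (z, L y + B z + b)` (matrix `fromBlocks 1 0 B L`) multiplies the volumes of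
`K` and of all slices by `|det L|`. Step 1: `sandwich` for `slice K 0` (`body_of_vol`), so WLOG
`cube(1/(2m)) ⊆ K₀`, `vol K₀ ≤ 2^m`. Step 2: points `(± R₂ e_i, y_i^±) ∈ K`,
`R₂ = 2 (d+1) (R+1)`; `B e_i = (y_i^+ - y_i^-) / (2 R₂)`, `w_i = (y_i^+ + y_i^-)/2`; averaging
the `d` segments and the point `0` with weights `1/(d+1)` gives `(z, w̄ + B z) ∈ K` for
`|z i| ≤ 2(R+1)`, and `(z, B z + w̄/2 + y'/2) = ½ (2z, w̄ + 2Bz) + ½ (0, y')`. Step 3: scale `y` by
`τ`, `τ^m = 𝒱 / vol K ≥ 𝒱 c₁ gd 0 / 2^m`, `ϱ = τ / (4m)`. -/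
theorem normalise {d m : ℕ} (hm : 1 ≤ m) {K : Set (Fin d ⊕ Fin m → ℝ)} (hK : Body K)
    {c₁ R : ℝ} (hc : 0 < c₁) (hR : 0 ≤ R) (hM : Marg K c₁ (2 * (d + 1) * (R + 1)))
    {𝒱 : ℝ} (h𝒱 : 0 < 𝒱) :
    ∃ (K' : Set (Fin d ⊕ Fin m → ℝ)) (ϱ : ℝ), Body K' ∧ (∀ θ, Cov K' θ → Cov K θ) ∧
      volume.real K' = 𝒱 ∧ Marg K' c₁ R ∧ 0 < ϱ ∧
      𝒱 * c₁ * gd (0 : Fin d → ℝ) / (4 * m) ^ m ≤ (2 * ϱ) ^ m ∧
      ∀ (z : Fin d → ℝ) (y : Fin m → ℝ), (∀ i, |z i| ≤ R + 1) → (∀ i, |y i| ≤ ϱ) →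
        Sum.elim z y ∈ K' := by
  have : Nonempty (Fin m) := ⟨⟨0, hm⟩⟩
  have hm0 : (0 : ℝ) < m := by exact_mod_cast hm
  have hd : (0 : ℝ) ≤ d := Nat.cast_nonneg d
  have hV := hK.vol_pos
  have hR₂ : R ≤ 2 * (d + 1) * (R + 1) := by nlinarith
  have hz0 : ∀ i, |(0 : Fin d → ℝ) i| ≤ 2 * (d + 1) * (R + 1) := fun i => by
    simpa using hR.trans hR₂
  have hK₀ : Body (slice K 0) := body_of_vol (slice_compact hK.1 0) (slice_convex hK.2.1 0)
    (NormAux.slice_nonempty hK hc hM hz0)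
  obtain ⟨A, x₀, hA, hin, hout⟩ := sandwich hK₀
  rw [Fintype.card_fin] at hin
  obtain ⟨B, w, hB⟩ := NormAux.exists_section hK hc (r := 2 * (R + 1)) (by positivity)
    (by rwa [show ((d : ℝ) + 1) * (2 * (R + 1)) = 2 * (d + 1) * (R + 1) by ring])
  have hA' := abs_pos.2 hA
  have hdet : c₁ * gd (0 : Fin d → ℝ) * volume.real K ≤ |A.det| * 2 ^ m :=
    (hM 0 hz0).trans (NormAux.vol_le_of_sandwich hout)
  set τ : ℝ := (𝒱 * |A.det| / volume.real K) ^ ((m : ℝ)⁻¹) with hτ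
  have hτ0 : 0 < τ := by positivity
  have hτm : τ ^ m = 𝒱 * |A.det| / volume.real K :=
    Real.rpow_inv_natCast_pow (by positivity) (by omega)
  set L : Matrix (Fin m) (Fin m) ℝ := τ • A⁻¹ with hL
  have hLdet : |L.det| = 𝒱 / volume.real K := by
    rw [hL, Matrix.det_smul, Fintype.card_fin, Matrix.det_nonsing_inv, Ring.inverse_eq_inv',
      abs_mul, abs_inv, abs_of_pos (by positivity), hτm]
    field_simp
  set M : Matrix (Fin d ⊕ Fin m) (Fin d ⊕ Fin m) ℝ := Matrix.fromBlocks 1 0 (-(L * B)) L with hMd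
  have hMdet : M.det = L.det := by
    rw [hMd, Matrix.det_fromBlocks_zero₁₂, Matrix.det_one, one_mul]
  have hM0 : M.det ≠ 0 := by
    rw [hMdet, ← abs_pos, hLdet]
    positivity
  set b : Fin m → ℝ := -L.mulVec ((1 / 2 : ℝ) • (w + x₀)) with hb
  refine ⟨(fun x => M.mulVec x + Sum.elim (0 : Fin d → ℝ) b) '' K, τ / (4 * m), hK.affine hM0 _,
    fun θ => cov_of_affine hM0 _, ?_, fun z hz => ?_, by positivity, ?_, fun z y hz hy => ?_⟩
  · rw [vol_affine, hMdet, hLdet]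
    field_simp
  · rw [hMd, NormAux.slice_shear, vol_affine, vol_affine, ← hMd, hMdet, mul_left_comm]
    exact mul_le_mul_of_nonneg_left (hM z fun i => (hz i).trans hR₂) (abs_nonneg _)
  · have e : (2 * (τ / (4 * m))) ^ m = τ ^ m * 2 ^ m / (4 * m) ^ m := by
      rw [← mul_pow, ← div_pow]
      congr 1
      ring
    rw [e, hτm]
    refine div_le_div_of_nonneg_right ?_ (by positivity)
    rw [div_mul_eq_mul_div, le_div_iff₀ hV, mul_assoc 𝒱, mul_assoc 𝒱, mul_assoc 𝒱]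
    exact mul_le_mul_of_nonneg_left hdet h𝒱.le
  · have h1 := hB ((2 : ℝ) • z) fun i => by
      rw [Pi.smul_apply, smul_eq_mul, abs_mul, abs_two]
      linarith [hz i]
    have h2 : Sum.elim (0 : Fin d → ℝ) (A.mulVec ((2 / τ) • y) + x₀) ∈ K :=
      hin ((2 / τ) • y) fun i => by
      rw [Pi.smul_apply, smul_eq_mul, abs_mul, abs_of_pos (by positivity)]
      refine (mul_le_mul_of_nonneg_left (hy i) (by positivity)).trans_eq ?_
      field_simp
      ring
    have hcv : Convex ℝ K := hK.2.1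
    have h3 := hcv h1 h2 (a := 1 / 2) (b := 1 / 2) (by norm_num) (by norm_num) (by norm_num)
    have h4 : (1 / 2 : ℝ) • Sum.elim ((2 : ℝ) • z) (B.mulVec ((2 : ℝ) • z) + w) +
        (1 / 2 : ℝ) • Sum.elim (0 : Fin d → ℝ) (A.mulVec ((2 / τ) • y) + x₀) =
        Sum.elim z (A.mulVec (τ⁻¹ • y) + B.mulVec z + (1 / 2 : ℝ) • (w + x₀)) := by
      funext i
      rcases i with i | i
      · simp
      · simp only [Matrix.mulVec_smul, Pi.add_apply, Pi.smul_apply, Sum.elim_inr, smul_eq_mul]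
        field_simp
        ring
    rw [h4] at h3
    refine ⟨_, h3, ?_⟩
    simp only [hMd, NormAux.shear_apply]
    congr 1
    have h5 : L.mulVec (A.mulVec (τ⁻¹ • y)) = y := by
      rw [Matrix.mulVec_mulVec, hL, Matrix.smul_mul, Matrix.nonsing_inv_mul _ hA.isUnit,
        Matrix.smul_mulVec, Matrix.one_mulVec, smul_smul, mul_inv_cancel₀ hτ0.ne', one_smul]
    rw [Matrix.mulVec_add, Matrix.mulVec_add, h5, Matrix.neg_mulVec, ← Matrix.mulVec_mulVec, hb]
    abel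

end Crest.Agent.R225
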