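import Crest.Agent.R225.BlkFacts

/-! Task `R225 OSa`: the bad set `Ubad` is periodic and typically small. -/

set_option autoImplicit false

namespace Crest.Agent.R225

variable (B₁ B₂ : Blk) (g₁ : B₁.A) (g₂ : B₂.A) (Tk : Option (Fin B₁.k) → B₂.A)

lemma OSa_red (z : Fin B₁.k → ℤ) : B₁.red ((B₁.p : ℤ) • z) = 0 := funext fun i => by
  simp [Blk.red]

lemma tau_transversal (h : (Fin B₁.k → ℤ) × B₂.A) :
    ∃! σ : B₁.A × B₂.A, h - tau B₁ B₂ σ ∈ Gam B₁ B₂ Tk := by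
  have h1 : h.1 - B₁.lift (B₁.red h.1) = (B₁.p : ℤ) • fun i => h.1 i / B₁.p := funext fun i => by
    simp only [Blk.lift, Blk.red, ZMod.val_intCast, Pi.sub_apply, Pi.smul_apply, smul_eq_mul]
    linarith [Int.emod_add_mul_ediv (h.1 i) B₁.p]
  refine ⟨(B₁.red h.1, h.2 - ∑ i, (h.1 i / B₁.p) • Tk (some i)),
    ⟨_, Prod.ext h1 (sub_sub_cancel _ _)⟩, ?_⟩
  rintro σ ⟨z, hz⟩
  have h2 : h.1 - B₁.lift σ.1 = (B₁.p : ℤ) • z := congrArg Prod.fst hz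
  have h3 : h.2 - σ.2 = ∑ i, z i • Tk (some i) := congrArg Prod.snd hz
  have h4 : σ.1 = B₁.red h.1 := by
    have := congrArg B₁.red h2
    rw [B₁.red_sub, B₁.red_lift, OSa_red] at this
    exact (sub_eq_zero.1 this).symm
  rw [h4, h1] at h2
  obtain rfl := smul_right_injective _ (Int.natCast_ne_zero.2 B₁.hp.ne_zero) h2
  exact Prod.ext h4 (by rw [← h3, sub_sub_cancel])

/-- `kid (u + p z) = kid u + z` (`Int.add_mul_ediv_left`), `red (u + p z) = red u`. -/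
lemma Ubad_periodic (m₀ tiny : ℝ) (h : (Fin B₁.k → ℤ) × B₂.A) :
    ∀ γ ∈ Gam B₁ B₂ Tk, Ubad B₁ B₂ g₁ g₂ Tk m₀ tiny (h + γ) ↔ Ubad B₁ B₂ g₁ g₂ Tk m₀ tiny h := by
  rintro _ ⟨z, rfl⟩
  have h1 : B₁.red (h.1 + (B₁.p : ℤ) • z) = B₁.red h.1 := by rw [B₁.red_add, OSa_red, add_zero]
  have h2 : ∀ t ε, ∑ o, B₁.kid g₁ (h.1 + (B₁.p : ℤ) • z) t ε o • Tk o =
      ∑ o, B₁.kid g₁ h.1 t ε o • Tk o + ∑ i, z i • Tk (some i) := fun t ε => by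
    rw [Fintype.sum_option, Fintype.sum_option, add_assoc, ← Finset.sum_add_distrib]
    refine congrArg₂ _ rfl (Finset.sum_congr rfl fun i _ => ?_)
    rw [← add_smul]
    refine congrArg (· • _) ?_
    simp only [Blk.kid, Option.elim_some, Pi.add_apply, Pi.smul_apply, smul_eq_mul]
    rw [add_sub_right_comm, Int.add_mul_ediv_left _ _ (Int.natCast_ne_zero.2 B₁.hp.ne_zero)]
    ring
  simp only [Ubad, M12, Prod.fst_add, Prod.snd_add, h1, h2, add_sub_add_right_eq_sub]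

variable {B₁ B₂} {e₁ α₁ β₁ κ₁ R₁ e₂ α₂ β₂ κ₂ R₂ : ℝ}

lemma M12_nonneg (h₁ : B₁.Good e₁ α₁ β₁ κ₁ R₁) (h₂ : B₂.Good e₂ α₂ β₂ κ₂ R₂)
    (x : (Fin B₁.k → ℤ) × B₂.A) : 0 ≤ M12 B₁ B₂ g₁ g₂ Tk x := by
  exact Finset.sum_nonneg fun _ _ => Finset.sum_nonneg fun _ _ =>
    mul_nonneg (h₁.wt_nonneg _ _ _ _) (h₂.mul_nonneg _ _)

/-- For fixed `σ₁` apply `cheb_pair` to the kids `(t, ε) ∈ T ×ˢ univ` (two kids of nonzero
weight have the same `t`, and differ by `±1` where `ε ≠ ε'`), `f = mul g₂`; average over `σ₁`;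
Markov in `Tk`. -/
theorem Ubad_small (h₁ : B₁.Good e₁ α₁ β₁ κ₁ R₁) (h₂ : B₂.Good e₂ α₂ β₂ κ₂ R₂) {m₀ tiny ε : ℝ}
    (hm : m₀ ≤ av (B₂.mul g₂)) (ht : 0 < tiny) (hε : 0 < ε) :
    fr (fun Tk : Option (Fin B₁.k) → B₂.A =>
      ε < fr fun σ : B₁.A × B₂.A => Ubad B₁ B₂ g₁ g₂ Tk m₀ tiny (tau B₁ B₂ σ)) ≤
        α₁ * β₂ * β₁ / (tiny ^ 2 * ε) := by
  refine ((fr_mono fun _ h => le_of_lt h).trans (fr_markov (fun _ => fr_nonneg _) hε)).trans ?_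
  rw [← div_div]
  refine div_le_div_of_nonneg_right ?_ hε.le
  simp only [fr_prod (X := B₁.A)]
  rw [av_comm]
  refine (av_mono fun σ => ?_).trans_eq (av_const _)
  have h1 := cheb_pair (B₁.T ×ˢ Finset.univ)
    (fun κ => B₁.wt g₁ (B₁.red (B₁.lift σ)) κ.1 κ.2) (fun κ => B₁.kid g₁ (B₁.lift σ) κ.1 κ.2)
    (fun κ _ => h₁.wt_nonneg _ _ _ _) (fun κ hκ => h₁.wt_le _ _ (Finset.mem_product.1 hκ).1 _)
    h₁.α_nonneg (fun κ hκ κ' hκ' hne hw hw' => ?_) (B₂.mul g₂) (h₂.mul_nonneg g₂) (h₂.mul_le g₂)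
    (h₂.av_mul_le g₂) ht
  · rw [← fr_equiv (Equiv.prodComm _ _), fr_prod] at h1
    simp only [Finset.sum_product] at h1
    refine ((av_mono fun Tk => fr_mono fun σ₂ h => ?_).trans h1).trans
      (div_le_div_of_nonneg_right (mul_le_mul_of_nonneg_left (h₁.mul_le _ _)
        (mul_nonneg h₁.α_nonneg h₂.β_nonneg)) (sq_nonneg _))
    exact lt_of_lt_of_le h (sub_le_sub_right
      (mul_le_mul_of_nonneg_right hm (h₁.mul_nonneg _ _)) _)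
  · have h2 := h₁.wt_unique _ _ (Finset.mem_product.1 hκ).1 (Finset.mem_product.1 hκ').1 hw hw'
    obtain ⟨i, hi⟩ := Function.ne_iff.1 fun h => hne (Prod.ext h2 h)
    refine ⟨some i, ?_⟩
    simp only [Blk.kid, Option.elim_some, h2]
    cases h3 : κ.2 i <;> cases h4 : κ'.2 i <;> simp_all

/-- Few particles in `Ubad` cost little. -/
lemma total_ge (h₁ : B₁.Good e₁ α₁ β₁ κ₁ R₁) (h₂ : B₂.Good e₂ α₂ β₂ κ₂ R₂) {L : Type}
    [Fintype L] (W : L → ℝ) (x : L → (Fin B₁.k → ℤ) × B₂.A) {αS tot m₀ tiny c b : ℝ}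
    (hW0 : ∀ a, 0 ≤ W a) (hW : ∀ a, W a ≤ αS) (hα : 0 ≤ αS) (htot : ∑ a, W a ≤ tot)
    (hm0 : 0 ≤ m₀) (hm1 : m₀ ≤ 1) (ht : 0 ≤ tiny)
    (hc : c ≤ ∑ a, W a * B₁.mul g₁ (B₁.red (x a).1)) (C : Finset L) (hb : (C.card : ℝ) ≤ b)
    (hC : ∀ a, W a ≠ 0 → Ubad B₁ B₂ g₁ g₂ Tk m₀ tiny (x a) → a ∈ C) :
    m₀ * c - b * αS * β₁ - tiny * tot ≤ ∑ a, W a * M12 B₁ B₂ g₁ g₂ Tk (x a) := by
  classical
  have hβ := mul_nonneg hα h₁.β_nonneg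
  have h1 : ∀ a, m₀ * (W a * B₁.mul g₁ (B₁.red (x a).1)) - (if a ∈ C then αS * β₁ else 0) -
      tiny * W a ≤ W a * M12 B₁ B₂ g₁ g₂ Tk (x a) := fun a => by
    have h2 : 0 ≤ if a ∈ C then αS * β₁ else 0 := by split_ifs <;> linarith
    by_cases h3 : W a = 0
    · simpa [h3] using h2
    by_cases h4 : Ubad B₁ B₂ g₁ g₂ Tk m₀ tiny (x a)
    · rw [if_pos (hC a h3 h4)]
      have h5 := mul_le_mul (hW a) (h₁.mul_le g₁ (B₁.red (x a).1)) (h₁.mul_nonneg _ _) hα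
      linarith [mul_nonneg (hW0 a) (M12_nonneg g₁ g₂ Tk h₁ h₂ (x a)), mul_nonneg ht (hW0 a),
        mul_le_of_le_one_left (mul_nonneg (hW0 a) (h₁.mul_nonneg g₁ (B₁.red (x a).1))) hm1]
    · linarith [mul_le_mul_of_nonneg_left (not_lt.1 h4) (hW0 a)]
  refine le_trans ?_ (Finset.sum_le_sum fun a _ => h1 a)
  rw [Finset.sum_sub_distrib, Finset.sum_sub_distrib, ← Finset.mul_sum, ← Finset.mul_sum,
    Finset.sum_ite_mem, Finset.univ_inter, Finset.sum_const, nsmul_eq_mul]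
  linarith [mul_le_mul_of_nonneg_left hc hm0, mul_le_mul_of_nonneg_left htot ht,
    mul_le_mul_of_nonneg_right hb hβ]

end Crest.Agent.R225
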