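import Crest.Agent.R225.OSa
import Crest.Agent.R225.Extend

/-! Task `R225 OSb`: a good pair of rows. -/

set_option autoImplicit false

namespace Crest.Agent.R225

open Classical in
/-- Fix `a₀` in the support. If more than `(D+1)^j` particles are in `U`, `Tree.littlestone`
gives `2^j` of them forming a tree of depth `j`; map `a ↦ ⟨pos a - pos a₀, _⟩ : Ω` (`Tree.image`,
injective by `Tree.sep`); union bound over `powersetCard (2^j) univ`,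
`C(|Ω|, 2^j) ≤ |Ω|^{2^j}`; use `SplitGood` at `w - ∑ i, pos a₀ i • tau (T i)`. -/
theorem many_bad (S : St) {c₀ αS tot R : ℝ} {D : ℕ} (hS : S.Geo c₀ D αS tot R) (B₁ B₂ : Blk)
    (U : (Fin B₁.k → ℤ) × B₂.A → Prop) (T : S.ι → B₁.A × B₂.A) {N ε : ℝ} (hN : 0 ≤ N)
    (hε : 0 ≤ ε) (j : ℕ) (hT : SplitGood B₁ B₂ S.Ω U T N ε j) (h : S.ι → ℝ) (ξ : S.Ξ)
    (w : (Fin B₁.k → ℤ) × B₂.A) :
    fr (fun σ : B₁.A × B₂.A => (D + 1) ^ j < (Finset.univ.filter fun a => S.W h ξ a ≠ 0 ∧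
      U (tau B₁ B₂ σ + w - ∑ i, S.pos h ξ a i • tau B₁ B₂ (T i))).card) ≤
        (S.Ω.card * N ^ j * ε) ^ 2 ^ j := by
  by_cases hne : ∃ a₀, S.W h ξ a₀ ≠ 0
  swap
  · refine (fr_false fun σ hσ => ?_).le.trans (by positivity)
    rw [Finset.filter_eq_empty_iff.2 fun a _ ha => hne ⟨a, ha.1⟩, Finset.card_empty] at hσ
    exact Nat.not_lt_zero _ hσ
  obtain ⟨a₀, ha₀⟩ := hne
  set w' := w - ∑ i, S.pos h ξ a₀ i • tau B₁ B₂ (T i) with hw'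
  let f : S.Lab → S.Ω := fun a =>
    if ha : S.pos h ξ a - S.pos h ξ a₀ ∈ S.Ω then ⟨_, ha⟩ else ⟨_, hS.diff h ξ a₀ a₀ ha₀ ha₀⟩
  have hf : ∀ a, S.W h ξ a ≠ 0 → (f a : S.ι → ℤ) = S.pos h ξ a - S.pos h ξ a₀ := by
    intro a ha
    simp only [f, dif_pos (hS.diff h ξ a a₀ ha ha₀)]
  refine (fr_mono (q := fun σ : B₁.A × B₂.A =>
    ∃ C ∈ Finset.powersetCard (2 ^ j) (Finset.univ : Finset S.Ω),
      Tree (fun ω : S.Ω => (ω : S.ι → ℤ)) j C ∧ ∀ ω ∈ C,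
        U (tau B₁ B₂ σ + w' - ∑ i, (ω : S.ι → ℤ) i • tau B₁ B₂ (T i))) fun σ hσ => ?_).trans ?_
  · have hB := hS.tree h ξ _ (Finset.card_pos.1 (lt_of_le_of_lt (Nat.zero_le _) hσ))
      fun a ha => (Finset.mem_filter.1 ha).2.1
    obtain ⟨A, hAB, hA, hcard⟩ := hB.littlestone j hσ
    have hAW : ∀ a ∈ A, S.W h ξ a ≠ 0 := fun a ha => (Finset.mem_filter.1 (hAB ha)).2.1
    refine ⟨A.image f, Finset.mem_powersetCard.2 ⟨Finset.subset_univ _, ?_⟩, ?_, ?_⟩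
    · rw [← hcard]
      refine Finset.card_image_of_injOn fun a ha b hb hab => ?_
      by_contra hne
      obtain ⟨i, hi⟩ := hA.sep ha hb hne
      have e := congrArg (fun ω : S.Ω => (ω : S.ι → ℤ) i) hab
      simp only [hf a (hAW a ha), hf b (hAW b hb), Pi.sub_apply] at e
      omega
    · refine hA.image f id (fun i => -S.pos h ξ a₀ i) fun a ha i => ?_
      rw [hf a (hAW a ha), id, Pi.sub_apply, sub_eq_add_neg]
    · intro ω hω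
      obtain ⟨a, ha, rfl⟩ := Finset.mem_image.1 hω
      have hU := (Finset.mem_filter.1 (hAB ha)).2.2
      rw [hf a (hAW a ha), hw']
      simp only [Pi.sub_apply, sub_smul, Finset.sum_sub_distrib]
      refine (congrArg U ?_).mp hU
      abel
  · refine (fr_exists_le _ _).trans ?_
    refine (Finset.sum_le_card_nsmul _ _ (N ^ (j * 2 ^ j) * ε ^ 2 ^ j) fun C hC => ?_).trans ?_
    · by_cases hC' : Tree (fun ω : S.Ω => (ω : S.ι → ℤ)) j C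
      · refine (fr_mono fun σ hσ => hσ.2).trans ?_
        have := hT C hC' w'
        rwa [(Finset.mem_powersetCard.1 hC).2] at this
      · exact (fr_false fun σ hσ => hC' hσ.1).le.trans (by positivity)
    · rw [Finset.card_powersetCard, Finset.card_univ, Fintype.card_coe, nsmul_eq_mul, mul_pow,
        mul_pow, ← pow_mul, mul_assoc]
      refine mul_le_mul_of_nonneg_right ?_ (by positivity)
      exact_mod_cast Nat.choose_le_pow _ _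

/-- For a target `h'`, `v₂` and alternatives `((ξ, r₁), r₂)`:
`∑ l, W' l * mul₂ (…) = ∑ a, W a * M12 (x a)` with
`x a = tau (red (box r₁), red (box r₂)) + w - ∑ i, pos a i • tau (T₁ i, T₂ (inl i))`,
`w = (v1, v₂ - t0 • T₂ (inr none))`, `(x a).1 = uu` (`lift_red_box`). The alternatives fail only
if `(ξ, r₁)` fails `RowGood` at `v = red v1` (frequency `≤ τ`) or there are many bad particles
(`many_bad`, `fr_comp_le` for `(r₁, r₂) ↦ (red (box r₁), red (box r₂))`); otherwise `total_ge`. -/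
theorem row_good (S : St) {c₀ αS tot R : ℝ} {D : ℕ} (hS : S.Geo c₀ D αS tot R) {B₁ B₂ : Blk}
    {e₁ α₁ β₁ κ₁ R₁ e₂ α₂ β₂ κ₂ R₂ : ℝ} (h₁ : B₁.Good e₁ α₁ β₁ κ₁ R₁)
    (h₂ : B₂.Good e₂ α₂ β₂ κ₂ R₂) (T₁ : S.ι → B₁.A) (g₁ : B₁.A)
    (T₂ : S.ι ⊕ Option (Fin B₁.k) → B₂.A) (g₂ : B₂.A) {c τ m₀ tiny N ε : ℝ} (j : ℕ)
    (hm0 : 0 ≤ m₀) (hm1 : m₀ ≤ 1) (ht : 0 ≤ tiny) (hN : 0 ≤ N) (hε : 0 ≤ ε)
    (hrow : S.RowGood B₁ T₁ g₁ c τ)
    (hT : SplitGood B₁ B₂ S.Ω (Ubad B₁ B₂ g₁ g₂ (fun o => T₂ (Sum.inr o)) m₀ tiny)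
      (fun i => (T₁ i, T₂ (Sum.inl i))) N ε j) :
    (S.ext B₁ T₁ g₁).RowGood B₂ T₂ g₂ (m₀ * c - (D + 1) ^ j * αS * β₁ - tiny * tot)
      (τ + (S.Ω.card * N ^ j * ε) ^ 2 ^ j *
        (((B₁.p : ℝ) / B₁.rh) ^ B₁.k * ((B₂.p : ℝ) / B₂.rh) ^ B₂.k)) := by
  classical
  intro h' v₂
  have := hS.ne
  have : Nonempty B₁.Box := ⟨fun _ => ⟨0, h₁.rh_pos⟩⟩
  have : Nonempty B₂.Box := ⟨fun _ => ⟨0, h₂.rh_pos⟩⟩
  set h : S.ι → ℝ := fun i => h' (Sum.inl i) with hh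
  set w : (Fin B₁.k → ℤ) × B₂.A := (S.v1 B₁ g₁ h', v₂ - S.t0 B₁ h' • T₂ (Sum.inr none)) with hw
  let φ : B₁.Box × B₂.Box → B₁.A × B₂.A := fun r => (B₁.red (B₁.box r.1), B₂.red (B₂.box r.2))
  have hφ : Function.Injective φ := fun r r' e =>
    Prod.ext (Blk.red_box_injective h₁.rh_le (congrArg Prod.fst e))
      (Blk.red_box_injective h₂.rh_le (congrArg Prod.snd e))
  let X : S.Ξ → B₁.A × B₂.A → S.Lab → (Fin B₁.k → ℤ) × B₂.A := fun ξ σ a =>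
    tau B₁ B₂ σ + w - ∑ i, S.pos h ξ a i • tau B₁ B₂ (T₁ i, T₂ (Sum.inl i))
  let G1 : S.Ξ × B₁.Box → Prop := fun x => c ≤ ∑ a, S.W h x.1 a *
    B₁.mul g₁ (B₁.red (S.v1 B₁ g₁ h') + B₁.red (B₁.box x.2) - ∑ j, S.pos h x.1 a j • T₁ j)
  let Bad : S.Ξ → B₁.A × B₂.A → Prop := fun ξ σ => (D + 1) ^ j <
    (Finset.univ.filter fun a => S.W h ξ a ≠ 0 ∧
      Ubad B₁ B₂ g₁ g₂ (fun o => T₂ (Sum.inr o)) m₀ tiny (X ξ σ a)).card
  have hX1 : ∀ (x : S.Ξ × B₁.Box) (r₂ : B₂.Box) a,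
      (X x.1 (φ (x.2, r₂)) a).1 = S.uu B₁ T₁ g₁ h' x a := by
    intro x r₂ a
    simp only [X, φ, hw, Prod.fst_sub, Prod.fst_add, Prod.fst_sum, Prod.smul_fst]
    unfold tau St.uu St.lin
    simp only [Blk.lift_red_box h₁.rh_le]
    funext i
    simp only [Pi.sub_apply, Pi.add_apply, Finset.sum_apply, Pi.smul_apply, smul_eq_mul]
    ring
  have hX2 : ∀ (x : S.Ξ × B₁.Box) (r₂ : B₂.Box) a,
      (X x.1 (φ (x.2, r₂)) a).2 = B₂.red (B₂.box r₂) + (v₂ - S.t0 B₁ h' • T₂ (Sum.inr none)) -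
        ∑ i, S.pos h x.1 a i • T₂ (Sum.inl i) := by
    intro x r₂ a
    simp only [X, φ, hw, Prod.snd_sub, Prod.snd_add, Prod.snd_sum, Prod.smul_snd]
    rfl
  have hsum : ∀ (x : S.Ξ × B₁.Box) (r₂ : B₂.Box),
      ∑ l, (S.ext B₁ T₁ g₁).W h' x l * B₂.mul g₂ (v₂ + B₂.red (B₂.box r₂) -
        ∑ i, (S.ext B₁ T₁ g₁).pos h' x l i • T₂ i) =
      ∑ a, S.W h x.1 a * M12 B₁ B₂ g₁ g₂ (fun o => T₂ (Sum.inr o)) (X x.1 (φ (x.2, r₂)) a) := by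
    intro x r₂
    change ∑ l : S.Lab × (B₁.T × (Fin B₁.k → Bool)), S.W h x.1 l.1 *
      B₁.wt g₁ (B₁.red (S.uu B₁ T₁ g₁ h' x l.1)) l.2.1 l.2.2 * B₂.mul g₂ (v₂ + B₂.red (B₂.box r₂) -
        ∑ i : S.ι ⊕ Option (Fin B₁.k), (Sum.elim (S.pos h x.1 l.1) (fun o =>
          B₁.kid g₁ (S.uu B₁ T₁ g₁ h' x l.1) l.2.1 l.2.2 o + o.elim (S.t0 B₁ h') fun _ => 0) i : ℤ) •
            T₂ i) = _
    rw [Fintype.sum_prod_type]
    refine Finset.sum_congr rfl fun a _ => ?_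
    unfold M12
    rw [hX1, hX2, Fintype.sum_prod_type, ← Finset.sum_coe_sort B₁.T, Finset.mul_sum]
    refine Finset.sum_congr rfl fun t _ => ?_
    rw [Finset.mul_sum]
    refine Finset.sum_congr rfl fun ε' _ => ?_
    rw [mul_assoc]
    congr 3
    rw [Fintype.sum_sum_type]
    simp only [Sum.elim_inl, Sum.elim_inr, add_smul, Finset.sum_add_distrib]
    rw [Fintype.sum_option (fun o : Option (Fin B₁.k) =>
      (o.elim (S.t0 B₁ h') fun _ => 0 : ℤ) • T₂ (Sum.inr o))]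
    simp only [Option.elim_none, Option.elim_some, zero_smul, Finset.sum_const_zero, add_zero]
    abel
  have hkey : ∀ (x : S.Ξ × B₁.Box) (r₂ : B₂.Box), G1 x → ¬ Bad x.1 (φ (x.2, r₂)) →
      m₀ * c - (D + 1) ^ j * αS * β₁ - tiny * tot ≤
      ∑ l, (S.ext B₁ T₁ g₁).W h' x l * B₂.mul g₂ (v₂ + B₂.red (B₂.box r₂) -
        ∑ i, (S.ext B₁ T₁ g₁).pos h' x l i • T₂ i) := by
    intro x r₂ hG hB
    rw [hsum]
    refine total_ge g₁ g₂ _ h₁ h₂ _ _ (hS.W_nonneg h x.1) (hS.W_le h x.1) hS.α_nonneg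
      (hS.tot_le h x.1) hm0 hm1 ht ?_ (Finset.univ.filter fun a => S.W h x.1 a ≠ 0 ∧
        Ubad B₁ B₂ g₁ g₂ (fun o => T₂ (Sum.inr o)) m₀ tiny (X x.1 (φ (x.2, r₂)) a)) ?_
      fun a ha hU => Finset.mem_filter.2 ⟨Finset.mem_univ _, ha, hU⟩
    · simp only [hX1, St.red_uu]
      exact hG
    · exact_mod_cast not_lt.1 hB
  have h1 : fr (fun x : (S.Ξ × B₁.Box) × B₂.Box => ¬ G1 x.1) ≤ τ := by
    rw [fr_prod]
    have e : (fun x : S.Ξ × B₁.Box => fr fun _ : B₂.Box => ¬ G1 x) =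
        fun x => if ¬ G1 x then 1 else 0 := by
      funext x
      split_ifs with hx
      · exact fr_false fun _ h => h hx
      · exact fr_true fun _ => hx
    simp only
    rw [e, ← fr_eq_av, fr_not]
    have := hrow h (B₁.red (S.v1 B₁ g₁ h'))
    linarith
  have h2 : fr (fun x : (S.Ξ × B₁.Box) × B₂.Box => Bad x.1.1 (φ (x.1.2, x.2))) ≤
      (S.Ω.card * N ^ j * ε) ^ 2 ^ j *
        (((B₁.p : ℝ) / B₁.rh) ^ B₁.k * ((B₂.p : ℝ) / B₂.rh) ^ B₂.k) := by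
    have e := fr_equiv (Equiv.prodAssoc S.Ξ B₁.Box B₂.Box) fun y => Bad y.1 (φ y.2)
    refine e.le.trans ?_
    rw [fr_prod]
    refine (av_mono fun ξ => ?_).trans (av_const _).le
    refine (fr_comp_le hφ (Bad ξ)).trans (mul_le_mul ?_ (le_of_eq ?_) (by positivity)
      (by positivity))
    · have := many_bad S hS B₁ B₂ _ _ hN hε j hT h ξ w
      refine le_trans (le_of_eq (fr_congr fun σ => ?_)) this
      simp only [Bad, X]
    · simp only [Fintype.card_prod, Fintype.card_pi, ZMod.card, Finset.prod_const,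
        Finset.card_univ, Fintype.card_fin, div_pow]
      push_cast
      rw [mul_div_mul_comm]
  have h3 := fr_or_le (fun x : (S.Ξ × B₁.Box) × B₂.Box => ¬ G1 x.1)
    (fun x => Bad x.1.1 (φ (x.1.2, x.2)))
  have h4 := fr_not (fun x : (S.Ξ × B₁.Box) × B₂.Box => ¬ G1 x.1 ∨ Bad x.1.1 (φ (x.1.2, x.2)))
  have h5 := fr_mono (p := fun x : (S.Ξ × B₁.Box) × B₂.Box =>
    ¬ (¬ G1 x.1 ∨ Bad x.1.1 (φ (x.1.2, x.2)))) fun x hx =>
      hkey x.1 x.2 (not_not.1 (not_or.1 hx).1) (not_or.1 hx).2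
  refine le_trans ?_ h5
  linarith

end Crest.Agent.R225
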