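import Crest.Agent.R225.OSb
import Crest.Agent.R225.Split

/-! Task `R225 OSc`: the one step lemma. -/

set_option autoImplicit false

namespace Crest.Agent.R225

namespace OScAux

variable {X Y : Type} [Fintype X] [Fintype Y]

lemma fr_fst [Nonempty Y] (p : X → Prop) : fr (fun x : X × Y => p x.1) = fr p := by
  classical
  rw [fr_prod, fr_eq_av p]
  refine congrArg av (funext fun x => ?_)
  split_ifs with h
  · exact fr_true fun _ => h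
  · exact fr_false fun _ => h

lemma fr_snd [Nonempty X] (p : Y → Prop) : fr (fun x : X × Y => p x.2) = fr p := by
  rw [fr_prod]
  exact av_const (X := X) (fr p)

lemma fr_prod_le [Nonempty X] {p : X × Y → Prop} {c : ℝ} (h : ∀ x, fr (fun y => p (x, y)) ≤ c) :
    fr p ≤ c := by
  rw [fr_prod]
  exact (av_mono h).trans (av_const c).le

lemma fr_and_le (q : Prop) (p : X → Prop) {c : ℝ} (hc : 0 ≤ c) (h : q → fr p ≤ c) :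
    fr (fun x => q ∧ p x) ≤ c := by
  by_cases hq : q
  · exact (fr_mono fun _ hx => hx.2).trans (h hq)
  · exact (fr_false fun _ hx => hq hx.1).le.trans hc

/-- Regrouping of a pair of rows. -/
def eqv (ι κ A₁ A₂ : Type) : ((ι → A₁) × A₁) × ((ι ⊕ κ → A₂) × A₂) ≃
    (A₁ × A₂) × ((κ → A₂) × (ι → A₁ × A₂)) where
  toFun x := ((x.1.2, x.2.2), (fun o => x.2.1 (Sum.inr o), fun i => (x.1.1 i, x.2.1 (Sum.inl i))))
  invFun z := ((fun i => (z.2.2 i).1, z.1.1), (Sum.elim (fun i => (z.2.2 i).2) z.2.1, z.1.2))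
  left_inv x := by
    refine Prod.ext rfl (Prod.ext (funext fun i => ?_) rfl)
    cases i <;> rfl
  right_inv _ := rfl

end OScAux

open OScAux in
/-- On the product of `Row₁ = (ι → A₁) × A₁` and `Row₂ = (ι ⊕ Option (Fin k₁) → A₂) × A₂`
(`T₂ ≃ (T₂⁰, Tk)` by `Equiv.sumArrowEquivProdArrow`, `(T₁, T₂⁰) ≃ (ι → A₁ × A₂)` by
`Equiv.arrowProdEquivProdArrow`) the pair is bad only if `row₁` is not `RowGood` (`≤ π`), or
`av (mul g₂) < m₀ = 1 - e₂ - η` (`coll_prob`), or `fr Ubad > ε` (`Ubad_small`), or `SplitGood`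
fails (`split_quot` with `tau_transversal`, `Ubad_periodic`, labels `↥S.Ω`). `row_good`, then fix
`row₁` by `exists_le_av`. -/
theorem one_step (S : St) {c₀ αS tot R : ℝ} {D : ℕ} (hS : S.Geo c₀ D αS tot R) {B₁ B₂ : Blk}
    {e₁ α₁ β₁ κ₁ R₁ e₂ α₂ β₂ κ₂ R₂ : ℝ} (h₁ : B₁.Good e₁ α₁ β₁ κ₁ R₁)
    (h₂ : B₂.Good e₂ α₂ β₂ κ₂ R₂) {c π τ η tiny N ε : ℝ} (j : ℕ) (hnxt : S.Nxt B₁ c π τ)
    (hη : 0 < η) (hm0 : 0 ≤ 1 - e₂ - η) (he : 0 ≤ e₂) (ht : 0 < tiny) (hε : 0 < ε)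
    (hN : (S.Ω.card : ℝ) ≤ N) (hN1 : 1 ≤ N) :
    ∃ (T₁ : S.ι → B₁.A) (g₁ : B₁.A), (S.ext B₁ T₁ g₁).Nxt B₂
      ((1 - e₂ - η) * c - (D + 1) ^ j * αS * β₁ - tiny * tot)
      (π + κ₂ / η + α₁ * β₂ * β₁ / (tiny ^ 2 * ε) + 2 * j * S.Ω.card / N)
      (τ + (S.Ω.card * N ^ j * ε) ^ 2 ^ j *
        (((B₁.p : ℝ) / B₁.rh) ^ B₁.k * ((B₂.p : ℝ) / B₂.rh) ^ B₂.k)) := by
  have hα₁ := h₁.α_nonneg
  have hβ₁ := h₁.β_nonneg
  have hβ₂ := h₂.β_nonneg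
  set m₀ := 1 - e₂ - η with hm₀
  have b1 : fr (fun x : ((S.ι → B₁.A) × B₁.A) × ((S.ι ⊕ Option (Fin B₁.k) → B₂.A) × B₂.A) =>
      ¬ S.RowGood B₁ x.1.1 x.1.2 c τ) ≤ π := by
    rw [fr_fst fun row : (S.ι → B₁.A) × B₁.A => ¬ S.RowGood B₁ row.1 row.2 c τ, fr_not]
    have : 1 - π ≤ _ := hnxt
    linarith
  have b2 : fr (fun x : ((S.ι → B₁.A) × B₁.A) × ((S.ι ⊕ Option (Fin B₁.k) → B₂.A) × B₂.A) =>
      av (B₂.mul x.2.2) < m₀) ≤ κ₂ / η := by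
    rw [fr_snd fun row : (S.ι ⊕ Option (Fin B₁.k) → B₂.A) × B₂.A => av (B₂.mul row.2) < m₀,
      fr_snd fun g : B₂.A => av (B₂.mul g) < m₀]
    exact h₂.coll_prob hη
  have b3 : fr (fun z : (B₁.A × B₂.A) × ((Option (Fin B₁.k) → B₂.A) × (S.ι → B₁.A × B₂.A)) =>
      m₀ ≤ av (B₂.mul z.1.2) ∧
        ε < fr fun σ : B₁.A × B₂.A => Ubad B₁ B₂ z.1.1 z.1.2 z.2.1 m₀ tiny (tau B₁ B₂ σ)) ≤
      α₁ * β₂ * β₁ / (tiny ^ 2 * ε) := by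
    refine fr_prod_le fun g => fr_and_le (m₀ ≤ av (B₂.mul g.2))
      (fun y : (Option (Fin B₁.k) → B₂.A) × (S.ι → B₁.A × B₂.A) =>
        ε < fr fun σ : B₁.A × B₂.A => Ubad B₁ B₂ g.1 g.2 y.1 m₀ tiny (tau B₁ B₂ σ))
      (c := α₁ * β₂ * β₁ / (tiny ^ 2 * ε)) (by positivity) fun h => ?_
    rw [fr_fst fun Tk : Option (Fin B₁.k) → B₂.A =>
      ε < fr fun σ : B₁.A × B₂.A => Ubad B₁ B₂ g.1 g.2 Tk m₀ tiny (tau B₁ B₂ σ)]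
    exact Ubad_small g.1 g.2 h₁ h₂ h ht hε
  have b4 : fr (fun z : (B₁.A × B₂.A) × ((Option (Fin B₁.k) → B₂.A) × (S.ι → B₁.A × B₂.A)) =>
      (fr fun σ : B₁.A × B₂.A => Ubad B₁ B₂ z.1.1 z.1.2 z.2.1 m₀ tiny (tau B₁ B₂ σ)) ≤ ε ∧
        ¬ SplitGood B₁ B₂ S.Ω (Ubad B₁ B₂ z.1.1 z.1.2 z.2.1 m₀ tiny) z.2.2 N ε j) ≤
      2 * j * S.Ω.card / N := by
    refine fr_prod_le fun g => fr_prod_le fun Tk => fr_and_le
      ((fr fun σ : B₁.A × B₂.A => Ubad B₁ B₂ g.1 g.2 Tk m₀ tiny (tau B₁ B₂ σ)) ≤ ε)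
      (fun T => ¬ SplitGood B₁ B₂ S.Ω (Ubad B₁ B₂ g.1 g.2 Tk m₀ tiny) T N ε j)
      (c := 2 * j * S.Ω.card / N) (by positivity) fun h => ?_
    have h3 := split_quot (Gam B₁ B₂ Tk) (tau B₁ B₂) (tau_transversal B₁ B₂ Tk)
      (fun ω : S.Ω => (ω : S.ι → ℤ)) (Ubad B₁ B₂ g.1 g.2 Tk m₀ tiny)
      (Ubad_periodic B₁ B₂ g.1 g.2 Tk m₀ tiny) ε h N (by rwa [Fintype.card_coe]) hN1 j
    rw [Fintype.card_coe] at h3
    exact h3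
  rw [← fr_equiv (eqv S.ι (Option (Fin B₁.k)) B₁.A B₂.A)] at b3 b4
  have b5 := ((fr_or_le _ _).trans (add_le_add ((fr_or_le _ _).trans (add_le_add
    ((fr_or_le _ _).trans (add_le_add b1 b2)) b3)) b4))
  rw [fr_prod] at b5
  obtain ⟨row, hrow⟩ := exists_le_av (X := (S.ι → B₁.A) × B₁.A) _
  refine ⟨row.1, row.2, ?_⟩
  have b6 := (fr_mono (p := fun x : (S.ι ⊕ Option (Fin B₁.k) → B₂.A) × B₂.A =>
    ¬ (S.ext B₁ row.1 row.2).RowGood B₂ x.1 x.2 (m₀ * c - (D + 1) ^ j * αS * β₁ - tiny * tot)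
      (τ + (S.Ω.card * N ^ j * ε) ^ 2 ^ j *
        (((B₁.p : ℝ) / B₁.rh) ^ B₁.k * ((B₂.p : ℝ) / B₂.rh) ^ B₂.k))) fun x hx => ?_).trans
    (hrow.trans b5)
  · rw [fr_not] at b6
    exact sub_le_comm.1 b6
  · by_contra h
    simp only [not_or, not_and, not_not, not_lt] at h
    exact hx (row_good S hS h₁ h₂ row.1 row.2 x.1 x.2 j hm0 (by linarith) ht.le (by linarith) hε.le
      h.1.1.1 (h.2 (h.1.2 h.1.1.2)))

end Crest.Agent.R225
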