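import Crest.Agent.R225.Pair

/-! Task `R225 Overlap`: intensity of half spaces, their overlaps and costs. -/

set_option autoImplicit false
open scoped RealInnerProductSpace

namespace Crest.Agent.R225

variable {n : ℕ} {α : Type} [Fintype α] [DecidableEq α] {cL : ℝ} {u : α → E n} {lam : α → ℝ}

omit [DecidableEq α] in
lemma Ov_mem {v : E n} {θ : ℝ} {a : α} : a ∈ Hs u v θ ↔ θ < ⟪u a, v⟫ := by
  simp only [Hs, Finset.mem_filter, Finset.mem_univ, true_and]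

omit [DecidableEq α] in
lemma Ov_scale {v : E n} (hv : 0 < ‖v‖) (θ : ℝ) :
    Hs u v θ = Hs u (‖v‖⁻¹ • v) (θ / ‖v‖) := by
  ext a
  rw [Ov_mem, Ov_mem, real_inner_smul_right, ← div_eq_inv_mul, div_lt_div_iff_of_pos_right hv]

lemma Ov_th0 (n : ℕ) : 20 * √n ≤ th0 n := le_add_of_nonneg_right (by positivity)

lemma Ov_mid (v v' : E n) {r d : ℝ} (hv : ‖v‖ ≤ r) (hv' : ‖v'‖ ≤ r) (hd0 : 0 ≤ d)
    (h : d ≤ ‖v - v'‖) : ‖(1 / 2 : ℝ) • (v + v')‖ ^ 2 ≤ r ^ 2 - d ^ 2 / 4 := by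
  have h1 := parallelogram_law_with_norm ℝ v v'
  have h2 := pow_le_pow_left₀ (norm_nonneg _) hv 2
  have h3 := pow_le_pow_left₀ (norm_nonneg _) hv' 2
  have h4 := pow_le_pow_left₀ hd0 h 2
  rw [norm_smul, Real.norm_of_nonneg (by norm_num)]
  nlinarith

omit [DecidableEq α] in
lemma Ov_mem_mid {v v' : E n} {a : α} (h : a ∈ Hs u v (th0 n)) (h' : a ∈ Hs u v' (th0 n)) :
    20 * √n < ⟪u a, (1 / 2 : ℝ) • (v + v')⟫ := by
  rw [Ov_mem] at h h'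
  rw [real_inner_smul_right, inner_add_right]
  linarith [Ov_th0 n]

omit [DecidableEq α] in
lemma Hs_shift (G : Gnd cL u lam) {v v' : E n} {θ d : ℝ} (h : ‖v - v'‖ ≤ d) :
    Hs u v (θ + 21 * √n * d) ⊆ Hs u v' θ := by
  intro a ha
  rw [Ov_mem] at ha ⊢
  have h1 : ‖u a‖ ≤ 21 * √n := by
    refine (pow_le_pow_iff_left₀ (norm_nonneg _) (by positivity) two_ne_zero).1 ?_
    rw [mul_pow, Real.sq_sqrt (Nat.cast_nonneg n)]
    linarith [G.norm_le a, (Nat.cast_nonneg n : (0 : ℝ) ≤ n)]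
  have h2 := real_inner_le_norm (u a) (v - v')
  have h3 := mul_le_mul h1 h (norm_nonneg _) (by positivity)
  rw [inner_sub_right] at h2
  linarith

/-- `H(v) ∩ H(v') ⊆ H((v+v')/2)`, parallelogram law:
`‖(v+v')/2‖² ≤ (1 + n⁻²)² - d²/4 ≤ 1 - d²/5`, so `s² ≥ 400 n (1 + d²/5)`. -/
lemma overlap_le (G : Gnd cL u lam) (hn : 1 ≤ n) {v v' : E n} {d : ℝ}
    (hv : ‖v‖ ≤ 1 + 1 / (n : ℝ) ^ 2) (hv' : ‖v'‖ ≤ 1 + 1 / (n : ℝ) ^ 2)
    (hd : 60 / (n : ℝ) ^ 2 ≤ d ^ 2) (hd0 : 0 ≤ d) (h : d ≤ ‖v - v'‖) :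
    ∑ a ∈ Hs u v (th0 n) ∩ Hs u v' (th0 n), lam a ≤ Real.exp (-40 * n * d ^ 2) := by
  have hn' : (1 : ℝ) ≤ n := by exact_mod_cast hn
  have hw := Ov_mid v v' hv hv' hd0 h
  have hsub : Hs u v (th0 n) ∩ Hs u v' (th0 n) ⊆ Hs u ((1 / 2 : ℝ) • (v + v')) (20 * √n) :=
    fun a ha => Ov_mem.2 (Ov_mem_mid (Finset.mem_inter.1 ha).1 (Finset.mem_inter.1 ha).2)
  refine (Finset.sum_le_sum_of_subset_of_nonneg hsub fun a _ _ => G.nonneg a).trans ?_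
  generalize (1 / 2 : ℝ) • (v + v') = w at hw
  have e1 : (60 : ℝ) / (n : ℝ) ^ 2 = 60 * (1 / (n : ℝ) ^ 2) := by ring
  have e2 : 1 / (n : ℝ) ^ 2 ≤ 1 := (div_le_one (by positivity)).2 (one_le_pow₀ hn')
  have e3 : 0 ≤ 1 / (n : ℝ) ^ 2 := by positivity
  have hw' : ‖w‖ ^ 2 ≤ 1 - d ^ 2 / 5 := by nlinarith
  rcases (norm_nonneg w).eq_or_lt with h0 | h0
  · rw [norm_eq_zero.1 h0.symm, Finset.sum_eq_zero]
    · positivity
    · intro a ha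
      rw [Ov_mem, inner_zero_right] at ha
      exact absurd ha (not_lt.2 (by positivity))
  have hs : (20 * √n / ‖w‖) ^ 2 * ‖w‖ ^ 2 = 400 * n := by
    rw [← mul_pow, div_mul_cancel₀ _ h0.ne', mul_pow, Real.sq_sqrt (Nat.cast_nonneg n)]
    norm_num
  have hs0 : 0 ≤ 20 * √n / ‖w‖ := by positivity
  rw [Ov_scale h0]
  generalize 20 * √n / ‖w‖ = s at hs hs0
  have k1 := mul_le_mul_of_nonneg_left hw' (sq_nonneg s)
  have k2 : 400 * n ≤ s ^ 2 := by nlinarith [mul_nonneg (sq_nonneg s) (sq_nonneg d)]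
  have k3 := mul_le_mul_of_nonneg_right k2 (sq_nonneg d)
  refine (G.upper _ (norm_smul_inv_norm (norm_pos_iff.1 h0)) s hs0 k2).trans ?_
  have k4 : Real.exp ((400 * n - s ^ 2) / 2) ≤ Real.exp (-40 * n * d ^ 2) :=
    Real.exp_le_exp.2 (by nlinarith)
  linarith [Real.exp_pos ((400 * n - s ^ 2) / 2)]

/-- Locality: `‖u‖² ≤ 403 n` while `⟪u, (v+v')/2⟫ > 20 √n`. -/
lemma overlap_far (G : Gnd cL u lam) (hn : 100 ≤ n) {v v' : E n}
    (hv : ‖v‖ ≤ 1 + 1 / (n : ℝ) ^ 2) (hv' : ‖v'‖ ≤ 1 + 1 / (n : ℝ) ^ 2)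
    (h : 1 / 5 ≤ ‖v - v'‖) : Disjoint (Hs u v (th0 n)) (Hs u v' (th0 n)) := by
  have hn' : (100 : ℝ) ≤ n := by exact_mod_cast hn
  refine Finset.disjoint_left.2 fun a ha ha' => ?_
  have h1 := (Ov_mem_mid ha ha').trans_le (real_inner_le_norm _ _)
  have e2 : 1 / (n : ℝ) ^ 2 ≤ 1 / 100 ^ 2 := by gcongr
  have hw := Ov_mid v v' (hv.trans (add_le_add_right e2 1)) (hv'.trans (add_le_add_right e2 1))
    (by norm_num) h
  have h2 := pow_lt_pow_left₀ h1 (by positivity) two_ne_zero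
  rw [mul_pow, mul_pow, Real.sq_sqrt (Nat.cast_nonneg n)] at h2
  have h3 := mul_le_mul (G.norm_le a) hw (sq_nonneg _) (by positivity)
  nlinarith

omit [DecidableEq α] in
/-- Lower bound for the intensity of `H(v, θ₀ + 21 √n d)`; `s = (θ₀ + 21 √n d) / ‖v‖`,
`400 n ≤ s² ≤ 400 n (1 + 3 (η + d + n⁻²))²` where `‖v‖ ≥ 1 - η`. -/
lemma half_lower (G : Gnd cL u lam) (hcL : 0 ≤ cL) (hn : 1000 ≤ n) {v : E n} {η d : ℝ}
    (hη : 0 ≤ η) (hd : 0 ≤ d) (hs : η + d ≤ 1 / 100000)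
    (hv : ‖v‖ ≤ 1 + 1 / (n : ℝ) ^ 2) (hv' : 1 - η ≤ ‖v‖) :
    cL * Real.exp (-(2000 * n * (η + d) + 2)) ≤ ∑ a ∈ Hs u v (th0 n + 21 * √n * d), lam a := by
  have hn' : (1000 : ℝ) ≤ n := by exact_mod_cast hn
  have h0 : 0 < ‖v‖ := by linarith
  have e1 : 1 / (n : ℝ) ^ 2 ≤ 1 / 1000 ^ 2 := by gcongr
  have e2 : 0 ≤ 1 / (n : ℝ) ^ 2 := by positivity
  have e3 : n * (1 / (n : ℝ) ^ 2) ≤ 1 / 1000 := by
    rw [show n * (1 / (n : ℝ) ^ 2) = 1 / n by field_simp]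
    gcongr
  have e4 : (th0 n + 21 * √n * d) / ‖v‖ = √n * ((20 + 21 * (1 / (n : ℝ) ^ 2 + d)) / ‖v‖) := by
    unfold th0
    ring
  have hσ : (20 + 21 * (1 / (n : ℝ) ^ 2 + d)) / ‖v‖ * ‖v‖ = 20 + 21 * (1 / (n : ℝ) ^ 2 + d) :=
    div_mul_cancel₀ _ h0.ne'
  have hσ1 : 20 ≤ (20 + 21 * (1 / (n : ℝ) ^ 2 + d)) / ‖v‖ := (le_div_iff₀ h0).2 (by linarith)
  have hσ2 : (20 + 21 * (1 / (n : ℝ) ^ 2 + d)) / ‖v‖ ≤ 21 := (div_le_iff₀ h0).2 (by linarith)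
  rw [Ov_scale h0, e4]
  generalize (20 + 21 * (1 / (n : ℝ) ^ 2 + d)) / ‖v‖ = σ at hσ hσ1 hσ2
  generalize 1 / (n : ℝ) ^ 2 = t at *
  have k1 : σ ≤ 20 + 21 * (t + d + η) := by nlinarith
  have k2 : σ ^ 2 ≤ 400 + 841 * (t + d + η) := by
    have := pow_le_pow_left₀ (by linarith) k1 2
    nlinarith
  have k3 : (√n * σ) ^ 2 = n * σ ^ 2 := by rw [mul_pow, Real.sq_sqrt (Nat.cast_nonneg n)]
  have k4 := mul_le_mul_of_nonneg_left k2 (Nat.cast_nonneg n : (0 : ℝ) ≤ n)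
  have k5 : (n : ℝ) * 400 ≤ n * σ ^ 2 := mul_le_mul_of_nonneg_left (by nlinarith) (by linarith)
  have k6 : (n : ℝ) * (η + d) ≤ n * (1 / 100000) := mul_le_mul_of_nonneg_left hs (by linarith)
  have k7 : 0 ≤ (n : ℝ) * (η + d) := by positivity
  refine le_trans ?_ (G.lower _ (norm_smul_inv_norm (norm_pos_iff.1 h0)) _ (by positivity)
    (by rw [k3]; linarith) (by rw [k3]; linarith))
  refine mul_le_mul_of_nonneg_left (Real.exp_le_exp.2 ?_) hcL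
  rw [k3]
  linarith

/-- If `v` is not deeper than `1 - J/n` with `J + 2 ≤ n`, then `1 ≤ Phi v ≤ J + 2` and
`‖v‖ ≥ 1 - Phi v / n`. -/
lemma Phi_facts (hn : 2 ≤ n) {v : E n} {J : ℝ} (hJ0 : 0 ≤ J) (hJ : J + 2 ≤ n)
    (hv : ‖v‖ ≤ 1 + 1 / (n : ℝ) ^ 2) (hv' : 1 - J / n ≤ ‖v‖) :
    1 ≤ Phi v ∧ (Phi v : ℝ) ≤ J + 2 ∧ 1 - (Phi v : ℝ) / n ≤ ‖v‖ := by
  have hn' : (0 : ℝ) < n := by linarith
  refine ⟨Finset.card_pos.2 ⟨0, Finset.mem_filter.2 ⟨Finset.mem_range.2 (by omega), ?_⟩⟩, ?_, ?_⟩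
  · simpa using hv
  · have h1 : Phi v ≤ (Finset.range (⌊J + 1⌋₊ + 1)).card := by
      refine Finset.card_le_card fun i hi => Finset.mem_range.2 (Nat.lt_succ_of_le ?_)
      have h2 := (Finset.mem_filter.1 hi).2
      have h3 : 1 / (n : ℝ) ^ 2 ≤ 1 / n :=
        one_div_le_one_div_of_le hn' (le_self_pow₀ (by linarith) two_ne_zero)
      have h4 : (i : ℝ) / n ≤ (J + 1) / n := by rw [add_div]; linarith
      exact Nat.le_floor ((div_le_div_iff_of_pos_right hn').1 h4)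
    rw [Finset.card_range] at h1
    have h2 : (Phi v : ℝ) ≤ ⌊J + 1⌋₊ + 1 := by exact_mod_cast h1
    linarith [Nat.floor_le (show 0 ≤ J + 1 by linarith)]
  · by_contra h
    have h1 : (Phi v : ℝ) / n < 1 := by linarith [norm_nonneg v]
    have h2 : Phi v < n := by exact_mod_cast (div_lt_one hn').1 h1
    have h3 : (Finset.range (Phi v + 1)).card ≤ Phi v := by
      refine Finset.card_le_card fun i hi => ?_
      have hi := Nat.le_of_lt_succ (Finset.mem_range.1 hi)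
      refine Finset.mem_filter.2 ⟨Finset.mem_range.2 (by omega), ?_⟩
      have h4 : (i : ℝ) / n ≤ (Phi v : ℝ) / n := by gcongr
      have h5 : 0 ≤ 1 / (n : ℝ) ^ 2 := by positivity
      linarith
    rw [Finset.card_range] at h3
    omega

end Crest.Agent.R225
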