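import Crest.Agent.R225.Harris

/-! Task `R225 Pair`: hitting events. -/

set_option autoImplicit false

namespace Crest.Agent.R225

variable {α : Type} [Fintype α] [DecidableEq α] {lam : α → ℝ}

omit [Fintype α] [DecidableEq α] in
lemma Pair_q0 (hl : ∀ a, 0 ≤ lam a) (a : α) : 0 ≤ qOf lam a := by
  unfold qOf
  have : Real.exp (-lam a) ≤ 1 := Real.exp_le_one_iff.2 (by linarith [hl a])
  linarith

omit [Fintype α] [DecidableEq α] in
lemma Pair_q1 (a : α) : qOf lam a ≤ 1 := by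
  unfold qOf
  linarith [Real.exp_pos (-lam a)]

lemma Pair_const_mul {q : α → ℝ} (c : ℝ) (f : Finset α → ℝ) :
    bE q (fun ω => c * f ω) = c * bE q f := by
  unfold bE
  rw [Finset.mul_sum]
  exact Finset.sum_congr rfl fun ω _ => by ring

lemma Pair_indep {q : α → ℝ} {S T : Finset α} (hd : Disjoint S T) {A B : Finset α → Prop}
    (hA : ∀ ω, A ω ↔ A (ω ∩ S)) (hB : ∀ ω, B ω ↔ B (ω ∩ T)) :
    (bP q fun ω => A ω ∧ B ω) = bP q A * bP q B := by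
  unfold bP
  rw [← bE_indep hd (fun ω => by rw [propext (hA ω)]) (fun ω => by rw [propext (hB ω)])]
  congr 1
  funext ω
  by_cases h1 : A ω <;> by_cases h2 : B ω <;> simp [h1, h2]

lemma cost_nonneg (hl : ∀ a, 0 ≤ lam a) (C : Finset α) : 0 ≤ cost lam C := by
  have h1 : 0 ≤ ∑ a ∈ C, lam a := Finset.sum_nonneg fun a _ => hl a
  have h2 : Real.exp (-∑ a ∈ C, lam a) ≤ 1 := Real.exp_le_one_iff.2 (by linarith)
  have h3 := Real.exp_pos (-∑ a ∈ C, lam a)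
  unfold cost
  exact neg_nonneg.2 (Real.log_nonpos (by linarith) (by linarith))

/-- `cost` is antitone in the intensity: if `0 < x ≤ λ(C)`, `x ≤ 1` then `cost ≤ log (2 / x)`
(`1 - exp (-x) ≥ x / 2` on `[0,1]`). -/
lemma cost_le (C : Finset α) {x : ℝ} (hx : 0 < x) (hx1 : x ≤ 1) (h : x ≤ ∑ a ∈ C, lam a) :
    cost lam C ≤ Real.log (2 / x) := by
  have h1 : Real.exp (-∑ a ∈ C, lam a) ≤ Real.exp (-x) := Real.exp_le_exp.2 (by linarith)
  have h2 : Real.exp (-x) ≤ 1 - x / 2 := by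
    have h3 : 1 + x ≤ Real.exp x := by linarith [Real.add_one_le_exp x]
    rw [Real.exp_neg, inv_le_iff_one_le_mul₀ (Real.exp_pos x)]
    nlinarith
  unfold cost
  rw [show 2 / x = (x / 2)⁻¹ by rw [inv_div], Real.log_inv, neg_le_neg_iff]
  exact Real.log_le_log (by positivity) (by linarith)

lemma hit_mono (𝒞 : Finset (Finset α)) : Monotone (Hit 𝒞) := by
  intro ω ω' h hω C hC
  exact (hω C hC).mono (Finset.inter_subset_inter_right h)

lemma hit_inter (𝒞 : Finset (Finset α)) (ω : Finset α) :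
    Hit 𝒞 ω ↔ Hit 𝒞 (ω ∩ 𝒞.biUnion id) := by
  refine ⟨fun h C hC => ?_, fun h => hit_mono 𝒞 Finset.inter_subset_left h⟩
  obtain ⟨a, ha⟩ := h C hC
  rw [Finset.mem_inter] at ha
  exact ⟨a, Finset.mem_inter.2 ⟨Finset.mem_inter.2 ⟨ha.1, Finset.mem_biUnion.2 ⟨C, hC, ha.2⟩⟩,
    ha.2⟩⟩

/-- Harris, by induction on `𝒞`. -/
theorem hit_lower (hl : ∀ a, 0 ≤ lam a) (𝒞 : Finset (Finset α))
    (hpos : ∀ C ∈ 𝒞, 0 < ∑ a ∈ C, lam a) :
    Real.exp (-∑ C ∈ 𝒞, cost lam C) ≤ bP (qOf lam) (Hit 𝒞) := by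
  induction 𝒞 using Finset.induction_on with
  | empty =>
    have : bP (qOf lam) (Hit (∅ : Finset (Finset α))) = 1 := by
      rw [← bE_const (q := qOf lam) 1]
      unfold bP
      congr 1
      funext ω
      exact if_pos fun C hC => absurd hC (Finset.notMem_empty C)
    simp [this]
  | insert C 𝒞 hC ih =>
    have h1 := ih fun D hD => hpos D (Finset.mem_insert_of_mem hD)
    have h2 : bP (qOf lam) (fun ω => (ω ∩ C).Nonempty) = Real.exp (-cost lam C) := by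
      have h3 := bP_not (q := qOf lam) fun ω => (ω ∩ C).Nonempty
      rw [bP_miss] at h3
      have h4 : Real.exp (-∑ a ∈ C, lam a) < 1 :=
        Real.exp_lt_one_iff.2 (by linarith [hpos C (Finset.mem_insert_self _ _)])
      unfold cost
      rw [neg_neg, Real.exp_log (by linarith)]
      linarith
    have h5 := harris (Pair_q0 hl) Pair_q1 (A := fun ω => (ω ∩ C).Nonempty) (B := Hit 𝒞)
      (fun ω ω' h hω => hω.mono (Finset.inter_subset_inter_right h)) (hit_mono 𝒞)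
    rw [Finset.sum_insert hC, neg_add, Real.exp_add, ← h2]
    refine le_trans (mul_le_mul_of_nonneg_left h1 (bP_nonneg (Pair_q0 hl) Pair_q1 _))
      (h5.trans (bP_mono (Pair_q0 hl) Pair_q1 fun ω hω D hD => ?_))
    rcases Finset.mem_insert.1 hD with rfl | hD
    · exact hω.1
    · exact hω.2 D hD

lemma Pair_dep (𝒞 : Finset (Finset α)) (O τ ω : Finset α) :
    Hit 𝒞 (τ ∪ ω \ O) ↔ Hit 𝒞 (τ ∪ (ω ∩ (𝒞.biUnion id \ O)) \ O) := by
  refine ⟨fun h C hC => ?_, fun h => hit_mono 𝒞 (Finset.union_subset_union_right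
    (Finset.sdiff_subset_sdiff Finset.inter_subset_left (Finset.Subset.refl _))) h⟩
  obtain ⟨a, ha⟩ := h C hC
  refine ⟨a, ?_⟩
  have hU : a ∈ 𝒞.biUnion id := Finset.mem_biUnion.2 ⟨C, hC, (Finset.mem_inter.1 ha).2⟩
  simp only [Finset.mem_inter, Finset.mem_union, Finset.mem_sdiff] at ha ⊢
  tauto

/-- The conditional probability given the trace `τ`. -/
lemma Pair_cond (hl : ∀ a, 0 ≤ lam a) (𝒞 : Finset (Finset α))
    (hpos : ∀ C ∈ 𝒞, 0 < ∑ a ∈ C, lam a) (L : ℝ)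
    (hc : ∀ a, ∑ C ∈ 𝒞.filter (fun C => a ∈ C), cost lam C ≤ L) (O τ : Finset α) :
    (bP (qOf lam) fun ω => Hit 𝒞 (τ ∪ ω \ O)) ≤
      bP (qOf lam) (Hit 𝒞) * Real.exp (L * τ.card) := by
  classical
  have h1 : (bP (qOf lam) fun ω => Hit 𝒞 (τ ∪ ω \ O)) ≤
      bP (qOf lam) (Hit (𝒞.filter fun C => ¬ (τ ∩ C).Nonempty)) := by
    refine bP_mono (Pair_q0 hl) Pair_q1 fun ω hω C hC => ?_
    rw [Finset.mem_filter] at hC
    obtain ⟨a, ha⟩ := hω C hC.1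
    rw [Finset.mem_inter, Finset.mem_union, Finset.mem_sdiff] at ha
    rcases ha.1 with h | h
    · exact (hC.2 ⟨a, Finset.mem_inter.2 ⟨h, ha.2⟩⟩).elim
    · exact ⟨a, Finset.mem_inter.2 ⟨h.1, ha.2⟩⟩
  have h2 := harris (Pair_q0 hl) Pair_q1 (hit_mono (𝒞.filter fun C => ¬ (τ ∩ C).Nonempty))
    (hit_mono (𝒞.filter fun C => (τ ∩ C).Nonempty))
  have h3 : (bP (qOf lam) fun ω => Hit (𝒞.filter fun C => ¬ (τ ∩ C).Nonempty) ω ∧
      Hit (𝒞.filter fun C => (τ ∩ C).Nonempty) ω) ≤ bP (qOf lam) (Hit 𝒞) := by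
    refine bP_mono (Pair_q0 hl) Pair_q1 fun ω hω C hC => ?_
    by_cases h : (τ ∩ C).Nonempty
    · exact hω.2 C (Finset.mem_filter.2 ⟨hC, h⟩)
    · exact hω.1 C (Finset.mem_filter.2 ⟨hC, h⟩)
  have h4 := hit_lower hl (𝒞.filter fun C => (τ ∩ C).Nonempty)
    fun C hC => hpos C (Finset.mem_filter.1 hC).1
  have h5 : ∑ C ∈ 𝒞.filter (fun C => (τ ∩ C).Nonempty), cost lam C ≤ L * τ.card := by
    calc ∑ C ∈ 𝒞.filter (fun C => (τ ∩ C).Nonempty), cost lam C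
        ≤ ∑ C ∈ 𝒞, ∑ a ∈ τ, if a ∈ C then cost lam C else 0 := by
          rw [Finset.sum_filter]
          refine Finset.sum_le_sum fun C _ => ?_
          have h0 : ∀ a ∈ τ, 0 ≤ if a ∈ C then cost lam C else 0 := fun a _ => by
            split_ifs
            exacts [cost_nonneg hl C, le_rfl]
          split_ifs with h
          · obtain ⟨a, ha⟩ := h
            rw [Finset.mem_inter] at ha
            refine le_trans ?_ (Finset.single_le_sum h0 ha.1)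
            rw [if_pos ha.2]
          · exact Finset.sum_nonneg h0
      _ = ∑ a ∈ τ, ∑ C ∈ 𝒞.filter (fun C => a ∈ C), cost lam C := by
          rw [Finset.sum_comm]
          exact Finset.sum_congr rfl fun a _ => (Finset.sum_filter _ _).symm
      _ ≤ ∑ _a ∈ τ, L := Finset.sum_le_sum fun a _ => hc a
      _ = L * τ.card := by rw [Finset.sum_const, nsmul_eq_mul, mul_comm]
  have h6 : Real.exp (-(L * τ.card)) ≤ bP (qOf lam) (Hit (𝒞.filter fun C => (τ ∩ C).Nonempty)) :=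
    (Real.exp_le_exp.2 (neg_le_neg h5)).trans h4
  have h7 := (mul_le_mul_of_nonneg_left h6 (bP_nonneg (Pair_q0 hl) Pair_q1
    (Hit (𝒞.filter fun C => ¬ (τ ∩ C).Nonempty)))).trans (h2.trans h3)
  rw [Real.exp_neg, ← div_eq_mul_inv, div_le_iff₀ (Real.exp_pos _)] at h7
  exact h1.trans h7

/-- Condition on `σ = ω ∩ O`, `O = ⋃𝒞 ∩ ⋃𝒞'` (`bE_cond`); given `σ` the two events depend on
the disjoint blocks `⋃𝒞 \ O`, `⋃𝒞' \ O` (`bE_indep`), and
`P(Hit 𝒞 | σ) ≤ P(Hit {C ∈ 𝒞 | C ∩ σ = ∅}) ≤ P(Hit 𝒞) exp (∑_{C ∩ σ ≠ ∅} cost C)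
≤ P(Hit 𝒞) exp (L |σ|)` (Harris + `hit_lower`). Finally
`E exp (2 L |ω ∩ O|) = ∏_{a ∈ O} (1 - q + q e^{2L}) ≤ exp (λ(O) e^{2L}) ≤ e` (`bE_prod`). -/
theorem hit_pair (hl : ∀ a, 0 ≤ lam a) (𝒞 𝒞' : Finset (Finset α))
    (hpos : ∀ C ∈ 𝒞, 0 < ∑ a ∈ C, lam a) (hpos' : ∀ C ∈ 𝒞', 0 < ∑ a ∈ C, lam a)
    (L : ℝ) (hL : 0 ≤ L)
    (hc : ∀ a, ∑ C ∈ 𝒞.filter (fun C => a ∈ C), cost lam C ≤ L)
    (hc' : ∀ a, ∑ C ∈ 𝒞'.filter (fun C => a ∈ C), cost lam C ≤ L)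
    (hO : (∑ a ∈ 𝒞.biUnion id ∩ 𝒞'.biUnion id, lam a) * Real.exp (2 * L) ≤ 1) :
    (bP (qOf lam) fun ω => Hit 𝒞 ω ∧ Hit 𝒞' ω) ≤
      Real.exp 1 * (bP (qOf lam) (Hit 𝒞) * bP (qOf lam) (Hit 𝒞')) := by
  classical
  set O := 𝒞.biUnion id ∩ 𝒞'.biUnion id with hOdef
  have hP := bP_nonneg (Pair_q0 hl) Pair_q1 (Hit 𝒞)
  have hP' := bP_nonneg (Pair_q0 hl) Pair_q1 (Hit 𝒞')
  have hd : Disjoint (𝒞.biUnion id \ O) (𝒞'.biUnion id \ O) := by
    rw [Finset.disjoint_left]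
    intro a h1 h2
    rw [Finset.mem_sdiff] at h1 h2
    exact h1.2 (Finset.mem_inter.2 ⟨h1.1, h2.1⟩)
  have key : ∀ σ : Finset α, (bP (qOf lam) fun ω =>
      Hit 𝒞 (σ ∩ O ∪ ω \ O) ∧ Hit 𝒞' (σ ∩ O ∪ ω \ O)) ≤
      (bP (qOf lam) (Hit 𝒞) * bP (qOf lam) (Hit 𝒞')) * ∏ _a ∈ σ ∩ O, Real.exp (2 * L) := by
    intro σ
    rw [Pair_indep hd (Pair_dep 𝒞 O (σ ∩ O)) (Pair_dep 𝒞' O (σ ∩ O))]
    have h1 := Pair_cond hl 𝒞 hpos L hc O (σ ∩ O)
    have h2 := Pair_cond hl 𝒞' hpos' L hc' O (σ ∩ O)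
    refine (mul_le_mul h1 h2 (bP_nonneg (Pair_q0 hl) Pair_q1 _) (by positivity)).trans_eq ?_
    rw [Finset.prod_const, ← Real.exp_nat_mul,
      show ((σ ∩ O).card : ℝ) * (2 * L) = L * (σ ∩ O).card + L * (σ ∩ O).card by ring, Real.exp_add]
    ring
  have h3 : ∏ a ∈ O, (1 - qOf lam a + qOf lam a * Real.exp (2 * L)) ≤ Real.exp 1 := by
    have hE := Real.exp_pos (2 * L)
    calc ∏ a ∈ O, (1 - qOf lam a + qOf lam a * Real.exp (2 * L))
        ≤ ∏ a ∈ O, Real.exp (lam a * Real.exp (2 * L)) := by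
          refine Finset.prod_le_prod (fun a _ => ?_) fun a _ => ?_
          · have := Pair_q0 hl a
            have := Pair_q1 (lam := lam) a
            have := mul_nonneg (Pair_q0 hl a) hE.le
            linarith
          · have h4 : qOf lam a ≤ lam a := by
              unfold qOf
              linarith [Real.add_one_le_exp (-lam a)]
            have h5 := mul_le_mul_of_nonneg_right h4 hE.le
            linarith [Real.add_one_le_exp (lam a * Real.exp (2 * L)), Pair_q0 hl a]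
      _ = Real.exp ((∑ a ∈ O, lam a) * Real.exp (2 * L)) := by
          rw [← Real.exp_sum, Finset.sum_mul]
      _ ≤ Real.exp 1 := Real.exp_le_exp.2 hO
  calc (bP (qOf lam) fun ω => Hit 𝒞 ω ∧ Hit 𝒞' ω)
      = bE (qOf lam) fun σ => bP (qOf lam) fun ω =>
          Hit 𝒞 (σ ∩ O ∪ ω \ O) ∧ Hit 𝒞' (σ ∩ O ∪ ω \ O) := bE_cond O _
    _ ≤ bE (qOf lam) fun σ => (bP (qOf lam) (Hit 𝒞) * bP (qOf lam) (Hit 𝒞')) *
          ∏ _a ∈ σ ∩ O, Real.exp (2 * L) := bE_mono (Pair_q0 hl) Pair_q1 key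
    _ = (bP (qOf lam) (Hit 𝒞) * bP (qOf lam) (Hit 𝒞')) *
          ∏ a ∈ O, (1 - qOf lam a + qOf lam a * Real.exp (2 * L)) := by
        rw [Pair_const_mul, bE_prod O fun _ => Real.exp (2 * L)]
    _ ≤ _ := by
        rw [mul_comm]
        exact mul_le_mul_of_nonneg_right h3 (mul_nonneg hP hP')

end Crest.Agent.R225
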