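import Crest.Agent.R225.SmallBall
import Crest.Agent.R225.BiN

/-! Task `R225 Proj`: a typical Gaussian projection looks like a mixture of Gaussians. -/

set_option autoImplicit false
open MeasureTheory ProbabilityTheory

namespace Crest.Agent.R225

open R215

/-- The second moment method. -/
lemma Proj_var {Ω X : Type*} [MeasurableSpace Ω] [MeasurableSpace X] (P : Measure Ω)
    [IsProbabilityMeasure P] (μ : Measure X) [IsFiniteMeasure μ] {f : Ω → X → ℝ}
    (hf : Measurable (Function.uncurry f)) (hb : ∀ ω x, |f ω x| ≤ 1) {G : X → ℝ}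
    (hG : ∀ x, ∫ ω, f ω x ∂P = G x) {h : X × X → ℝ} (hh : Integrable h (μ.prod μ))
    (H : ∀ x x', ∫ ω, f ω x * f ω x' ∂P ≤ G x * G x' + h (x, x')) :
    Integrable (fun ω => (∫ x, f ω x ∂μ - ∫ x, G x ∂μ) ^ 2) P ∧
      ∫ ω, (∫ x, f ω x ∂μ - ∫ x, G x ∂μ) ^ 2 ∂P ≤ ∫ z, h z ∂μ.prod μ := by
  have I1 : Integrable (Function.uncurry f) (P.prod μ) :=
    .of_bound hf.aestronglyMeasurable 1 (ae_of_all _ fun z => hb z.1 z.2)
  have I2 : Integrable (Function.uncurry fun ω (z : X × X) => f ω z.1 * f ω z.2)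
      (P.prod (μ.prod μ)) :=
    .of_bound ((hf.comp (measurable_fst.prodMk measurable_snd.fst)).mul
      (hf.comp (measurable_fst.prodMk measurable_snd.snd))).aestronglyMeasurable 1
      (ae_of_all _ fun z => (abs_mul _ _).trans_le
        (mul_le_one₀ (hb _ _) (abs_nonneg _) (hb _ _)))
  have J1 : Integrable (fun ω => ∫ x, f ω x ∂μ) P := I1.integral_prod_left
  have J2 : Integrable (fun ω => (∫ x, f ω x ∂μ) * ∫ x, f ω x ∂μ) P := by
    simpa only [Function.uncurry, integral_prod_mul] using I2.integral_prod_left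
  have J3 : Integrable G μ := by simpa only [Function.uncurry, hG] using I1.integral_prod_right
  have E1 : ∫ ω, ∫ x, f ω x ∂μ ∂P = ∫ x, G x ∂μ := by simp only [integral_integral_swap I1, hG]
  have E2 : ∫ ω, (∫ x, f ω x ∂μ) * ∫ x, f ω x ∂μ ∂P ≤
      (∫ x, G x ∂μ) * ∫ x, G x ∂μ + ∫ z, h z ∂μ.prod μ := by
    simp only [← integral_prod_mul]
    rw [integral_integral_swap I2, ← integral_add (J3.mul_prod J3) hh]
    exact integral_mono I2.integral_prod_right ((J3.mul_prod J3).add hh) fun z => H z.1 z.2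
  set m := ∫ x, G x ∂μ
  have e : (fun ω => (∫ x, f ω x ∂μ - m) ^ 2) =
      fun ω => (∫ x, f ω x ∂μ) * (∫ x, f ω x ∂μ) - 2 * m * ∫ x, f ω x ∂μ + m * m :=
    funext fun ω => by ring
  have J4 := J2.sub (J1.const_mul (2 * m))
  rw [e]
  refine ⟨J4.add (integrable_const _), ?_⟩
  rw [integral_add (f := fun ω => (∫ x, f ω x ∂μ) * (∫ x, f ω x ∂μ) - 2 * m * ∫ x, f ω x ∂μ) J4
    (integrable_const _), integral_sub J2 (J1.const_mul _), integral_const_mul, E1]
  simp only [integral_const, probReal_univ, one_smul]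
  linarith

lemma Proj_prod {ι : Type*} (s : Finset ι) {a b : ι → ℝ} {e : ℝ} (he : 0 ≤ e)
    (h : ∀ i, 0 ≤ a i ∧ a i ≤ 1 ∧ 0 ≤ b i ∧ b i ≤ 1 ∧ a i ≤ b i + e) :
    ∏ i ∈ s, a i ≤ ∏ i ∈ s, b i + s.card * e := by
  classical
  induction s using Finset.induction_on with
  | empty => simp
  | insert i s hi ih =>
    obtain ⟨h1, h2, h3, h4, h5⟩ := h i
    have b0 : 0 ≤ ∏ i ∈ s, b i := Finset.prod_nonneg fun i _ => (h i).2.2.1
    have b1 : ∏ i ∈ s, b i ≤ 1 := Finset.prod_le_one (fun i _ => (h i).2.2.1) fun i _ => (h i).2.2.2.1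
    have c0 : 0 ≤ s.card * e := by positivity
    rw [Finset.prod_insert hi, Finset.prod_insert hi, Finset.card_insert_of_notMem hi]
    push_cast
    nlinarith [mul_le_mul_of_nonneg_left ih h1, mul_le_mul_of_nonneg_right h5 b0,
      mul_le_mul_of_nonneg_right h2 c0, mul_le_mul_of_nonneg_left b1 he]

lemma Proj_pi {κ ι : Type} [Fintype κ] [Fintype ι] (A : ι → Set (κ → ℝ))
    (hA : ∀ i, MeasurableSet (A i)) :
    ∫ Γ, (Set.univ.pi A).indicator (1 : (ι → κ → ℝ) → ℝ) Γ ∂(Measure.pi fun _ : ι => gam κ) =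
      ∏ i, (gam κ).real (A i) := by
  rw [integral_indicator_one (MeasurableSet.univ_pi hA), Measure.real, Measure.pi_pi,
    ENNReal.toReal_prod]
  rfl

lemma Proj_sq {κ : Type} [Fintype κ] [DecidableEq κ] {K : Set (κ → ℝ)} (hK : IsCompact K)
    (hI : Iso K) :
    Integrable (fun z : (κ → ℝ) × (κ → ℝ) => (z.1 ⬝ᵥ z.2) ^ 2)
      ((volume.restrict K).prod (volume.restrict K)) ∧
    ∫ z, (z.1 ⬝ᵥ z.2) ^ 2 ∂(volume.restrict K).prod (volume.restrict K) =
      Fintype.card κ * volume.real K ^ 2 := by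
  have e : (fun z : (κ → ℝ) × (κ → ℝ) => (z.1 ⬝ᵥ z.2) ^ 2) =
      fun z => ∑ i, ∑ j, z.1 i * z.1 j * (z.2 i * z.2 j) := funext fun z => by
    rw [sq, dotProduct, Finset.sum_mul_sum]
    exact Finset.sum_congr rfl fun i _ => Finset.sum_congr rfl fun j _ => by ring
  have h1 : ∀ i j, Integrable (fun x : κ → ℝ => x i * x j) (volume.restrict K) := fun i j =>
    ContinuousOn.integrableOn_compact hK (by fun_prop)
  have h2 := fun i j => (h1 i j).mul_prod (h1 i j)
  rw [e]
  refine ⟨integrable_finsetSum _ fun i _ => integrable_finsetSum _ fun j _ => h2 i j, ?_⟩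
  rw [integral_finsetSum _ fun i _ => integrable_finsetSum _ fun j _ => h2 i j]
  have h3 : ∀ i, ∫ z, ∑ j, z.1 i * z.1 j * (z.2 i * z.2 j)
      ∂(volume.restrict K).prod (volume.restrict K) = volume.real K ^ 2 := fun i => by
    rw [integral_finsetSum _ fun j _ => h2 i j]
    simp only [fun j => integral_prod_mul (μ := volume.restrict K) (ν := volume.restrict K)
      (fun x : κ → ℝ => x i * x j) (fun x : κ → ℝ => x i * x j), hI i]
    simp [sq]
  simp [h3]

/-- `Γ` has independent rows of law `gam κ` (`Measure.pi`). `F_Q(Γ) = vol {x ∈ K | Γ x ∈ Q}` has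
mean `∫_K gq (nrm x)` (Fubini, `gam_interval`) and second moment
`∫_K ∫_K ∏_i P(pair) ≤ ∫∫ gq gq' + min 1 (|ι| C √|r|)` (`gam_pair`, telescoping products of
numbers in `[0,1]`). With `n = |κ|`: outside a set of pairs of relative measure `≤ C n^{-1/8}`
(`small_norm` with `ε = n^{-1/8}`, `large_norm`/`inner_tail` with `t = n^{5/8}`; note
`∫_K nrm² = n vol K`) one has `|r| ≤ n^{-1/8}`. So `Var ≤ C (|ι| + 1) n^{-1/16} vol²`;
Chebyshev and a union bound. -/
theorem exists_proj : ∃ C : ℝ, 0 < C ∧ ∀ (κ ι : Type) [Fintype κ] [DecidableEq κ] [Nonempty κ]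
    [Fintype ι] (K : Set (κ → ℝ)), Body K → Iso K →
    ∀ (𝓕 : Finset ((ι → ℝ) × (ι → ℝ))) (err : ℝ), 0 < err →
      𝓕.card * C * (Fintype.card ι + 1) < err ^ 2 * (Fintype.card κ : ℝ) ^ (1 / 16 : ℝ) →
      ∃ Γ : Matrix ι κ ℝ, ∀ Q ∈ 𝓕,
        |volume.real {x ∈ K | Γ.mulVec x ∈ Set.Icc Q.1 Q.2} - ∫ x in K, gq Q.1 Q.2 (nrm x)| ≤
          err * volume.real K := by
  obtain ⟨C₁, c1, h1⟩ := gam_pair
  obtain ⟨C₂, c2, h2⟩ := small_norm
  refine ⟨C₁ + 2 * C₂ + 1, by positivity, fun κ ι _ _ _ _ K hK hI 𝓕 err he hlt => ?_⟩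
  have n1 : (1 : ℝ) ≤ Fintype.card κ := Nat.one_le_cast.2 Fintype.card_pos
  set s := (Fintype.card κ : ℝ) ^ (1 / 16 : ℝ) with hs
  have s1 : 1 ≤ s := Real.one_le_rpow n1 (by norm_num)
  have s0 : 0 < s := by linarith
  have sn : (Fintype.card κ : ℝ) = (s ^ 8) ^ 2 := by
    rw [← pow_mul, hs, ← Real.rpow_natCast, ← Real.rpow_mul (by linarith)]
    norm_num
  have hKm := hK.1.measurableSet
  have : IsFiniteMeasure (volume.restrict K) := isFiniteMeasure_restrict.2 hK.1.measure_lt_top.ne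
  have V0 : 0 < volume.real K :=
    ENNReal.toReal_pos (Measure.measure_pos_of_nonempty_interior _ hK.2.2).ne'
      hK.1.measure_lt_top.ne
  set A : Set (κ → ℝ) := {x | nrm x ≤ s ^ 7} with hA
  have hAm : MeasurableSet A := measurableSet_le (by unfold nrm; fun_prop) measurable_const
  have hA1 : ∫ x in K, A.indicator (1 : (κ → ℝ) → ℝ) x ≤ C₂ / s * volume.real K := by
    have := h2 κ K hK hI (1 / s) (by positivity)
    rw [sn, Real.sqrt_sq (by positivity), show 1 / s * s ^ 8 = s ^ 7 by field_simp,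
      mul_one_div] at this
    rw [integral_indicator_one hAm, measureReal_restrict_apply hAm, Set.inter_comm]
    exact this
  have hA2 : Integrable (A.indicator (1 : (κ → ℝ) → ℝ)) (volume.restrict K) :=
    (integrable_const (1 : ℝ)).indicator hAm
  obtain ⟨q1, q2⟩ := Proj_sq hK.1 hI
  have i1 := (integrable_const (Fintype.card ι * (C₁ / s))).add (hA2.comp_fst (volume.restrict K))
  have i2 := i1.add (hA2.comp_snd (volume.restrict K))
  have hm : ∀ (x : κ → ℝ) (a b : ℝ), MeasurableSet {g : κ → ℝ | a ≤ g ⬝ᵥ x ∧ g ⬝ᵥ x ≤ b} :=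
    fun x a b => (isClosed_Icc.preimage (by fun_prop : Continuous fun g => g ⬝ᵥ x)).measurableSet
  have key := fun Q : (ι → ℝ) × (ι → ℝ) => Proj_var (Measure.pi fun _ : ι => gam κ)
    (volume.restrict K) (G := fun x => gq Q.1 Q.2 (nrm x))
    (f := fun Γ x => (Set.univ.pi fun i => {g | Q.1 i ≤ g ⬝ᵥ x ∧ g ⬝ᵥ x ≤ Q.2 i}).indicator 1 Γ)
    (measurable_const.indicator ((isClosed_set_pi (i := Set.univ) fun i _ =>
      isClosed_Icc (a := Q.1 i) (b := Q.2 i)).preimage (by fun_prop : Continuous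
        fun (z : (ι → κ → ℝ) × (κ → ℝ)) i => z.1 i ⬝ᵥ z.2)).measurableSet)
    (fun Γ x => by unfold Set.indicator; split_ifs <;> simp)
    (fun x => by simp only [Proj_pi _ fun i => hm x _ _, gam_interval, gq])
    (i2.add (q1.div_const (s ^ 24))) fun x x' => by
      simp only [← Set.inter_indicator_mul, ← Set.pi_inter_distrib, Pi.add_apply, Pi.one_apply,
        mul_one]
      refine (Proj_pi _ fun i => (hm x _ _).inter (hm x' _ _)).trans_le ?_
      have g0 : ∀ i, 0 ≤ gI (Q.1 i) (Q.2 i) (nrm x) * gI (Q.1 i) (Q.2 i) (nrm x') :=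
        fun i => mul_nonneg (gI_nonneg _ _ _) (gI_nonneg _ _ _)
      have a0 : ∀ y, 0 ≤ A.indicator (1 : (κ → ℝ) → ℝ) y := fun y =>
        Set.indicator_nonneg (fun _ _ => zero_le_one) y
      have b0 : 0 ≤ (x ⬝ᵥ x') ^ 2 / s ^ 24 := by positivity
      have b1 : 0 ≤ Fintype.card ι * (C₁ / s) := by positivity
      rw [gq, gq, ← Finset.prod_mul_distrib]
      by_cases hb : x ∈ A ∨ x' ∈ A ∨ s ^ 12 ≤ |x ⬝ᵥ x'|
      · refine (Finset.prod_le_one (fun _ _ => measureReal_nonneg) fun _ _ =>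
          measureReal_le_one).trans ?_
        have b2 := Finset.prod_nonneg fun i (_ : i ∈ Finset.univ) => g0 i
        rcases hb with hb | hb | hb
        · linarith [a0 x', (Set.indicator_of_mem hb (1 : (κ → ℝ) → ℝ)).trans (Pi.one_apply _)]
        · linarith [a0 x, (Set.indicator_of_mem hb (1 : (κ → ℝ) → ℝ)).trans (Pi.one_apply _)]
        · have b3 := pow_le_pow_left₀ (by positivity) hb 2
          rw [sq_abs, ← pow_mul, ← one_le_div (by positivity)] at b3
          linarith [a0 x, a0 x']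
      · simp only [not_or, hA, Set.mem_ofPred_eq, not_le] at hb
        obtain ⟨b2, b3, b4⟩ := hb
        have hz : ∀ y : κ → ℝ, s ^ 7 < nrm y → y ≠ 0 := fun y hy h0 => by
          simp only [h0, nrm, Pi.zero_apply] at hy
          simp at hy
          exact absurd hy (not_lt.2 (by positivity))
        have b5 : √(|x ⬝ᵥ x'| / (nrm x * nrm x')) ≤ 1 / s := by
          refine Real.sqrt_le_iff.2 ⟨by positivity, ?_⟩
          have b6 : 0 ≤ nrm x := Real.sqrt_nonneg _
          calc _ ≤ s ^ 12 / (s ^ 7 * s ^ 7) := by gcongr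
            _ = _ := by field_simp
        refine (Proj_prod _ (e := C₁ / s) (by positivity) fun i => ⟨measureReal_nonneg,
          measureReal_le_one, g0 i, mul_le_one₀ (gI_le_one _ _ _) (gI_nonneg _ _ _)
            (gI_le_one _ _ _), (h1 κ x x' (hz x b2) (hz x' b3) _ _ _ _).trans ?_⟩).trans ?_
        · rw [div_eq_mul_one_div C₁]
          gcongr
        · rw [Finset.card_univ]
          linarith [a0 x, a0 x']
  obtain ⟨Γ, hΓ⟩ := exists_le_integral (integrable_finsetSum 𝓕 fun Q _ => (key Q).1)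
  refine ⟨Matrix.of Γ, fun Q hQ => abs_le_of_sq_le_sq ?_ (by positivity)⟩
  rw [integral_finsetSum _ fun Q _ => (key Q).1] at hΓ
  have h3 := ((Finset.single_le_sum (fun Q _ => sq_nonneg _) hQ).trans hΓ).trans
    (Finset.sum_le_sum fun Q _ => (key Q).2)
  have hS : MeasurableSet {x | (Matrix.of Γ).mulVec x ∈ Set.Icc Q.1 Q.2} :=
    (isClosed_Icc.preimage (by fun_prop : Continuous (Matrix.of Γ).mulVec)).measurableSet
  have h4 : ∫ x in K, (Set.univ.pi fun i => {g | Q.1 i ≤ g ⬝ᵥ x ∧ g ⬝ᵥ x ≤ Q.2 i}).indicator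
      (1 : (ι → κ → ℝ) → ℝ) Γ = volume.real {x ∈ K | (Matrix.of Γ).mulVec x ∈ Set.Icc Q.1 Q.2} := by
    rw [← Set.pi_univ_Icc] at hS ⊢
    exact (integral_indicator_one hS).trans
      ((measureReal_restrict_apply hS).trans (by rw [Set.inter_comm]; rfl))
  rw [h4, integral_add' i2 (q1.div_const _), integral_add' i1 (hA2.comp_snd _),
    integral_add' (integrable_const _) (hA2.comp_fst _), integral_fun_fst, integral_fun_snd,
    integral_div, q2, integral_const, ← Set.univ_prod_univ, measureReal_prod_prod] at h3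
  simp only [measureReal_restrict_apply_univ, smul_eq_mul, Finset.sum_const, nsmul_eq_mul] at h3
  have h5 : Fintype.card κ * volume.real K ^ 2 / s ^ 24 ≤ 1 / s * volume.real K ^ 2 := by
    rw [sn, mul_div_right_comm, ← pow_mul]
    refine mul_le_mul_of_nonneg_right ?_ (sq_nonneg _)
    rw [div_le_div_iff₀ (by positivity) s0, one_mul, ← pow_succ]
    exact pow_le_pow_right₀ s1 (by norm_num)
  have h6 := mul_le_mul_of_nonneg_left hA1 V0.le
  have h7 : 𝓕.card * ((C₁ + 2 * C₂ + 1) * (Fintype.card ι + 1)) / s ≤ err ^ 2 := by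
    rw [div_le_iff₀ s0]
    linarith
  refine h3.trans ?_
  calc _ ≤ 𝓕.card * ((Fintype.card ι * C₁ + 2 * C₂ + 1) / s * volume.real K ^ 2) := by
        refine mul_le_mul_of_nonneg_left ?_ (Nat.cast_nonneg _)
        refine le_of_le_of_eq (add_le_add (add_le_add (add_le_add le_rfl h6) h6) h5) ?_
        ring
    _ ≤ 𝓕.card * ((C₁ + 2 * C₂ + 1) * (Fintype.card ι + 1) / s * volume.real K ^ 2) := by
        refine mul_le_mul_of_nonneg_left (mul_le_mul_of_nonneg_right
          (div_le_div_of_nonneg_right ?_ s0.le) (sq_nonneg _)) (Nat.cast_nonneg _)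
        nlinarith [Nat.cast_nonneg (α := ℝ) (Fintype.card ι)]
    _ ≤ _ := by
        rw [mul_pow err, ← mul_assoc, ← mul_div_assoc]
        exact mul_le_mul_of_nonneg_right h7 (sq_nonneg _)

end Crest.Agent.R225
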