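import Crest.Agent.R225.SDefs

/-! Task `R225 RelCount`: tuples satisfying a primitive relation of height `H`. -/

set_option autoImplicit false

namespace Crest.Agent.R225

open Classical in
/-- `Γ = {w : Fin r → ℤ | c i₀ ∣ ∑ i, c (i₀.succAbove i) * w i}` has index `|c i₀|` (`c` is
primitive). A tuple with `Rel c y` is determined by `(y (i₀.succAbove i))_i`, whose `m` columns
lie in `Γ`; adding coset representatives of sup norm `≤ W` column by column is injective into
`(thick S W)^r`. -/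
theorem coset_count {m r : ℕ} (S : Finset (Fin m → ℤ)) (c : Fin (r + 1) → ℤ)
    (hc : Finset.univ.gcd c = 1) (i₀ : Fin (r + 1)) (h0 : c i₀ ≠ 0) (W : ℕ)
    (hW : ∀ w : Fin r → ℤ, ∃ w' : Fin r → ℤ, (∀ i, |w' i| ≤ W) ∧
      c i₀ ∣ ∑ i, c (i₀.succAbove i) * (w i - w' i)) :
    ((Fintype.piFinset fun _ : Fin (r + 1) => S).filter fun y => Rel c y).card *
      (c i₀).natAbs ^ m ≤ (thick S W).card ^ r := by
  obtain ⟨a, ha⟩ := Finset.gcd_eq_sum_mul Finset.univ c
  rw [hc, Fin.sum_univ_succAbove _ i₀] at ha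
  have hw : ∀ t : ℕ, ∃ w' : Fin r → ℤ, (∀ i, |w' i| ≤ W) ∧
      c i₀ ∣ (t : ℤ) - ∑ i, c (i₀.succAbove i) * w' i := fun t => by
    obtain ⟨w', h1, h2⟩ := hW fun i => t * a (i₀.succAbove i)
    refine ⟨w', h1, ?_⟩
    have e : ∑ i, c (i₀.succAbove i) * (t * a (i₀.succAbove i) - w' i) =
        t * ∑ i, c (i₀.succAbove i) * a (i₀.succAbove i) - ∑ i, c (i₀.succAbove i) * w' i := by
      rw [Finset.mul_sum, ← Finset.sum_sub_distrib]
      exact Finset.sum_congr rfl fun i _ => by ring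
    rw [e] at h2
    obtain ⟨d, hd⟩ := h2
    exact ⟨d + t * a i₀, by linear_combination hd + (t : ℤ) * ha⟩
  choose w hw1 hw2 using hw
  have hcard := Finset.card_le_card_of_injOn
    (s := ((Fintype.piFinset fun _ : Fin (r + 1) => S).filter fun y => Rel c y) ×ˢ
      Fintype.piFinset fun _ : Fin m => Finset.range (c i₀).natAbs)
    (t := Fintype.piFinset fun _ : Fin r => thick S W)
    (fun x i l => x.1 (i₀.succAbove i) l + w (x.2 l) i) ?_ ?_
  · simpa only [Finset.card_product, Fintype.card_piFinset_const, Finset.card_range] using hcard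
  · rintro ⟨y, t⟩ hx
    have hy := Fintype.mem_piFinset.1 (Finset.mem_filter.1 (Finset.mem_product.1 hx).1).1
    refine Fintype.mem_piFinset.2 fun i => Finset.mem_biUnion.2 ⟨_, hy (i₀.succAbove i),
      Fintype.mem_piFinset.2 fun l => Finset.mem_Icc.2 ?_⟩
    have := abs_le.1 (hw1 (t l) i)
    constructor <;> simp only <;> linarith
  · rintro ⟨y, t⟩ hx ⟨y', t'⟩ hx' h
    obtain ⟨hy, ht⟩ := Finset.mem_product.1 hx
    obtain ⟨hy', ht'⟩ := Finset.mem_product.1 hx'
    have r1 := (Finset.mem_filter.1 hy).2.2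
    have r2 := (Finset.mem_filter.1 hy').2.2
    simp only [Fin.sum_univ_succAbove _ i₀] at r1 r2
    have h' : ∀ i l, y (i₀.succAbove i) l + w (t l) i = y' (i₀.succAbove i) l + w (t' l) i :=
      fun i l => congrFun (congrFun h i) l
    have e1 : t = t' := funext fun l => by
      have s1 : ∑ i, c (i₀.succAbove i) * y (i₀.succAbove i) l +
          ∑ i, c (i₀.succAbove i) * w (t l) i = ∑ i, c (i₀.succAbove i) * y' (i₀.succAbove i) l +
          ∑ i, c (i₀.succAbove i) * w (t' l) i := by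
        rw [← Finset.sum_add_distrib, ← Finset.sum_add_distrib]
        exact Finset.sum_congr rfl fun i _ => by rw [← mul_add, ← mul_add, h']
      have s2 : c i₀ ∣ (t l : ℤ) - t' l := by
        obtain ⟨d, hd⟩ := hw2 (t l)
        obtain ⟨d', hd'⟩ := hw2 (t' l)
        exact ⟨d - d' + (y i₀ l - y' i₀ l), by linear_combination hd - hd' + s1 - r1 l + r2 l⟩
      have b1 := Finset.mem_range.1 (Fintype.mem_piFinset.1 ht l)
      have b2 := Finset.mem_range.1 (Fintype.mem_piFinset.1 ht' l)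
      have := Int.eq_zero_of_dvd_of_natAbs_lt_natAbs s2 (by simp only at b1 b2; omega)
      omega
    subst e1
    have e2 : ∀ i, y (i₀.succAbove i) = y' (i₀.succAbove i) := fun i =>
      funext fun l => add_right_cancel (h' i l)
    have e3 : y i₀ = y' i₀ := funext fun l => by
      have s := r1 l
      simp only [e2] at s
      exact mul_left_cancel₀ h0 (by linear_combination s - r2 l)
    exact Prod.ext (funext fun i => Fin.succAboveCases i₀ e3 e2 i) rfl

/-- Representatives mod `c i₀`. -/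
lemma reps_height {r : ℕ} (c : Fin (r + 1) → ℤ) (i₀ : Fin (r + 1)) (h0 : c i₀ ≠ 0)
    (w : Fin r → ℤ) : ∃ w' : Fin r → ℤ, (∀ i, |w' i| ≤ (c i₀).natAbs) ∧
      c i₀ ∣ ∑ i, c (i₀.succAbove i) * (w i - w' i) := by
  refine ⟨fun i => w i % c i₀, fun i => ?_, Finset.dvd_sum fun i _ =>
    Dvd.dvd.mul_left (Int.dvd_self_sub_of_emod_eq rfl) _⟩
  rw [abs_of_nonneg (Int.emod_nonneg _ h0), Int.natCast_natAbs]
  exact (Int.emod_lt_abs _ h0).le

lemma RelCount_indep {m r : ℕ} (c : Fin (r + 1) → ℤ) (i₀ : Fin (r + 1)) (h0 : c i₀ ≠ 0)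
    (h00 : c 0 ≠ 0) (y : Fin (r + 1) → Fin m → ℤ) (hy : Rel c y)
    (hind : LinearIndependent ℚ fun i : Fin r => hatQ (y i.succ)) :
    LinearIndependent ℚ fun i : Fin r => hatQ (y (i₀.succAbove i)) := by
  have hc : ∑ i, (c i : ℚ) • hatQ (y i) = 0 := by
    funext o
    rw [Finset.sum_apply]
    cases o with
    | none =>
      change ∑ i, (c i : ℚ) * 1 = 0
      simp only [mul_one]
      exact_mod_cast hy.1
    | some l =>
      change ∑ i, (c i : ℚ) * (y i l : ℚ) = 0
      exact_mod_cast hy.2 l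
  refine Fintype.linearIndependent_iff.2 fun g hg => ?_
  obtain ⟨G, G0, G1⟩ : ∃ G : Fin (r + 1) → ℚ, G i₀ = 0 ∧ ∀ i, G (i₀.succAbove i) = g i :=
    ⟨Fin.insertNth i₀ 0 g, by simp, by simp⟩
  have hG : ∑ i, G i • hatQ (y i) = 0 := by
    rw [Fin.sum_univ_succAbove _ i₀, G0, zero_smul, zero_add]
    simpa only [G1] using hg
  have hH : ∑ i, ((c 0 : ℚ) * G i - G 0 * c i) • hatQ (y i) = 0 := by
    simp only [sub_smul, mul_smul, Finset.sum_sub_distrib, ← Finset.smul_sum, hG, hc, smul_zero,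
      sub_zero]
  rw [Fin.sum_univ_succ, mul_comm (G 0), sub_self, zero_smul, zero_add] at hH
  have h1 : ∀ i, (c 0 : ℚ) * G i - G 0 * c i = 0 := fun i =>
    Fin.cases (by ring) (Fintype.linearIndependent_iff.1 hind _ hH) i
  have h2 : G 0 = 0 := by
    have := h1 i₀
    rw [G0, mul_zero, zero_sub, neg_eq_zero] at this
    exact (mul_eq_zero.1 this).resolve_right (Int.cast_ne_zero.2 h0)
  intro i
  have := h1 (i₀.succAbove i)
  rw [h2, zero_mul, sub_zero, G1] at this
  exact (mul_eq_zero.1 this).resolve_left (Int.cast_ne_zero.2 h00)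

lemma RelCount_reduce {ι : Type} [Fintype ι] {r : ℕ} (γ : ι → Fin r → ℤ)
    (h : Submodule.span ℚ (Set.range fun o i => (γ o i : ℚ)) = ⊤) (X : ℕ)
    (hX : ∀ o i, |γ o i| ≤ X) (w : Fin r → ℤ) :
    ∃ (κ : Type) (_ : Fintype κ) (a : κ → ι) (n : κ → ℤ),
      ∀ i, |w i - ∑ k, n k * γ (a k) i| ≤ (r * X : ℕ) := by
  obtain ⟨κ, a, ha, hs, hl⟩ := exists_linearIndependent' ℚ fun o i => (γ o i : ℚ)
  have := Finite.of_injective a ha
  have := Fintype.ofFinite κ
  have hκ : Fintype.card κ ≤ r := by simpa using hl.fintype_card_le_finrank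
  rw [h] at hs
  obtain ⟨q, hq⟩ := (Submodule.mem_span_range_iff_exists_fun ℚ).1
    (hs ▸ Submodule.mem_top (x := fun i => (w i : ℚ)))
  refine ⟨κ, this, a, fun k => ⌊q k⌋, fun i => ?_⟩
  have e : ((w i - ∑ k, ⌊q k⌋ * γ (a k) i : ℤ) : ℚ) = ∑ k, Int.fract (q k) * γ (a k) i := by
    have := congrFun hq i
    simp only [Finset.sum_apply, Pi.smul_apply, Function.comp_apply, smul_eq_mul] at this
    push_cast
    rw [← this, ← Finset.sum_sub_distrib]
    exact Finset.sum_congr rfl fun k _ => by rw [← sub_mul, Int.self_sub_floor]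
  have b : |∑ k, Int.fract (q k) * (γ (a k) i : ℚ)| ≤ r * X :=
    calc _ ≤ ∑ _k : κ, (X : ℚ) := by
          refine (Finset.abs_sum_le_sum_abs _ _).trans (Finset.sum_le_sum fun k _ => ?_)
          rw [abs_mul, abs_of_nonneg (Int.fract_nonneg _)]
          refine (mul_le_of_le_one_left (abs_nonneg _) (Int.fract_lt_one _).le).trans ?_
          exact_mod_cast hX (a k) i
      _ ≤ r * X := by
          rw [Finset.sum_const, Finset.card_univ, nsmul_eq_mul]
          exact mul_le_mul_of_nonneg_right (by exact_mod_cast hκ) (Nat.cast_nonneg _)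
  rw [← e] at b
  exact_mod_cast b

/-- If the `ŷ (succ i)` are independent and `c 0 ≠ 0 ≠ c i₀`, the `r` vectors other than `i₀` are
independent, so the `m + 1` columns (all in `Γ`, sup norm `≤ X`) span `ℚ^r`; pick a basis among
them and reduce `w` by integer parts. -/
lemma reps_indep {m r : ℕ} (c : Fin (r + 1) → ℤ) (i₀ : Fin (r + 1)) (h0 : c i₀ ≠ 0)
    (h00 : c 0 ≠ 0) (y : Fin (r + 1) → Fin m → ℤ) (hy : Rel c y)
    (hind : LinearIndependent ℚ fun i : Fin r => hatQ (y i.succ)) (X : ℕ) (hX1 : 1 ≤ X)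
    (hX : ∀ i l, |y i l| ≤ X) (w : Fin r → ℤ) :
    ∃ w' : Fin r → ℤ, (∀ i, |w' i| ≤ (r * X : ℕ)) ∧
      c i₀ ∣ ∑ i, c (i₀.succAbove i) * (w i - w' i) := by
  have hl := RelCount_indep c i₀ h0 h00 y hy hind
  let γ : Option (Fin m) → Fin r → ℤ := fun o i => o.elim 1 fun l => y (i₀.succAbove i) l
  let A : Matrix (Fin r) (Option (Fin m)) ℚ := fun i => hatQ (y (i₀.succAbove i))
  have e : (fun o i => (γ o i : ℚ)) = A.col := by
    funext o i
    cases o with
    | none => exact Int.cast_one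
    | some l => rfl
  have hs : Submodule.span ℚ (Set.range fun o i => (γ o i : ℚ)) = ⊤ := by
    refine Submodule.eq_top_of_finrank_eq ?_
    rw [e, ← Matrix.rank_eq_finrank_span_cols, LinearIndependent.rank_matrix (M := A) hl]
    simp
  obtain ⟨κ, _, a, n, hn⟩ := RelCount_reduce γ hs X (fun o i => by
    cases o with
    | none => exact (abs_one (α := ℤ)).trans_le (by exact_mod_cast hX1)
    | some l => exact hX _ l) w
  refine ⟨_, hn, ?_⟩
  simp only [sub_sub_cancel, Finset.mul_sum]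
  rw [Finset.sum_comm]
  refine Finset.dvd_sum fun k _ => ?_
  simp only [mul_left_comm _ (n k), ← Finset.mul_sum]
  refine Dvd.dvd.mul_left ?_ _
  obtain ⟨r1, r2⟩ := hy
  simp only [Fin.sum_univ_succAbove _ i₀] at r1 r2
  cases a k with
  | none => exact ⟨-1, by simp only [γ, Option.elim, mul_one]; linear_combination r1⟩
  | some l => exact ⟨-y i₀ l, by simp only [γ, Option.elim]; linear_combination r2 l⟩

end Crest.Agent.R225
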