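import Crest.Agent.R225.VDefs
import Crest.Agent.R225.GTail

/-! Task `R225 Riem`: Gaussian Riemann sums, the one dimensional folded Gaussian, and a weighted
Chebyshev inequality on product spaces. -/

set_option autoImplicit false

namespace Crest.Agent.R225

section Aux
open MeasureTheory ProbabilityTheory

/-- The Gaussian tail. -/
noncomputable def Riem_Q (x : ℝ) : ℝ := (gaussianReal 0 1).real (Set.Ioi x)

lemma Riem_Q_nonneg (x : ℝ) : 0 ≤ Riem_Q x := measureReal_nonneg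

lemma Riem_Q_sub (x : ℝ) {t : ℝ} (ht : 0 ≤ t) :
    Riem_Q x - Riem_Q (x + t) = (gaussianReal 0 1).real (Set.Ioc x (x + t)) := by
  rw [Riem_Q, Riem_Q, ← Set.Ioc_union_Ioi_eq_Ioi (show x ≤ x + t by linarith),
    measureReal_union Set.Ioc_disjoint_Ioi_same measurableSet_Ioi, add_sub_cancel_right]

lemma Riem_Q_anti {x y : ℝ} (h : x ≤ y) : Riem_Q y ≤ Riem_Q x :=
  measureReal_mono (Set.Ioi_subset_Ioi h)

lemma Riem_Q_ge {x t : ℝ} (hx : 0 ≤ x) (ht : 0 ≤ t) :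
    t * g1 (x + t) ≤ Riem_Q x - Riem_Q (x + t) := by
  rw [Riem_Q_sub x ht]
  exact gauss_window_ge hx ht

lemma Riem_Q_le {x t : ℝ} (hx : 0 ≤ x) (ht : 0 ≤ t) :
    Riem_Q x - Riem_Q (x + t) ≤ t * g1 x := by
  rw [Riem_Q_sub x ht, GTail_real]
  refine le_trans (setIntegral_mono_on GTail_int.integrableOn (integrableOn_const (C := g1 x)
    measure_Ioc_lt_top.ne) measurableSet_Ioc fun y hy => g1_anti ?_) (le_of_eq ?_)
  · rw [abs_of_nonneg (hx.trans hy.1.le), abs_of_nonneg hx]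
    exact hy.1.le
  · rw [setIntegral_const, Real.volume_real_Ioc_of_le (by linarith), add_sub_cancel_left,
      smul_eq_mul]

lemma Riem_Q_zero : Riem_Q 0 = 1 / 2 := by
  have h := integral_gaussian_Ioi (1 / 2)
  have h0 : Real.sqrt (2 * Real.pi) ≠ 0 := by positivity
  rw [Riem_Q, GTail_real]
  unfold g1
  rw [integral_div, show (fun x : ℝ => Real.exp (-x ^ 2 / 2)) =
    fun x => Real.exp (-(1 / 2) * x ^ 2) from funext fun x => by ring_nf, h,
    show Real.pi / (1 / 2) = 2 * Real.pi by ring]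
  field_simp

lemma Riem_sqrt : 1 ≤ Real.sqrt (2 * Real.pi) ∧ Real.sqrt (2 * Real.pi) ≤ 2.51 :=
  ⟨Real.one_le_sqrt.2 (by nlinarith [Real.pi_gt_three]),
    Real.sqrt_le_iff.2 ⟨by norm_num, by nlinarith [Real.pi_lt_d2]⟩⟩

lemma Riem_Q_tail {t : ℝ} (ht : 0 ≤ t) : Riem_Q t ≤ Real.exp (-t ^ 2 / 2) := by
  rcases le_total t 1 with h | h
  · have h1 := Riem_Q_anti ht
    have h2 := Real.add_one_le_exp (-t ^ 2 / 2)
    rw [Riem_Q_zero] at h1
    nlinarith
  · refine (gauss_tail_le (by linarith)).trans ((div_le_self (g1_pos t).le h).trans ?_)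
    exact div_le_self (Real.exp_pos _).le Riem_sqrt.1

lemma Riem_tel_le {x a : ℝ} (hx : 0 ≤ x) (ha : 0 ≤ a) (n : ℕ) :
    ∑ i ∈ Finset.range n, a * g1 (x + a * (i + 1)) ≤ Riem_Q x - Riem_Q (x + a * n) := by
  induction n with
  | zero => simp
  | succ n ih =>
    have h := Riem_Q_ge (x := x + a * n) (by positivity) ha
    rw [show x + a * n + a = x + a * (n + 1) by ring] at h
    rw [Finset.sum_range_succ]
    push_cast
    linarith

lemma Riem_tel_ge {x a : ℝ} (hx : 0 ≤ x) (ha : 0 ≤ a) (n : ℕ) :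
    Riem_Q x - Riem_Q (x + a * n) ≤ ∑ i ∈ Finset.range n, a * g1 (x + a * i) := by
  induction n with
  | zero => simp
  | succ n ih =>
    have h := Riem_Q_le (x := x + a * n) (by positivity) ha
    rw [show x + a * n + a = x + a * (n + 1) by ring] at h
    rw [Finset.sum_range_succ]
    push_cast
    linarith

lemma Riem_Ico (F : ℤ → ℝ) (c : ℤ) (n : ℕ) :
    ∑ j ∈ Finset.Ico c (c + n), F j = ∑ i ∈ Finset.range n, F (c + i) := by
  rw [Int.Ico_eq_finset_map, Finset.sum_map, add_sub_cancel_left, Int.toNat_natCast]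
  rfl

lemma Riem_Ico2 (F : ℤ → ℝ) (N : ℕ) : ∑ j ∈ Finset.Ico (-(N : ℤ)) N, F j =
    ∑ i ∈ Finset.range N, F i + ∑ i ∈ Finset.range N, F (i - N) := by
  have h1 := Riem_Ico F (-N) N
  have h2 := Riem_Ico F 0 N
  rw [neg_add_cancel] at h1
  simp only [zero_add] at h2
  rw [← Finset.Ico_union_Ico_eq_Ico (show -(N : ℤ) ≤ 0 by omega) (show (0 : ℤ) ≤ N by omega),
    Finset.sum_union (Finset.Ico_disjoint_Ico_consecutive _ _ _), h1, h2, add_comm]
  simp only [neg_add_eq_sub]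

lemma Riem_Ico3 (F : ℝ → ℝ) (N : ℕ) : ∑ j ∈ Finset.Ico (-(N : ℤ)) N, F |(j : ℝ)| =
    ∑ i ∈ Finset.range N, F i + ∑ i ∈ Finset.range N, F (i + 1) := by
  rw [Riem_Ico2, ← Finset.sum_range_reflect (fun i : ℕ => F (i + 1))]
  congr 1
  · exact Finset.sum_congr rfl fun i _ => by simp
  · refine Finset.sum_congr rfl fun i hi => ?_
    have hi' := Finset.mem_range.1 hi
    have h1 : (i : ℝ) ≤ N := by exact_mod_cast hi'.le
    congr 1
    rw [show N - 1 - i = N - (i + 1) by omega, Nat.cast_sub hi']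
    push_cast
    rw [abs_of_nonpos (by linarith)]
    ring

lemma Riem_cons {X : Type} [Fintype X] {k : ℕ} (F : (Fin (k + 1) → X) → ℝ) :
    ∑ x, F x = ∑ y : Fin k → X, ∑ x₀ : X, F (Fin.cons x₀ y) := by
  rw [← (Fin.consEquiv fun _ : Fin (k + 1) => X).sum_comp, Fintype.sum_prod_type, Finset.sum_comm]
  rfl

lemma Riem_var {X : Type} [Fintype X] (w g : X → ℝ) (hm : ∑ x, w x * g x = 0) (k : ℕ) :
    (∑ x, w x) * ∑ x : Fin k → X, (∏ i, w (x i)) * (∑ i, g (x i)) ^ 2 =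
      k * (∑ x, w x * g x ^ 2) * (∑ x, w x) ^ k := by
  induction k with
  | zero => simp
  | succ k ih =>
    have h1 : ∀ y : Fin k → X, ∑ x₀ : X, (∏ i, w ((Fin.cons x₀ y : Fin (k + 1) → X) i)) *
        (∑ i, g ((Fin.cons x₀ y : Fin (k + 1) → X) i)) ^ 2 =
        (∑ x, w x * g x ^ 2) * ∏ i, w (y i) +
          (∑ x, w x) * ((∏ i, w (y i)) * (∑ i, g (y i)) ^ 2) := fun y => by
      have : ∀ x₀ : X, (∏ i, w ((Fin.cons x₀ y : Fin (k + 1) → X) i)) *
          (∑ i, g ((Fin.cons x₀ y : Fin (k + 1) → X) i)) ^ 2 =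
          (w x₀ * g x₀ ^ 2) * ∏ i, w (y i) + w x₀ * ((∏ i, w (y i)) * (∑ i, g (y i)) ^ 2) +
            (w x₀ * g x₀) * (2 * (∏ i, w (y i)) * ∑ i, g (y i)) := fun x₀ => by
        simp only [Fin.prod_univ_succ, Fin.sum_univ_succ, Fin.cons_zero, Fin.cons_succ]
        ring
      simp only [this, Finset.sum_add_distrib, ← Finset.sum_mul, hm, zero_mul, add_zero]
    have h2 : ∑ y : Fin k → X, ∏ i, w (y i) = (∑ x, w x) ^ k := by
      rw [← Fintype.piFinset_univ, ← Finset.prod_univ_sum]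
      simp
    rw [Riem_cons]
    simp only [h1, Finset.sum_add_distrib, ← Finset.mul_sum, h2]
    rw [ih]
    push_cast
    ring

end Aux

/-- `a γ(a|j| + ρ) ≤ ∫_{aj}^{a(j+1)} γ` since `a ≤ ρ`. -/
lemma riem_le {a ρ : ℝ} (ha : 0 < a) (hρ : a ≤ ρ) (N : ℕ) :
    ∑ j ∈ Finset.Ico (-(N : ℤ)) N, a * g1 (a * |(j : ℝ)| + ρ) ≤ 1 := by
  rw [Riem_Ico3 fun x => a * g1 (a * x + ρ)]
  have h := Riem_tel_le le_rfl ha.le N
  have h0 := Riem_Q_nonneg (0 + a * N)
  rw [Riem_Q_zero] at h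
  have key : ∀ t : ℝ, 0 ≤ t → t ≤ 1 → ∑ i ∈ Finset.range N, a * g1 (a * (i + t) + ρ) ≤
      ∑ i ∈ Finset.range N, a * g1 (0 + a * (i + 1)) := fun t h0 h1 =>
    Finset.sum_le_sum fun i _ => mul_le_mul_of_nonneg_left (g1_anti (by
      have : 0 ≤ a * t := by positivity
      have : 0 ≤ a * i := by positivity
      rw [abs_of_nonneg (by positivity), abs_of_nonneg (by nlinarith)]
      nlinarith)) ha.le
  have h1 := key 0 le_rfl zero_le_one
  have h2 := key 1 zero_le_one le_rfl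
  simp only [add_zero] at h1
  linarith

/-- `a γ(x) ≥ ∫_x^{x+a} γ` for `x ≥ 0`; tail `∫_t^∞ γ ≤ e^{-t²/2}`. -/
lemma riem_ge {a ρ : ℝ} (ha : 0 < a) (hρ : 0 ≤ ρ) (N : ℕ) :
    1 - 2 * Real.exp (-(a * N) ^ 2 / 2) - 2 * (ρ + a) ≤
      ∑ j ∈ Finset.Ico (-(N : ℤ)) N, a * g1 (a * |(j : ℝ)| + ρ) := by
  rw [Riem_Ico3 fun x => a * g1 (a * x + ρ)]
  have h1 := Riem_tel_ge hρ ha.le N
  have h2 := Riem_tel_ge (x := ρ + a) (by positivity) ha.le N
  have h3 := Riem_Q_le le_rfl hρ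
  have h4 := Riem_Q_le (t := ρ + a) le_rfl (by positivity)
  have h5 := Riem_Q_tail (t := a * N) (by positivity)
  have h6 := Riem_Q_anti (show a * N ≤ ρ + a * N by linarith)
  have h7 := Riem_Q_anti (show a * N ≤ ρ + a + a * N by linarith)
  have h8 := g1_le_one 0
  rw [Riem_Q_zero, zero_add] at h3 h4
  rw [Finset.sum_congr rfl fun (i : ℕ) _ => show a * g1 (a * i + ρ) = a * g1 (ρ + a * i) by
    rw [add_comm], Finset.sum_congr rfl fun (i : ℕ) _ =>
      show a * g1 (a * (i + 1) + ρ) = a * g1 (ρ + a + a * i) by ring_nf]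
  nlinarith

/-- Chebyshev for the product weights `∏ w (x i)`; `μ = ∑ w`, `∑ w f = m μ`,
`∑ w (f - m)² ≤ vr μ` (cross terms vanish; `Finset.prod_univ_sum` / induction on `k`). -/
theorem wcheb {X : Type} [Fintype X] (w f : X → ℝ) (hw : ∀ x, 0 ≤ w x) (m vr : ℝ)
    (hm : ∑ x, w x * f x = m * ∑ x, w x) (hv : ∑ x, w x * (f x - m) ^ 2 ≤ vr * ∑ x, w x)
    (k : ℕ) {l : ℝ} (hl : 0 < l) :
    ∑ x : Fin k → X, (if l ≤ |∑ i, f (x i) - k * m| then ∏ i, w (x i) else 0) ≤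
      (∑ x, w x) ^ k * (k * vr / l ^ 2) := by
  have hg : ∑ x, w x * (f x - m) = 0 := by
    simp only [mul_sub, Finset.sum_sub_distrib, ← Finset.sum_mul, hm]
    ring
  have hW : ∀ x : Fin k → X, 0 ≤ ∏ i, w (x i) := fun x => Finset.prod_nonneg fun i _ => hw _
  have hμ : 0 ≤ ∑ x, w x := Finset.sum_nonneg fun x _ => hw x
  have h1 : ∑ x : Fin k → X, (∏ i, w (x i)) * (∑ i, (f (x i) - m)) ^ 2 ≤
      k * vr * (∑ x, w x) ^ k := by
    rcases hμ.eq_or_lt with h0 | h0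
    · cases k with
      | zero => simp
      | succ k =>
        have hz := (Finset.sum_eq_zero_iff_of_nonneg fun x _ => hw x).1 h0.symm
        rw [← h0, Finset.sum_eq_zero fun x _ => by
          rw [Fin.prod_univ_succ, hz _ (Finset.mem_univ _), zero_mul, zero_mul]]
        simp
    · refine le_of_mul_le_mul_left ?_ h0
      rw [Riem_var w (fun x => f x - m) hg k]
      have := mul_le_mul_of_nonneg_left hv (show 0 ≤ (k : ℝ) * (∑ x, w x) ^ k by positivity)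
      linarith
  have hl2 : 0 < l ^ 2 := by positivity
  rw [← mul_div_assoc, le_div_iff₀ hl2, Finset.sum_mul, mul_comm _ (k * vr)]
  refine le_trans (Finset.sum_le_sum fun x _ => ?_) h1
  split_ifs with h
  · refine mul_le_mul_of_nonneg_left ?_ (hW x)
    rw [Finset.sum_sub_distrib, Finset.sum_const, Finset.card_univ, Fintype.card_fin, nsmul_eq_mul,
      ← sq_abs (_ - _)]
    exact pow_le_pow_left₀ hl.le h 2
  · rw [zero_mul]
    exact mul_nonneg (hW x) (sq_nonneg _)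

section OneD
variable (p : ℕ) [Fact p.Prime] (s ρ : ℝ)

/-- Offset of the leaf `ε` over the residue `δ`. -/
def j1 (δ : ZMod p) (ε : Bool) : ℤ := (δ.val : ℤ) - if ε then (p : ℤ) else 0

/-- Leaf weight. -/
noncomputable def f1 (δ : ZMod p) (ε : Bool) : ℝ := s * g1 (s / p * |(j1 p δ ε : ℝ)| + ρ)

/-- Folded Gaussian. -/
noncomputable def th1 (δ : ZMod p) : ℝ := f1 p s ρ δ false + f1 p s ρ δ true

variable {p s ρ}

/-- `(δ, ε) ↦ j1` is a bijection onto `[-p, p)`. -/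
lemma sum_j1 (F : ℤ → ℝ) :
    ∑ δ : ZMod p, (F (j1 p δ false) + F (j1 p δ true)) = ∑ j ∈ Finset.Ico (-(p : ℤ)) p, F j := by
  have : NeZero p := ⟨(Fact.out : p.Prime).ne_zero⟩
  rw [Riem_Ico2, ← Finset.sum_add_distrib]
  refine Finset.sum_bij' (fun δ _ => δ.val) (fun i _ => (i : ZMod p))
    (fun δ _ => Finset.mem_range.2 (ZMod.val_lt δ)) (fun _ _ => Finset.mem_univ _)
    (fun δ _ => ZMod.natCast_zmod_val δ) (fun i hi => ZMod.val_cast_of_lt (Finset.mem_range.1 hi))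
    fun δ _ => by simp [j1]

lemma Riem_av (F : ℤ → ℝ) : av (fun δ : ZMod p => F (j1 p δ false) + F (j1 p δ true)) =
    ∑ j ∈ Finset.Ico (-(p : ℤ)) p, F j / p := by
  have : NeZero p := ⟨(Fact.out : p.Prime).ne_zero⟩
  rw [av, sum_j1, ZMod.card, Finset.sum_div]

lemma Riem_j1 (δ : ZMod p) : |(j1 p δ false : ℝ)| + |(j1 p δ true : ℝ)| = p := by
  have : NeZero p := ⟨(Fact.out : p.Prime).ne_zero⟩
  have h : (δ.val : ℝ) ≤ p := by exact_mod_cast (ZMod.val_lt δ).le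
  simp only [j1, Bool.false_eq_true, if_false, if_true, sub_zero, Int.cast_sub, Int.cast_natCast]
  rw [abs_of_nonneg (Nat.cast_nonneg _), abs_of_nonpos (by linarith)]
  ring

lemma av_th1 (hs : 0 < s) (hρ : s / p ≤ ρ) :
    1 - 2 * Real.exp (-s ^ 2 / 2) - 4 * ρ ≤ av (th1 p s ρ) ∧ av (th1 p s ρ) ≤ 1 := by
  have hp : (0 : ℝ) < p := Nat.cast_pos.2 (Fact.out : p.Prime).pos
  have ha : 0 < s / p := by positivity
  have h1 := riem_ge ha (ha.le.trans hρ) p
  have h2 := riem_le ha hρ p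
  have h3 := Riem_av (p := p) fun j => s * g1 (s / p * |(j : ℝ)| + ρ)
  rw [div_mul_cancel₀ _ hp.ne'] at h1
  simp only [mul_div_right_comm] at h3
  change av (th1 p s ρ) = _ at h3
  rw [h3]
  exact ⟨by linarith, h2⟩

/-- `s γ(s) ≤ s γ(s/2 + ρ) ≤ th1 ≤ 2 s`. -/
lemma log_th1 (hs : 2 ≤ s) (hρ0 : 0 ≤ ρ) (hρ : ρ ≤ 1) (δ : ZMod p) :
    0 < th1 p s ρ δ ∧ |Real.log (th1 p s ρ δ)| ≤ s ^ 2 := by
  have hp : (0 : ℝ) < p := Nat.cast_pos.2 (Fact.out : p.Prime).pos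
  have hf : ∀ ε, 0 < f1 p s ρ δ ε ∧ f1 p s ρ δ ε ≤ s := fun ε =>
    ⟨mul_pos (by linarith) (g1_pos _), mul_le_of_le_one_right (by linarith) (g1_le_one _)⟩
  have hlow : ∀ ε, 2 * |(j1 p δ ε : ℝ)| ≤ p → Real.exp (-s ^ 2) ≤ f1 p s ρ δ ε := fun ε h => by
    have h1 : s / p * |(j1 p δ ε : ℝ)| ≤ s / 2 := by
      rw [div_mul_eq_mul_div, div_le_div_iff₀ hp two_pos]
      nlinarith
    have h2 : g1 s ≤ g1 (s / p * |(j1 p δ ε : ℝ)| + ρ) := g1_anti (by
      rw [abs_of_nonneg (by positivity), abs_of_nonneg (a := s) (by linarith)]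
      linarith)
    refine le_trans ?_ (mul_le_mul_of_nonneg_left h2 (by linarith))
    have h3 := Real.add_one_le_exp (s ^ 2 / 2)
    have h4 : Real.exp (-s ^ 2 / 2) = Real.exp (-s ^ 2) * Real.exp (s ^ 2 / 2) := by
      rw [← Real.exp_add]; ring_nf
    rw [g1, h4, ← mul_div_assoc, le_div_iff₀ (by positivity), mul_left_comm]
    refine mul_le_mul_of_nonneg_left ?_ (Real.exp_pos _).le
    nlinarith [Riem_sqrt.2]
  have hge : Real.exp (-s ^ 2) ≤ th1 p s ρ δ := by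
    have h := Riem_j1 δ
    rcases le_total (2 * |(j1 p δ false : ℝ)|) p with h1 | h1
    · exact (hlow _ h1).trans (le_add_of_nonneg_right (hf _).1.le)
    · exact (hlow true (by linarith)).trans (le_add_of_nonneg_left (hf _).1.le)
  have hpos : 0 < th1 p s ρ δ := add_pos (hf _).1 (hf _).1
  refine ⟨hpos, abs_le.2 ⟨(Real.le_log_iff_exp_le hpos).2 hge, (Real.log_le_iff_le_exp hpos).2 ?_⟩⟩
  have h3 := Real.add_one_le_exp (s ^ 2)
  have h4 : th1 p s ρ δ ≤ s + s := add_le_add (hf _).2 (hf _).2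
  nlinarith [sq_nonneg (s - 1)]

/-- `log th1 ≥ log f1 = log s - log √(2π) - x²/2`, `x = (s/p)|j| + ρ`, and
`x² γ(x) ≤ 4 γ(x/√2)`, `riem_le` with `a/√2, ρ/√2`: the average of `f1 x²` is `≤ 4 √2 ≤ 6`. -/
lemma mean_log_th1 (hs : 2 ≤ s) (hρ : s / p ≤ ρ) (hμ : 1 / 2 ≤ av (th1 p s ρ)) :
    (Real.log s - 7) * av (th1 p s ρ) ≤ av fun δ => th1 p s ρ δ * Real.log (th1 p s ρ δ) := by
  have hp : (0 : ℝ) < p := Nat.cast_pos.2 (Fact.out : p.Prime).pos
  have hs0 : 0 < s := by linarith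
  have hf : ∀ δ ε, 0 < f1 p s ρ δ ε := fun δ ε => mul_pos hs0 (g1_pos _)
  set G : ℤ → ℝ := fun j => s / 2 * g1 (s / p / 2 * |(j : ℝ)| + ρ / 2) with hG
  have h1 : ∀ δ ε, f1 p s ρ δ ε ≤ th1 p s ρ δ → (Real.log s - 5 / 3) * f1 p s ρ δ ε -
      8 / 3 * G (j1 p δ ε) ≤ f1 p s ρ δ ε * Real.log (th1 p s ρ δ) := fun δ ε h => by
    refine le_trans ?_ (mul_le_mul_of_nonneg_left (Real.log_le_log (hf δ ε) h) (hf δ ε).le)
    have e1 : G (j1 p δ ε) = s / 2 * g1 ((s / p * |(j1 p δ ε : ℝ)| + ρ) / 2) := by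
      rw [hG]; ring_nf
    rw [e1, f1]
    generalize s / p * |(j1 p δ ε : ℝ)| + ρ = x
    have e2 : Real.log (s * g1 x) = Real.log s - x ^ 2 / 2 - Real.log √(2 * Real.pi) := by
      rw [Real.log_mul hs0.ne' (g1_pos x).ne', g1, Real.log_div (Real.exp_pos _).ne' (by positivity),
        Real.log_exp]
      ring
    have e3 := Real.log_le_sub_one_of_pos (show 0 < √(2 * Real.pi) by positivity)
    have e4 : x ^ 2 * g1 x ≤ 8 / 3 * g1 (x / 2) := by
      have h4 : Real.exp (-(x / 2) ^ 2 / 2) = Real.exp (-x ^ 2 / 2) * Real.exp (3 * x ^ 2 / 8) := by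
        rw [← Real.exp_add]; ring_nf
      have h5 := Real.add_one_le_exp (3 * x ^ 2 / 8)
      rw [g1, g1, h4, ← mul_div_assoc, ← mul_div_assoc]
      refine div_le_div_of_nonneg_right ?_ (by positivity)
      nlinarith [Real.exp_pos (-x ^ 2 / 2)]
    have e5 := mul_le_mul_of_nonneg_left e4 hs0.le
    have e6 := mul_le_mul_of_nonneg_left (show Real.log √(2 * Real.pi) ≤ 5 / 3 by
      linarith [Riem_sqrt.2]) (mul_pos hs0 (g1_pos x)).le
    rw [e2]
    nlinarith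
  have h2 := Riem_av (p := p) G
  have h3 := riem_le (a := s / p / 2) (ρ := ρ / 2) (by positivity) (by linarith) p
  have h4 : ∑ j ∈ Finset.Ico (-(p : ℤ)) p, G j / p =
      ∑ j ∈ Finset.Ico (-(p : ℤ)) p, s / p / 2 * g1 (s / p / 2 * |(j : ℝ)| + ρ / 2) :=
    Finset.sum_congr rfl fun j _ => by rw [hG]; ring
  have h5 := av_mono (f := fun δ : ZMod p => (Real.log s - 5 / 3) * th1 p s ρ δ -
      8 / 3 * (G (j1 p δ false) + G (j1 p δ true)))
    (g := fun δ => th1 p s ρ δ * Real.log (th1 p s ρ δ)) fun δ => by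
      have a1 := h1 δ false (le_add_of_nonneg_right (hf _ _).le)
      have a2 := h1 δ true (le_add_of_nonneg_left (hf _ _).le)
      have a3 : th1 p s ρ δ = f1 p s ρ δ false + f1 p s ρ δ true := rfl
      generalize Real.log (th1 p s ρ δ) = L at *
      rw [a3]
      linarith
  rw [av_sub, av_const_mul, av_const_mul, h2, h4] at h5
  linarith

/-- At least `p / (2 s²)` integers `j` with `s j / p ∈ [s/2, s/2 + 1/s]`. -/
lemma far_mass (hs : 2 ≤ s) (hρ0 : 0 ≤ ρ) (hρ : ρ ≤ 1 / s) (hp : 2 * s ^ 2 ≤ p) :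
    Real.exp (-s ^ 2 / 8) / (25 * s) ≤
      av fun δ : ZMod p => ∑ ε : Bool, if (p : ℤ) ≤ 2 * |j1 p δ ε| then f1 p s ρ δ ε else 0 := by
  have hp0 : (0 : ℝ) < p := Nat.cast_pos.2 (Fact.out : p.Prime).pos
  have hs0 : 0 < s := by linarith
  have ha : 0 < s / p := by positivity
  have h1 := Riem_av (p := p) fun j =>
    if (p : ℤ) ≤ 2 * |j| then s * g1 (s / p * |(j : ℝ)| + ρ) else 0
  simp only [Fintype.sum_bool, add_comm (ite ((p : ℤ) ≤ 2 * |j1 p _ true|) _ _)]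
  refine le_trans ?_ h1.ge
  obtain ⟨c, n, hcn, hc1, hc2⟩ : ∃ c n : ℕ, c + n = p ∧ p ≤ 2 * c ∧ 2 * c ≤ p + 1 :=
    ⟨(p + 1) / 2, p / 2, by omega, by omega, by omega⟩
  refine le_trans ?_ (Finset.sum_le_sum_of_subset_of_nonneg
    (Finset.Ico_subset_Ico (show -(p : ℤ) ≤ c by omega) (show (c : ℤ) + n ≤ p by omega))
    fun j _ _ => div_nonneg (by
      split_ifs
      · exact (mul_pos hs0 (g1_pos _)).le
      · exact le_rfl) hp0.le)
  rw [Riem_Ico]
  have h2 := Riem_tel_ge (x := s / p * c + ρ) (by positivity) ha.le n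
  refine le_trans ?_ (h2.trans (le_of_eq (Finset.sum_congr rfl fun i _ => ?_)))
  swap
  · rw [if_pos (by rw [abs_of_nonneg (by positivity)]; omega)]
    push_cast
    rw [abs_of_nonneg (by positivity)]
    ring_nf
  have ht : 0 < 1 / s := by positivity
  have ht2 : 1 / s ≤ 1 / 2 := one_div_le_one_div_of_le two_pos hs
  have ha2 : s / p ≤ 1 / s / 2 := by
    rw [div_div, div_le_div_iff₀ hp0 (by positivity)]
    linarith
  have hc : s / p * c ≤ s / 2 + 1 / s / 4 := by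
    have h3 : (2 * c : ℝ) ≤ p + 1 := by exact_mod_cast hc2
    have h4 := mul_le_mul_of_nonneg_left h3 ha.le
    rw [mul_add, div_mul_cancel₀ _ hp0.ne'] at h4
    linarith
  have hn : s / p * c + s / p * n = s := by
    rw [← mul_add, ← Nat.cast_add, hcn, div_mul_cancel₀ _ hp0.ne']
  have h5 := Riem_Q_ge (x := s / p * c + ρ) (t := 3 / 4 * (1 / s)) (by positivity) (by positivity)
  have h6 := Riem_Q_anti (show s / p * c + ρ + 3 / 4 * (1 / s) ≤ s / p * c + ρ + s / p * n by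
    linarith)
  have h7 : g1 (s / 2 + 2 * (1 / s)) ≤ g1 (s / p * c + ρ + 3 / 4 * (1 / s)) := g1_anti (by
    rw [abs_of_nonneg (by positivity), abs_of_nonneg (by positivity)]
    linarith)
  have h8 : Real.exp (-s ^ 2 / 8) * (4 / 75) ≤ g1 (s / 2 + 2 * (1 / s)) := by
    have e1 : Real.exp (-s ^ 2 / 8) ≤
        Real.exp (-(s / 2 + 2 * (1 / s)) ^ 2 / 2) * (Real.exp 1 * Real.exp 1) := by
      rw [← Real.exp_add, ← Real.exp_add]
      refine Real.exp_le_exp.2 ?_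
      have : s * (1 / s) = 1 := mul_one_div_cancel hs0.ne'
      nlinarith
    have e2 : Real.exp 1 * Real.exp 1 ≤ 2.72 * 2.72 :=
      mul_self_le_mul_self (Real.exp_pos _).le (by linarith [Real.exp_one_lt_d9])
    have e3 := mul_le_mul_of_nonneg_left e2 (Real.exp_pos (-(s / 2 + 2 * (1 / s)) ^ 2 / 2)).le
    have e4 := mul_le_mul_of_nonneg_left Riem_sqrt.2 (Real.exp_pos (-s ^ 2 / 8)).le
    rw [g1, le_div_iff₀ (by positivity)]
    nlinarith [Real.exp_pos (-s ^ 2 / 8)]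
  have h9 := mul_le_mul_of_nonneg_left (h8.trans h7) (show 0 ≤ 3 / 4 * (1 / s) by positivity)
  have h10 : Real.exp (-s ^ 2 / 8) / (25 * s) =
      3 / 4 * (1 / s) * (Real.exp (-s ^ 2 / 8) * (4 / 75)) := by
    field_simp
    ring
  linarith

/-- The partner leaf is closer (`|j| + |j'| = p`). -/
lemma far_half (hs : 0 < s) (hρ0 : 0 ≤ ρ) (δ : ZMod p) (ε : Bool)
    (h : (p : ℤ) ≤ 2 * |j1 p δ ε|) : f1 p s ρ δ ε ≤ th1 p s ρ δ / 2 := by
  have hp : (0 : ℝ) < p := Nat.cast_pos.2 (Fact.out : p.Prime).pos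
  have h0 := Riem_j1 δ
  have h' : (p : ℝ) ≤ 2 * |(j1 p δ ε : ℝ)| := by exact_mod_cast h
  have key : ∀ ε ε', |(j1 p δ ε' : ℝ)| ≤ |(j1 p δ ε : ℝ)| → f1 p s ρ δ ε ≤ f1 p s ρ δ ε' :=
    fun ε ε' h => mul_le_mul_of_nonneg_left (g1_anti (by
      rw [abs_of_nonneg (by positivity), abs_of_nonneg (a := _ + ρ) (by positivity)]
      gcongr)) hs.le
  unfold th1
  cases ε
  · linarith [key false true (by linarith)]
  · linarith [key true false (by linarith)]

end OneD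

end Crest.Agent.R225
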