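import Crest.Agent.R225.Defs

/-! Row 225: definitions for the base estimate (uncovered residues of a random congruence
lattice). -/

set_option autoImplicit false

namespace Crest.Agent.R225

/-- `ŷ = (1, y)`. -/
def hatQ {m : ℕ} (y : Fin m → ℤ) : Option (Fin m) → ℚ := fun o => o.elim 1 fun i => (y i : ℚ)

/-- `ℓ · y mod p`. -/
def dotp {m p : ℕ} (l : Fin m → ZMod p) (y : Fin m → ℤ) : ZMod p := ∑ i, l i * (y i : ZMod p)

open Classical in
/-- Number of pairs (independent `r`-set `B`, further point in its span). -/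
noncomputable def Zp {α V : Type} [DecidableEq α] [AddCommGroup V] [Module ℚ V] (S : Finset α)
    (vec : α → V) (r : ℕ) : ℕ :=
  ((S.powersetCard r ×ˢ S).filter fun x => LinearIndepOn ℚ vec (x.1 : Set α) ∧ x.2 ∉ x.1 ∧
    vec x.2 ∈ Submodule.span ℚ (vec '' (x.1 : Set α))).card

/-- Sup norm thickening of a finite set of integer points. -/
noncomputable def thick {m : ℕ} (S : Finset (Fin m → ℤ)) (W : ℕ) : Finset (Fin m → ℤ) :=
  S.biUnion fun y => Fintype.piFinset fun i => Finset.Icc (y i - W) (y i + W)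

/-- Integer points `y` with `η y` within `η` of `S`. -/
def gridS {m : ℕ} (S : Set (Fin m → ℝ)) (η : ℝ) : Set (Fin m → ℤ) :=
  {y | ∃ s ∈ S, ∀ i, |η * y i - s i| ≤ η}

/-- The integer relation `∑ c i • ŷ i = 0`. -/
def Rel {m r : ℕ} (c : Fin (r + 1) → ℤ) (y : Fin (r + 1) → Fin m → ℤ) : Prop :=
  ∑ i, c i = 0 ∧ ∀ l, ∑ i, c i * y i l = 0

/-- The base estimate in dimension `m` for volumes up to `vmax`. -/
def SchP (m : ℕ) (vmax : ℝ) : Prop :=
  ∀ S : Set (Fin m → ℝ), IsCompact S → ∀ v : ℝ, 1 ≤ v → v ≤ vmax →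
    v ≤ MeasureTheory.volume.real S → ∃ p₀ : ℕ, ∀ (p : ℕ) [Fact p.Prime], p₀ ≤ p →
      fr (fun q : (Fin m → ZMod p) × ZMod p =>
        ∀ y ∈ gridS S ((p : ℝ) ^ (-1 / m : ℝ)), dotp q.1 y ≠ q.2) ≤ 4 * Real.exp (-v)

end Crest.Agent.R225
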