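import Crest.Agent.R225.Brunn
import Crest.Agent.R225.CovAff

/-! Task `R225 SmallBall`: whitening and small ball estimates. -/

set_option autoImplicit false
open MeasureTheory

namespace Crest.Agent.R225

section aux
variable {κ : Type} [Fintype κ] {K : Set (κ → ℝ)}

lemma sb_int (h : IsCompact K) {f : (κ → ℝ) → ℝ} (hf : Continuous f) : IntegrableOn f K :=
  hf.continuousOn.integrableOn_compact h

lemma sb_quad (h : IsCompact K) (y z : κ → ℝ) : ∫ x in K, (x ⬝ᵥ y) * (x ⬝ᵥ z) =
    y ⬝ᵥ (Matrix.of fun i j => ∫ x in K, x i * x j).mulVec z := by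
  have e : ∀ x : κ → ℝ, (x ⬝ᵥ y) * (x ⬝ᵥ z) = ∑ i, ∑ j, y i * (x i * x j * z j) := fun x => by
    simp only [dotProduct, Finset.sum_mul_sum]
    exact Finset.sum_congr rfl fun i _ => Finset.sum_congr rfl fun j _ => by ring
  simp only [e]
  rw [integral_finsetSum _ fun i _ => sb_int h (by fun_prop)]
  refine Finset.sum_congr rfl fun i _ => ?_
  rw [integral_finsetSum _ fun j _ => sb_int h (by fun_prop)]
  simp only [integral_const_mul, integral_mul_const, ← Finset.mul_sum]
  rfl

lemma sb_markov (h : IsCompact K) {f : (κ → ℝ) → ℝ} (hf : Continuous f) (h0 : ∀ x, 0 ≤ f x)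
    {S : Set (κ → ℝ)} {t : ℝ} (ht : 0 < t) (hS : ∀ x ∈ S, x ∈ K ∧ t ≤ f x) :
    volume.real S ≤ (∫ x in K, f x) / t := by
  have h1 := mul_meas_ge_le_integral_of_nonneg (Filter.Eventually.of_forall h0) (sb_int h hf) t
  rw [measureReal_restrict_apply' h.measurableSet] at h1
  rw [le_div_iff₀' ht]
  exact le_trans (mul_le_mul_of_nonneg_left (measureReal_mono
    (fun x hx => Set.mem_inter (hS x hx).2 (hS x hx).1)
    (measure_ne_top_of_subset Set.inter_subset_right h.measure_lt_top.ne)) ht.le) h1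

/-- Comparison of a function with a combination of indicators. -/
lemma sb_wt (h : IsCompact K) {ι : Type} (s : Finset ι) (c : ι → ℝ) (p : ι → (κ → ℝ) → Prop)
    (hp : ∀ i, MeasurableSet {x | p i x}) {f : (κ → ℝ) → ℝ} (hf : Continuous f)
    (hle : ∀ x ∈ K, f x ≤ ∑ i ∈ s, c i * {x | p i x}.indicator 1 x) :
    ∫ x in K, f x ≤ ∑ i ∈ s, c i * volume.real {x ∈ K | p i x} := by
  have hi : ∀ i, IntegrableOn (fun x => c i * {x | p i x}.indicator (1 : (κ → ℝ) → ℝ) x) K :=
    fun i => ((sb_int h continuous_one).indicator (hp i)).const_mul _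
  refine (setIntegral_mono_on (sb_int h hf) (integrable_finsetSum s fun i _ => hi i)
    h.measurableSet hle).trans_eq ?_
  rw [integral_finsetSum _ fun i _ => hi i]
  refine Finset.sum_congr rfl fun i _ => ?_
  rw [integral_const_mul, integral_indicator_one (hp i), measureReal_restrict_apply (hp i),
    Set.inter_comm]
  rfl

/-- Geometric decay of the tails of a log-concave marginal. -/
lemma sb_tail (h : Body K) (i : κ) (σ : ℝ) {ε β : ℝ} (hε : 0 < ε) (h0 : 0 ≤ β) (h1 : β ≤ 1)
    (hβ : β * volume.real K ≤ volume.real {x ∈ K | |σ * x i| ≤ ε}) (k : ℕ) :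
    volume.real {x ∈ K | 3 * ε * k - ε ≤ σ * x i} ≤ (1 - β) ^ k * volume.real K := by
  set T : ℕ → ℝ := fun k => volume.real {x ∈ K | 3 * ε * k - ε ≤ σ * x i} with hT
  have fin : ∀ p : (κ → ℝ) → Prop, volume {x ∈ K | p x} ≠ ⊤ := fun p =>
    measure_ne_top_of_subset (Set.sep_subset _ _) h.1.measure_lt_top.ne
  have ms : ∀ t : ℝ, MeasurableSet {x ∈ K | t ≤ σ * x i} := fun t =>
    h.1.measurableSet.inter (measurableSet_le measurable_const
      (by fun_prop : Measurable fun x : κ → ℝ => σ * x i))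
  have T0 : T 0 ≤ volume.real K := measureReal_mono (Set.sep_subset _ _) h.1.measure_lt_top.ne
  have step : ∀ k, T (k + 1) ≤ (1 - β) * T k := by
    intro k
    induction k with
    | zero =>
      have h2 : volume.real {x ∈ K | |σ * x i| ≤ ε} + T 1 ≤ T 0 := by
        rw [hT, ← measureReal_union _ (ms _) (fin _) (fin _)]
        · refine measureReal_mono (Set.union_subset (fun x hx => ⟨hx.1, ?_⟩)
            fun x hx => ⟨hx.1, ?_⟩) (fin _)
          · simpa using (abs_le.1 hx.2).1
          · have := hx.2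
            push_cast at this ⊢
            linarith
        · refine Set.disjoint_left.2 fun x hx hx' => ?_
          have := hx'.2
          push_cast at this
          linarith [(abs_le.1 hx.2).2]
      nlinarith
    | succ k ih =>
      have h2 : T k * T (k + 2) ≤ T (k + 1) ^ 2 := bm_mid (ms _) (ms _) (ms _) (fin _)
        fun x hx y hy => by
          refine ⟨?_, ?_⟩
          · convert h.2.1 hx.1 hy.1 (show (0 : ℝ) ≤ 1 / 2 by norm_num)
              (show (0 : ℝ) ≤ 1 / 2 by norm_num) (by norm_num) using 1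
            funext j
            simp only [Pi.add_apply, Pi.smul_apply, smul_eq_mul]
            ring
          · have h3 := hx.2
            have h4 := hy.2
            push_cast at h3 h4 ⊢
            linarith
      have h3 : T (k + 2) ≤ T (k + 1) := measureReal_mono (fun x hx => ⟨hx.1, by
        have := hx.2
        push_cast at this ⊢
        linarith⟩) (fin _)
      have h4 : 0 ≤ T (k + 1) := measureReal_nonneg
      rcases (show 0 ≤ T k from measureReal_nonneg).eq_or_lt with h5 | h5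
      · rw [← h5] at ih
        nlinarith
      · refine le_of_mul_le_mul_left ?_ h5
        nlinarith
  induction k with
  | zero => rwa [pow_zero, one_mul]
  | succ k ih =>
    refine (step k).trans ?_
    rw [pow_succ', mul_assoc]
    exact mul_le_mul_of_nonneg_left ih (by linarith)

lemma sb_pt {ε : ℝ} (hε : 0 < ε) {x : ℝ} (hx : 0 ≤ x) (a : ℕ → ℝ) (h0 : ∀ k, 0 ≤ a k)
    (h1 : ∀ k : ℕ, 3 * ε * k - ε ≤ x → 1 ≤ a k) (N : ℕ) :
    min x (3 * ε * N) ^ 2 ≤ ∑ k ∈ Finset.range N, (3 * ε) ^ 2 * (2 * k + 2) * a k := by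
  induction N with
  | zero => simp [hx]
  | succ N ih =>
    have hN : 0 ≤ (3 * ε) ^ 2 * (2 * N + 2) := by positivity
    rw [Finset.sum_range_succ]
    push_cast
    rcases le_total x (3 * ε * N) with h | h
    · rw [min_eq_left h] at ih
      rw [min_eq_left (by linarith)]
      linarith [mul_nonneg hN (h0 N)]
    · rw [min_eq_right h] at ih
      have h2 : min x (3 * ε * (N + 1)) ^ 2 ≤ (3 * ε * (N + 1)) ^ 2 :=
        pow_le_pow_left₀ (le_min hx (by positivity)) (min_le_right _ _) 2
      nlinarith [mul_le_mul_of_nonneg_left (h1 N (by linarith)) hN, sq_nonneg ε]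

lemma sb_geom {β : ℝ} (N : ℕ) : β ^ 2 * ∑ k ∈ Finset.range N, (2 * k + 2) * (1 - β) ^ k =
    2 - (2 * N * β + 2) * (1 - β) ^ N := by
  induction N with
  | zero => simp
  | succ N ih =>
    rw [Finset.sum_range_succ, mul_add, ih]
    push_cast
    ring

end aux

variable {κ : Type} [Fintype κ] [DecidableEq κ] {K : Set (κ → ℝ)}

open scoped MatrixOrder in
/-- `Σ i j = (∫_K x i x j) / vol K` is positive definite; `A = Σ^{-1/2}` (or `B⁻¹` with
`Σ = B Bᵀ`); change of variables by `A`. -/
theorem exists_iso (h : Body K) :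
    ∃ A : Matrix κ κ ℝ, A.det ≠ 0 ∧ Iso ((fun x => A.mulVec x + 0) '' K) := by
  have hV := h.vol_pos
  set S : Matrix κ κ ℝ := Matrix.of fun i j => ∫ x in K, x i * x j with hS
  have h1 : S.PosDef := by
    refine .of_dotProduct_mulVec_pos (Matrix.ext fun i j => by simp [hS, mul_comm]) fun y hy => ?_
    rw [star_trivial, ← sb_quad h.1, setIntegral_pos_iff_support_of_nonneg_ae
      (Filter.Eventually.of_forall fun x => mul_self_nonneg _) (sb_int h.1 (by fun_prop))]
    have h2 : volume ((LinearMap.ker (dotProductBilin ℝ ℝ y) : Submodule ℝ (κ → ℝ)) :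
        Set (κ → ℝ)) = 0 := Measure.addHaar_submodule _ _ fun h3 =>
      hy (dotProduct_self_eq_zero.1 (LinearMap.mem_ker.1 (h3.ge (Submodule.mem_top (x := y)))))
    refine pos_iff_ne_zero.2 fun h3 => hV.ne' ?_
    rw [Measure.real, measure_mono_null (fun x hx => ?_) (measure_union_null h3 h2)]
    · rfl
    · by_cases h4 : x ⬝ᵥ y = 0
      · exact Or.inr (LinearMap.mem_ker.2 ((dotProduct_comm y x).trans h4))
      · exact Or.inl ⟨mul_ne_zero h4 h4, hx⟩
  obtain ⟨B, hB, e⟩ := CStarAlgebra.isStrictlyPositive_iff_eq_star_mul_self.1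
    (h1.smul (inv_pos.2 hV)).isStrictlyPositive
  have hB' := (Matrix.isUnit_iff_isUnit_det B).1 hB
  have hA : (B⁻¹.transpose).det ≠ 0 := by
    rw [Matrix.det_transpose]
    exact (Matrix.isUnit_nonsing_inv_det B hB').ne_zero
  have e2 : B⁻¹.transpose * S * B⁻¹ = volume.real K • (1 : Matrix κ κ ℝ) := by
    rw [(inv_smul_eq_iff₀ hV.ne').1 e, Matrix.mul_smul, Matrix.smul_mul, Matrix.star_eq_conjTranspose,
      Matrix.conjTranspose_eq_transpose_of_trivial, ← Matrix.mul_assoc, ← Matrix.transpose_mul,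
      Matrix.mul_nonsing_inv B hB', Matrix.transpose_one, Matrix.one_mul,
      Matrix.mul_nonsing_inv B hB']
  refine ⟨_, hA, fun i j => ?_⟩
  set A := B⁻¹.transpose with hAd
  have h3 := integral_image_eq_integral_abs_det_fderiv_smul volume h.1.measurableSet
    (f := fun x => A.mulVec x + 0) (f' := fun _ => LinearMap.toContinuousLinearMap A.toLin')
    (fun x _ => ((LinearMap.toContinuousLinearMap A.toLin').hasFDerivAt.add_const 0).hasFDerivWithinAt)
    (fun x _ y _ hxy => Matrix.mulVec_injective_iff_isUnit.2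
      ((Matrix.isUnit_iff_isUnit_det A).2 hA.isUnit) (add_right_cancel hxy)) fun x => x i * x j
  have h4 : ∀ (x : κ → ℝ) (i : κ), (A.mulVec x + 0) i = x ⬝ᵥ A i := fun x i => by
    rw [add_zero, dotProduct_comm]; rfl
  have h5 : A i ⬝ᵥ S.mulVec (A j) = (A * S * B⁻¹) i j := by
    rw [Matrix.mul_assoc]; rfl
  rw [h3, vol_affine, integral_smul, LinearMap.det_toContinuousLinearMap, LinearMap.det_toLin']
  simp only [h4]
  rw [sb_quad h.1, h5, e2, Matrix.smul_apply, Matrix.one_apply]
  simp

/-- `a t = vol {x ∈ K | |x i - t| ≤ ε} / vol K` is midpoint log-concave (`bm_mid`), upper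
semicontinuous, `∫ a = 2 ε`. Put `β = a 0`. The set `{a ≥ β/2}` is an interval containing `0`
of length `≤ 4ε/β`, so `a t < β/2` for `|t| ≥ L = 8ε/β`, and `a (2t) / β ≤ (a t / β)²` gives
`a t ≤ β 2^{-2^j}` for `|t| ≥ 2^j L`. Hence `1 = E (x i)² ≤ C (L² + ε²)`, i.e. `β ≤ C ε`
(for small `ε`; trivial otherwise). Any other proof is fine. -/
theorem small_coord : ∃ C : ℝ, 0 < C ∧ ∀ (κ : Type) [Fintype κ] (K : Set (κ → ℝ)), Body K →
    ∀ i : κ, ∫ x in K, x i * x i = volume.real K → ∀ ε : ℝ, 0 < ε →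
      volume.real {x ∈ K | |x i| ≤ ε} ≤ C * ε * volume.real K := by
  refine ⟨6, by norm_num, fun κ _ K h i hi ε hε => ?_⟩
  classical
  have hV := h.vol_pos
  set β := volume.real {x ∈ K | |x i| ≤ ε} / volume.real K with hβ
  have h0 : 0 ≤ β := by positivity
  have h1 : β ≤ 1 :=
    (div_le_one hV).2 (measureReal_mono (Set.sep_subset _ _) h.1.measure_lt_top.ne)
  obtain ⟨R, hR⟩ := h.1.exists_bound_of_continuousOn (continuous_apply i).continuousOn
  obtain ⟨N, hN⟩ := exists_nat_ge (R / (3 * ε))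
  have h2 := sb_wt h.1 (Finset.range N ×ˢ {1, -1}) (fun k => (3 * ε) ^ 2 * (2 * k.1 + 2))
    (fun k x => 3 * ε * k.1 - ε ≤ (k.2 : ℝ) * x i)
    (fun k => measurableSet_le measurable_const (by fun_prop)) (f := fun x => x i * x i)
    (by fun_prop) fun x hx => by
      have h3 := sb_pt hε (abs_nonneg (x i)) (fun k => ∑ σ ∈ ({1, -1} : Finset ℝ),
        {x : κ → ℝ | 3 * ε * k - ε ≤ σ * x i}.indicator 1 x)
        (fun k => Finset.sum_nonneg fun σ _ => Set.indicator_nonneg (fun _ _ => zero_le_one) x)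
        (fun k hk => by
          rw [Finset.sum_pair (by norm_num)]
          simp only [Set.indicator_apply, Set.mem_ofPred_eq, Pi.one_apply]
          rcases le_abs.1 hk with h4 | h4 <;> split_ifs <;> linarith) N
      rw [min_eq_left (a := |x i|) ((hR x hx).trans ((div_le_iff₀' (by positivity)).1 hN)), sq_abs,
        sq] at h3
      simpa only [Finset.sum_product, Finset.mul_sum] using h3
  have h3 : ∀ σ ∈ ({1, -1} : Finset ℝ), ∀ k : ℕ,
      volume.real {x ∈ K | 3 * ε * k - ε ≤ σ * x i} ≤ (1 - β) ^ k * volume.real K := by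
    intro σ hσ
    refine sb_tail h i σ hε h0 h1 ?_
    rw [hβ, div_mul_cancel₀ _ hV.ne']
    rcases Finset.mem_insert.1 hσ with rfl | hσ
    · simp
    · simp [Finset.mem_singleton.1 hσ]
  have h4 := h2.trans (Finset.sum_le_sum fun k hk => mul_le_mul_of_nonneg_left
    (h3 k.2 (Finset.mem_product.1 hk).2 k.1) (by positivity))
  have h5 : volume.real K ≤ 18 * ε ^ 2 * volume.real K *
      ∑ k ∈ Finset.range N, (2 * k + 2) * (1 - β) ^ k := by
    rw [hi, Finset.sum_product] at h4
    refine h4.trans_eq ?_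
    rw [Finset.mul_sum]
    exact Finset.sum_congr rfl fun k _ => by rw [Finset.sum_pair (by norm_num)]; ring
  have h6 : 0 ≤ (2 * N * β + 2) * (1 - β) ^ N :=
    mul_nonneg (by positivity) (pow_nonneg (by linarith) N)
  have h7 : β ^ 2 * volume.real K ≤ (6 * ε) ^ 2 * volume.real K := by
    refine (mul_le_mul_of_nonneg_left h5 (sq_nonneg β)).trans ?_
    rw [mul_left_comm, sb_geom]
    nlinarith [mul_nonneg (mul_pos (pow_pos hε 2) hV).le h6]
  exact (div_le_iff₀ hV).1 (le_of_pow_le_pow_left₀ two_ne_zero (by positivity)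
    (le_of_mul_le_mul_right h7 hV))

/-- Markov for the number of small coordinates. -/
theorem small_norm : ∃ C : ℝ, 0 < C ∧ ∀ (κ : Type) [Fintype κ] [DecidableEq κ] [Nonempty κ]
    (K : Set (κ → ℝ)), Body K → Iso K → ∀ ε : ℝ, 0 < ε →
      volume.real {x ∈ K | nrm x ≤ ε * √(Fintype.card κ)} ≤ C * ε * volume.real K := by
  obtain ⟨C, hC, H⟩ := small_coord
  refine ⟨4 * C, by positivity, fun κ _ _ _ K h hI ε hε => ?_⟩
  have hn : (0 : ℝ) < Fintype.card κ := Nat.cast_pos.2 Fintype.card_pos
  have hS : IsCompact {x ∈ K | nrm x ≤ ε * √(Fintype.card κ)} :=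
    h.1.inter_right (isClosed_le (f := nrm) (by unfold nrm; fun_prop) continuous_const)
  have h1 := sb_wt hS Finset.univ (fun _ => 1) (fun i x => |x i| ≤ 2 * ε)
    (fun i => measurableSet_le (by fun_prop) measurable_const)
    (f := fun _ => (Fintype.card κ : ℝ) / 2) continuous_const fun x hx => by
      have h2 : ∑ i, x i ^ 2 ≤ ε ^ 2 * Fintype.card κ := by
        have := (Real.sqrt_le_left (by positivity)).1 hx.2
        rwa [mul_pow, Real.sq_sqrt hn.le] at this
      refine le_trans ?_ (Finset.sum_le_sum (f := fun i => 1 - x i ^ 2 / (2 * ε) ^ 2) fun i _ => ?_)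
      · rw [Finset.sum_sub_distrib, ← Finset.sum_div, Finset.sum_const, Finset.card_univ,
          nsmul_one]
        have : (∑ i, x i ^ 2) / (2 * ε) ^ 2 ≤ Fintype.card κ / 2 := by
          rw [div_le_iff₀ (by positivity)]
          nlinarith [mul_pos (pow_pos hε 2) hn]
        linarith
      · simp only [Set.indicator_apply, Set.mem_ofPred_eq, Pi.one_apply, one_mul]
        split_ifs with h3
        · exact sub_le_self _ (by positivity)
        · rw [sub_nonpos, one_le_div (by positivity), ← sq_abs (x i)]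
          exact pow_le_pow_left₀ (by positivity) (not_le.1 h3).le 2
  have h2 := h1.trans (Finset.sum_le_card_nsmul _ _ (C * (2 * ε) * volume.real K) fun i _ => by
    rw [one_mul]
    refine le_trans ?_ (H κ K h i (by simpa using hI i i) _ (by positivity))
    exact measureReal_mono (fun x hx => ⟨hx.1.1, hx.2⟩) (measure_ne_top_of_subset
      (Set.sep_subset _ _) h.1.measure_lt_top.ne))
  rw [setIntegral_const, Finset.card_univ, nsmul_eq_mul, smul_eq_mul] at h2
  refine le_of_mul_le_mul_left ?_ hn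
  linarith

lemma large_norm [Nonempty κ] (h : Body K) (hI : Iso K) {t : ℝ} (ht : 0 < t) :
    volume.real {x ∈ K | t * √(Fintype.card κ) ≤ nrm x} ≤ volume.real K / t ^ 2 := by
  have hn : (0 : ℝ) < Fintype.card κ := Nat.cast_pos.2 Fintype.card_pos
  refine (sb_markov h.1 (f := fun x => ∑ i, x i * x i) (by fun_prop)
    (fun x => Finset.sum_nonneg fun i _ => mul_self_nonneg _)
    (t := t ^ 2 * Fintype.card κ) (by positivity) fun x hx => ⟨hx.1, ?_⟩).trans_eq ?_
  · have := (Real.le_sqrt' (by positivity)).1 hx.2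
    simpa only [mul_pow, Real.sq_sqrt hn.le, ← sq] using this
  · rw [integral_finsetSum _ fun i _ => sb_int h.1 (by fun_prop)]
    simp only [hI _ _, if_true, Finset.sum_const, Finset.card_univ, nsmul_eq_mul]
    field_simp

/-- `∫_K ⟨x, y⟩² dx = |y|² vol K`, Chebyshev. -/
lemma inner_tail (h : Body K) (hI : Iso K) (y : κ → ℝ) {t : ℝ} (ht : 0 < t) :
    volume.real {x ∈ K | t ≤ |x ⬝ᵥ y|} ≤ nrm y ^ 2 / t ^ 2 * volume.real K := by
  refine (sb_markov h.1 (f := fun x => (x ⬝ᵥ y) * (x ⬝ᵥ y)) (by fun_prop)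
    (fun x => mul_self_nonneg _) (t := t ^ 2) (by positivity) fun x hx => ⟨hx.1, ?_⟩).trans_eq ?_
  · rw [← sq, ← sq_abs (x ⬝ᵥ y)]
    exact pow_le_pow_left₀ ht.le hx.2 2
  · rw [sb_quad h.1, nrm, Real.sq_sqrt (by positivity), div_mul_eq_mul_div, Finset.sum_mul]
    congr 1
    refine Finset.sum_congr rfl fun i _ => ?_
    simp only [Matrix.mulVec, dotProduct, Matrix.of_apply, hI _ _, ite_mul, zero_mul,
      Finset.sum_ite_eq, Finset.mem_univ, if_true]
    ring

end Crest.Agent.R225
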