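import Crest.Agent.R225.OSc
import Crest.Agent.R225.BlkNum

/-! Task `R225 Step`: numerics of the iteration `a ↦ a^{7/5}`. -/

set_option autoImplicit false

namespace Crest.Agent.R225
open Filter

lemma step_ev_pow (C : ℝ) {p q : ℝ} (h : p < q) : ∀ᶠ a : ℝ in atTop, C * a ^ p ≤ a ^ q := by
  filter_upwards [(tendsto_rpow_atTop (sub_pos.2 h)).eventually_ge_atTop C,
    eventually_gt_atTop 0] with a h1 h2
  calc C * a ^ p ≤ a ^ (q - p) * a ^ p := mul_le_mul_of_nonneg_right h1 (by positivity)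
    _ = _ := by rw [← Real.rpow_add h2, sub_add_cancel]

lemma step_ev_exp (C p : ℝ) {c q : ℝ} (hc : 0 < c) (hq : 0 < q) :
    ∀ᶠ a : ℝ in atTop, C * a ^ p ≤ Real.exp (c * a ^ q) := by
  have h := ((tendsto_rpow_mul_exp_neg_mul_atTop_nhds_zero (p / q) c hc).comp
    (tendsto_rpow_atTop hq)).const_mul C
  rw [mul_zero] at h
  filter_upwards [h.eventually (eventually_le_nhds one_pos), eventually_gt_atTop 0] with a h1 h2
  rwa [Function.comp_apply, ← Real.rpow_mul h2.le, mul_div_cancel₀ _ hq.ne', neg_mul, Real.exp_neg,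
    ← mul_assoc, mul_inv_le_iff₀ (Real.exp_pos _), one_mul] at h1

/-- Pure numerics. `b = a^{7/5}`, `a₂ = b^{7/5}`, `j` with `a₂² ≤ 2^j ≤ 2 a₂²` (so
`j ≤ 7 log a`), `η = tiny = e^{-b/20}`, `ε = e^{-b/16}`, `N = (w + 1) e^a`, `w = |Ω|`.
`b^{-1/100} ≤ a^{-1/100} / 2`; every loss is `≤ a^{-1/100} / 10`:
`(D+1)^j ≤ e^{a/5}`; `w N^j ε ≤ e^{-1}` since `(j+1)(a^{1.39} + 1) + j a + 1 ≤ a^{1.4} / 16`. -/
lemma step_num : ∃ a₁ : ℝ, 1 ≤ a₁ ∧ ∀ a : ℝ, a₁ ≤ a → ∀ b a₂ : ℝ, b = a ^ (7 / 5 : ℝ) →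
    a₂ = b ^ (7 / 5 : ℝ) → ∀ (D w : ℕ), (D : ℝ) ≤ a ^ (138 / 100 : ℝ) →
    (w : ℝ) ≤ Real.exp (a ^ (139 / 100 : ℝ)) → ∃ (j : ℕ) (η ε N : ℝ), 0 < η ∧ 0 < ε ∧
      (w : ℝ) ≤ N ∧ 1 ≤ N ∧ 0 ≤ 1 - a₂ ^ (-1 / 25 : ℝ) - η ∧
      1 / 2 + b ^ (-1 / 100 : ℝ) ≤ (1 - a₂ ^ (-1 / 25 : ℝ) - η) * (1 / 2 + a ^ (-1 / 100 : ℝ)) -
        (D + 1) ^ j * Real.exp (-a) * Real.exp (3 * a / 5) - η * Real.exp a ∧
      1 / 2 - a ^ (-1 / 100 : ℝ) + Real.exp (-b / 10) / η +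
        Real.exp (-(b - a)) * Real.exp (3 * b / 5) * Real.exp (3 * a / 5) / (η ^ 2 * ε) +
        2 * j * w / N ≤ 1 / 2 - b ^ (-1 / 100 : ℝ) ∧
      1 / 2 - a ^ (-1 / 100 : ℝ) + (w * N ^ j * ε) ^ 2 ^ j *
        (Real.exp (b ^ (138 / 100 : ℝ)) * Real.exp (a₂ ^ (138 / 100 : ℝ))) ≤
          1 / 2 - b ^ (-1 / 100 : ℝ) := by
  obtain ⟨a₁, h⟩ := eventually_atTop.1 ((eventually_ge_atTop (1 : ℝ)).and
    ((step_ev_pow 2 (p := -7 / 500) (q := -1 / 100) (by norm_num)).and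
    ((step_ev_pow 10 (p := -49 / 625) (q := -1 / 100) (by norm_num)).and
    ((step_ev_exp 20 (1 / 100) (c := 1 / 5) (by norm_num) one_pos).and
    ((step_ev_pow 24 (p := 1) (q := 7 / 5) (by norm_num)).and
    ((step_ev_exp 1 (98 / 25) (Real.log_pos one_lt_two) (q := 1 / 200) (by norm_num)).and
    ((step_ev_exp 2 (138 / 100) one_pos (q := 1 / 2) (by norm_num)).and
    ((step_ev_pow 10 (p := 1 / 200 + 1 / 2) (q := 1) (by norm_num)).and
    ((step_ev_pow 128 (p := 1 / 200 + 139 / 100) (q := 7 / 5) (by norm_num)).and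
    ((step_ev_pow 3 (p := 3381 / 1250) (q := 98 / 25) (by norm_num)).and
    (step_ev_exp 4 (1 / 200) (c := 4 / 5) (by norm_num) one_pos)))))))))))
  refine ⟨max a₁ 1, le_max_right _ _, fun a ha b a₂ hb ha₂ D w hD hw => ?_⟩
  obtain ⟨h1, p1, p2, p3, p4, p5, p6, p7, p8, p9, p10⟩ := h a ((le_max_left _ _).trans ha)
  clear h
  have h0 : 0 < a := by linarith
  have eb : ∀ r s : ℝ, 7 / 5 * r = s → b ^ r = a ^ s := fun r s e => by
    rw [hb, ← Real.rpow_mul h0.le, e]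
  have ea : ∀ r s : ℝ, 49 / 25 * r = s → a₂ ^ r = a ^ s := fun r s e => by
    rw [ha₂, eb (7 / 5) (49 / 25) (by norm_num), ← Real.rpow_mul h0.le, e]
  have hm : ∀ r s : ℝ, r ≤ s → a ^ r ≤ a ^ s := fun r s e =>
    Real.rpow_le_rpow_of_exponent_le h1 e
  have h1r : ∀ r : ℝ, 0 ≤ r → 1 ≤ a ^ r := fun r e => Real.one_le_rpow h1 e
  have har : ∀ r : ℝ, 1 ≤ r → a ≤ a ^ r := fun r e => Real.self_le_rpow_of_one_le h1 e
  rw [eb _ (-7 / 500) (by norm_num), ea _ (-49 / 625) (by norm_num),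
    eb _ (483 / 250) (by norm_num), ea _ (3381 / 1250) (by norm_num)]
  rw [Real.rpow_one] at p3 p4 p7 p10
  rw [Real.rpow_add h0] at p7 p8
  rw [← hb] at p4 p8
  rw [one_mul] at p5 p6
  have hx1 : a ^ (-1 / 100 : ℝ) ≤ 1 := Real.rpow_le_one_of_one_le_of_nonpos h1 (by norm_num)
  have hu : Real.exp (-(a / 5)) ≤ a ^ (-1 / 100 : ℝ) / 20 := by
    rw [Real.exp_neg, neg_div, Real.rpow_neg h0.le, div_eq_mul_inv _ (20 : ℝ), ← mul_inv]
    refine inv_anti₀ (by positivity) ?_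
    rw [mul_comm, show a / 5 = 1 / 5 * a by ring]
    exact p3
  have he0 : 0 < a ^ (-49 / 625 : ℝ) := Real.rpow_pos_of_pos h0 _
  generalize a ^ (-1 / 100 : ℝ) = x at *
  generalize a ^ (-49 / 625 : ℝ) = e at *
  generalize a ^ (-7 / 500 : ℝ) = x' at *
  have hy1 := h1r (1 / 200) (by norm_num)
  have hz1 := h1r (139 / 100) (by norm_num)
  have hz2 := har (139 / 100) (by norm_num)
  set j : ℕ := ⌈a ^ (1 / 200 : ℝ)⌉₊ with hj
  have hj1 : a ^ (1 / 200 : ℝ) ≤ j := Nat.le_ceil _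
  have hj2 : (j : ℝ) ≤ 2 * a ^ (1 / 200 : ℝ) := by
    linarith [Nat.ceil_lt_add_one (zero_le_one.trans hy1)]
  have hw0 : (0 : ℝ) ≤ w := Nat.cast_nonneg w
  have hea : 1 ≤ Real.exp a := Real.one_le_exp h0.le
  have l1 : Real.exp (-b / 20) ≤ Real.exp (-(a / 5)) := Real.exp_le_exp.2 (by linarith)
  have l2 : Real.exp (-b / 20) * Real.exp a ≤ Real.exp (-(a / 5)) := by
    rw [← Real.exp_add]
    exact Real.exp_le_exp.2 (by linarith)
  have l3 : ((D : ℝ) + 1) ^ j * Real.exp (-a) * Real.exp (3 * a / 5) ≤ Real.exp (-(a / 5)) := by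
    have q1 : (D : ℝ) + 1 ≤ Real.exp (a ^ (1 / 2 : ℝ)) := by
      linarith [h1r (138 / 100) (by norm_num)]
    have q2 : (j : ℝ) * a ^ (1 / 2 : ℝ) ≤ 2 * a ^ (1 / 200 : ℝ) * a ^ (1 / 2 : ℝ) :=
      mul_le_mul_of_nonneg_right hj2 (by positivity)
    calc _ ≤ Real.exp (a ^ (1 / 2 : ℝ)) ^ j * Real.exp (-a) * Real.exp (3 * a / 5) := by gcongr
      _ ≤ _ := by
        rw [← Real.exp_nat_mul, ← Real.exp_add, ← Real.exp_add]
        exact Real.exp_le_exp.2 (by linarith)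
  have l4 : Real.exp (-b / 10) / Real.exp (-b / 20) ≤ Real.exp (-(a / 5)) := by
    rw [← Real.exp_sub]
    exact Real.exp_le_exp.2 (by linarith)
  have l5 : Real.exp (-(b - a)) * Real.exp (3 * b / 5) * Real.exp (3 * a / 5) /
      (Real.exp (-b / 20) ^ 2 * Real.exp (-b / 16)) ≤ Real.exp (-(a / 5)) := by
    rw [← Real.exp_nat_mul, ← Real.exp_add, ← Real.exp_add, ← Real.exp_add, ← Real.exp_sub]
    refine Real.exp_le_exp.2 ?_
    push_cast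
    linarith
  have l6 : 2 * (j : ℝ) * w / ((w + 1) * Real.exp a) ≤ Real.exp (-(a / 5)) := by
    rw [div_le_iff₀ (by positivity), mul_left_comm, ← Real.exp_add, mul_comm,
      show -(a / 5) + a = 4 / 5 * a by ring]
    exact mul_le_mul (by linarith) (by linarith) (by positivity) (by positivity)
  have l7 : (w * ((w + 1) * Real.exp a) ^ j * Real.exp (-b / 16)) ^ 2 ^ j *
      (Real.exp (a ^ (483 / 250 : ℝ)) * Real.exp (a ^ (3381 / 1250 : ℝ))) ≤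
      Real.exp (-(a / 5)) := by
    have q1 : (w + 1 : ℝ) ≤ Real.exp (a ^ (139 / 100 : ℝ)) * Real.exp 1 := by
      have r1 := Real.one_le_exp (zero_le_one.trans hz1)
      have r2 := mul_le_mul_of_nonneg_left (Real.add_one_le_exp 1) (zero_le_one.trans r1)
      linarith only [r1, r2, hw]
    have q2 : (j : ℝ) * (a ^ (139 / 100 : ℝ) + 1 + a) ≤
        2 * a ^ (1 / 200 : ℝ) * (3 * a ^ (139 / 100 : ℝ)) :=
      mul_le_mul hj2 (by linarith) (by positivity) (by positivity)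
    have q3 : a ^ (139 / 100 : ℝ) ≤ a ^ (1 / 200 : ℝ) * a ^ (139 / 100 : ℝ) :=
      le_mul_of_one_le_left (by positivity) hy1
    have q4 : w * ((w + 1) * Real.exp a) ^ j * Real.exp (-b / 16) ≤ Real.exp (-1) := by
      calc _ ≤ Real.exp (a ^ (139 / 100 : ℝ)) *
            (Real.exp (a ^ (139 / 100 : ℝ)) * Real.exp 1 * Real.exp a) ^ j *
            Real.exp (-b / 16) := by gcongr
        _ ≤ _ := by
          rw [← Real.exp_add, ← Real.exp_add, ← Real.exp_nat_mul, ← Real.exp_add, ← Real.exp_add]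
          exact Real.exp_le_exp.2 (by linarith)
    have q5 : a ^ (98 / 25 : ℝ) ≤ ((2 ^ j : ℕ) : ℝ) := by
      refine p5.trans ?_
      rw [← Real.rpow_def_of_pos two_pos]
      push_cast
      rw [← Real.rpow_natCast]
      exact Real.rpow_le_rpow_of_exponent_le one_le_two hj1
    calc _ ≤ Real.exp (-1) ^ 2 ^ j *
          (Real.exp (a ^ (483 / 250 : ℝ)) * Real.exp (a ^ (3381 / 1250 : ℝ))) := by gcongr
      _ ≤ _ := by
        rw [← Real.exp_nat_mul, ← Real.exp_add, ← Real.exp_add]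
        refine Real.exp_le_exp.2 ?_
        linarith [hm (483 / 250) (3381 / 1250) (by norm_num), har (3381 / 1250) (by norm_num)]
  have hη := Real.exp_pos (-b / 20)
  refine ⟨j, Real.exp (-b / 20), Real.exp (-b / 16), (w + 1) * Real.exp a, hη, Real.exp_pos _,
    (le_add_of_nonneg_right zero_le_one).trans (le_mul_of_one_le_right (by positivity) hea),
    one_le_mul_of_one_le_of_one_le (le_add_of_nonneg_left hw0) hea, by linarith, ?_, by linarith,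
    by linarith [Real.exp_pos (-(a / 5))]⟩
  have q1 : (e + Real.exp (-b / 20)) * (1 / 2 + x) ≤ (e + Real.exp (-b / 20)) * (3 / 2) :=
    mul_le_mul_of_nonneg_left (by linarith) (by positivity)
  linarith

/-- Sizes after an extension. -/
lemma ext_num : ∃ a₁ : ℝ, 1 ≤ a₁ ∧ ∀ a : ℝ, a₁ ≤ a → ∀ b : ℝ, b = a ^ (7 / 5 : ℝ) →
    a ≤ b ∧ Real.exp a * Real.exp (3 * a / 5) ≤ Real.exp b ∧
    a ^ (138 / 100 : ℝ) + (b ^ (137 / 100 : ℝ) + 1) + 1 ≤ b ^ (138 / 100 : ℝ) ∧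
    ∀ k : ℕ, (k : ℝ) ≤ b ^ (137 / 100 : ℝ) + 1 →
      Real.exp (a ^ (139 / 100 : ℝ)) * Real.exp (b ^ (138 / 100 : ℝ)) * 4 ^ k ≤
        Real.exp (b ^ (139 / 100 : ℝ)) := by
  have ht : Tendsto (fun a : ℝ => a ^ (7 / 5 : ℝ)) atTop atTop := tendsto_rpow_atTop (by norm_num)
  obtain ⟨a₁, h⟩ := eventually_atTop.1 ((eventually_ge_atTop (1 : ℝ)).and
    ((step_ev_pow 2 (p := 1) (q := 7 / 5) (by norm_num)).and
    ((ht.eventually (step_ev_pow 4 (p := 137 / 100) (q := 138 / 100) (by norm_num))).and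
    (ht.eventually (step_ev_pow 6 (p := 138 / 100) (q := 139 / 100) (by norm_num))))))
  refine ⟨max a₁ 1, le_max_right _ _, fun a ha b hb => ?_⟩
  obtain ⟨h1, p1, p2, p3⟩ := h a ((le_max_left _ _).trans ha)
  have q1 : a ^ (138 / 100 : ℝ) ≤ b := hb ▸ Real.rpow_le_rpow_of_exponent_le h1 (by norm_num)
  have q2 : a ^ (139 / 100 : ℝ) ≤ b := hb ▸ Real.rpow_le_rpow_of_exponent_le h1 (by norm_num)
  rw [← hb] at p1 p2 p3
  rw [Real.rpow_one] at p1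
  have hb1 : 1 ≤ b := by linarith
  have q3 : b ≤ b ^ (137 / 100 : ℝ) := Real.self_le_rpow_of_one_le hb1 (by norm_num)
  refine ⟨by linarith, ?_, by linarith, fun k hk => ?_⟩
  · rw [← Real.exp_add]
    exact Real.exp_le_exp.2 (by linarith)
  · have q4 : (4 : ℝ) ≤ Real.exp 3 := by linarith [Real.add_one_le_exp 3]
    calc _ ≤ Real.exp (a ^ (139 / 100 : ℝ)) * Real.exp (b ^ (138 / 100 : ℝ)) * Real.exp 3 ^ k := by
          gcongr
      _ ≤ _ := by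
        rw [← Real.exp_nat_mul, ← Real.exp_add, ← Real.exp_add]
        exact Real.exp_le_exp.2 (by linarith)

/-- `one_step` with `B₂` from `exists_blk` at `b`, `Geo.ext`, `Geo.mono`, `Nxt.mono`. -/
theorem lev_step : ∃ a₁ : ℝ, 1 ≤ a₁ ∧ ∀ c a : ℝ, a₁ ≤ a → Lev c a → Lev c (a ^ (7 / 5 : ℝ)) := by
  obtain ⟨a₁, h1, hs⟩ := step_num
  obtain ⟨a₂, -, he⟩ := ext_num
  obtain ⟨a₃, hb⟩ := exists_blk
  refine ⟨max a₁ (max a₂ a₃), le_max_of_le_left h1, fun c a ha hL => ?_⟩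
  obtain ⟨S, c₀, D, B, hc, hG, hι, hD, hΩ, ⟨hB, hk, hN, hp⟩, hn⟩ := hL
  obtain ⟨ha1, ha2, ha3⟩ : a₁ ≤ a ∧ a₂ ≤ a ∧ a₃ ≤ a := by simpa only [max_le_iff] using ha
  obtain ⟨e1, e2, e3, e4⟩ := he a ha2 _ rfl
  obtain ⟨B₂, hc₂, hB₂⟩ := hb _ (ha3.trans e1)
  obtain ⟨j, η, ε, N, hη, hε, n1, n2, n3, n4, n5, n6⟩ := hs a ha1 _ _ rfl rfl D S.Ω.card hD hΩ
  have ha0 : 0 ≤ a := by linarith
  obtain ⟨T, g, h⟩ := one_step S hG hB hB₂.1 j hn hη n3 (by positivity) hη hε n1 n2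
  refine ⟨S.ext B T g, c₀ * B.cst, D + B.k, B₂, by rw [hc₂, mul_one, hc],
    (St.Geo.ext S B T g hG hB).mono le_rfl ?_ e2 (max_le e1 le_rfl), ?_, ?_, ?_, hB₂,
    h.mono n4 n5 (le_trans ?_ n6)⟩
  · rw [← Real.exp_add]
    exact Real.exp_le_exp.2 (by linarith)
  · rw [St.card_ext]
    push_cast
    linarith
  · push_cast
    linarith
  · have h2 : ((S.ext B T g).Ω.card : ℝ) ≤ S.Ω.card * (4 * B.N + 1) * 4 ^ B.k := by
      exact_mod_cast S.card_extΩ B T g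
    refine h2.trans (le_trans ?_ (e4 _ hk))
    gcongr
  · have h2 := hB₂.2.2.2
    have h3 : 0 ≤ N := by linarith
    gcongr

end Crest.Agent.R225
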