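import Crest.Agent.R225.Proj

/-! Task `R225 Thin`: a weak thin shell estimate (Klartag's argument). -/

set_option autoImplicit false
open MeasureTheory ProbabilityTheory

namespace Crest.Agent.R225

lemma Thin_nrm_cont {κ : Type} [Fintype κ] : Continuous (nrm : (κ → ℝ) → ℝ) := by
  unfold nrm
  fun_prop

lemma Thin_gq_const (k : ℕ) (lo hi r : ℝ) :
    gq (fun _ : Fin k => lo) (fun _ => hi) r = gI lo hi r ^ k := by
  unfold gq
  rw [Finset.prod_const, Finset.card_univ, Fintype.card_fin]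

lemma Thin_int {κ : Type} [Fintype κ] {K : Set (κ → ℝ)} (hK : IsCompact K) (k : ℕ) (lo hi : ℝ) :
    IntegrableOn (fun x => gq (fun _ : Fin k => lo) (fun _ => hi) (nrm x)) K := by
  simp only [Thin_gq_const]
  refine Measure.integrableOn_of_bounded (M := 1) hK.measure_lt_top.ne
    (((measurable_gI lo hi).comp Thin_nrm_cont.measurable).pow_const k).aestronglyMeasurable
    (Filter.Eventually.of_forall fun x => ?_)
  rw [Real.norm_of_nonneg (pow_nonneg (gI_nonneg _ _ _) _)]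
  exact pow_le_one₀ (gI_nonneg _ _ _) (gI_le_one _ _ _)

lemma Thin_pt {k : ℕ} (hk : 1 ≤ k) {a δ r : ℝ} (ha : 0 < a) (hδ : 0 < δ) (hδa : δ ≤ a / k)
    (h1 : a ≤ r) (h2 : r ≤ a * (1 + 1 / k)) :
    Real.exp (-3) * (δ * g1 1 / a) ^ k ≤ gI a (a + δ) r ^ k := by
  have hk1 : (1 : ℝ) ≤ k := by exact_mod_cast hk
  have hk0 : (0 : ℝ) < k := by linarith
  obtain ⟨u, hu⟩ : ∃ u : ℝ, u = 1 / k := ⟨_, rfl⟩
  have hu0 : 0 < u := hu ▸ one_div_pos.2 hk0
  have hu1 : u ≤ 1 := hu ▸ (div_le_one hk0).2 hk1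
  rw [← hu] at h2
  rw [div_eq_mul_one_div, ← hu] at hδa
  have hr : 0 < r := ha.trans_le h1
  have h3 := gI_lower (lo := a) (b := a * (1 + u)) hδ.le hr
    (by rw [abs_of_pos ha]; nlinarith) (by rw [abs_of_pos (by linarith)]; linarith)
  have h4 : g1 (1 + u) ≤ g1 (a * (1 + u) / r) := by
    refine g1_anti ?_
    rw [abs_of_pos (by positivity), abs_of_pos (by positivity), div_le_iff₀ hr]
    nlinarith
  have h5 : Real.exp (-(2 * u)) * g1 1 ≤ g1 (1 + u) := by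
    unfold g1
    rw [← mul_div_assoc, ← Real.exp_add]
    refine div_le_div_of_nonneg_right (Real.exp_le_exp.2 ?_) (Real.sqrt_nonneg _)
    nlinarith
  have h6 : Real.exp (-u) * (δ / a) ≤ δ / r := by
    have h7 : r ≤ a * Real.exp u :=
      h2.trans (mul_le_mul_of_nonneg_left (by linarith [Real.add_one_le_exp u]) ha.le)
    refine le_trans (le_of_eq ?_) (div_le_div_of_nonneg_left hδ.le hr h7)
    rw [Real.exp_neg]
    field_simp
  have h8 : Real.exp (-(3 * u)) * (δ * g1 1 / a) ≤ gI a (a + δ) r := by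
    refine le_trans (le_of_eq ?_) ((mul_le_mul h6 (h5.trans h4)
      (mul_nonneg (Real.exp_pos _).le (g1_pos _).le) (by positivity)).trans h3)
    rw [show -(3 * u) = -u + -(2 * u) by ring, Real.exp_add]
    ring
  have h9 := g1_pos 1
  refine le_trans (le_of_eq ?_) (pow_le_pow_left₀ (by positivity) h8 k)
  rw [mul_pow, ← Real.exp_nat_mul, hu]
  congr 2
  field_simp

lemma Thin_lower {κ : Type} [Fintype κ] {K : Set (κ → ℝ)} (hK : IsCompact K) {k : ℕ} (hk : 1 ≤ k)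
    {a δ : ℝ} (ha : 0 < a) (hδ : 0 < δ) (hδa : δ ≤ a / k) :
    Real.exp (-3) * (δ * g1 1 / a) ^ k *
        volume.real {x ∈ K | a ≤ nrm x ∧ nrm x ≤ a * (1 + 1 / k)} ≤
      ∫ x in K, gq (fun _ : Fin k => a) (fun _ => a + δ) (nrm x) := by
  have hW : MeasurableSet {x ∈ K | a ≤ nrm x ∧ nrm x ≤ a * (1 + 1 / k)} :=
    hK.measurableSet.inter (Thin_nrm_cont.measurable measurableSet_Icc)
  have hsub : {x ∈ K | a ≤ nrm x ∧ nrm x ≤ a * (1 + 1 / k)} ⊆ K := fun _ hx => hx.1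
  have hi := Thin_int hK k a (a + δ)
  refine le_trans ?_ (setIntegral_mono_set hi (Filter.Eventually.of_forall fun x => ?_)
    hsub.eventuallyLE)
  · refine setIntegral_ge_of_const_le_real hW
      (measure_ne_top_of_subset hsub hK.measure_lt_top.ne) (fun x hx => ?_) (hi.mono_set hsub)
    rw [Thin_gq_const]
    exact Thin_pt hk ha hδ hδa hx.2.1 hx.2.2
  · change 0 ≤ gq _ _ _
    rw [Thin_gq_const]
    exact pow_nonneg (gI_nonneg _ _ _) _

lemma Thin_upper {κ : Type} [Fintype κ] {K : Set (κ → ℝ)} (hK : IsCompact K) (k : ℕ)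
    {c δ : ℝ} (hc : 0 < c) (hδ : 0 < δ) :
    ∫ x in K, gq (fun _ : Fin k => c) (fun _ => c + δ) (nrm x) ≤
      (δ * g1 1 / c) ^ k * volume.real K := by
  refine (setIntegral_mono_on (Thin_int hK k c (c + δ))
    (integrableOn_const (C := (δ * g1 1 / c) ^ k) hK.measure_lt_top.ne) hK.measurableSet
    fun x _ => ?_).trans_eq ?_
  · rw [Thin_gq_const]
    refine pow_le_pow_left₀ (gI_nonneg _ _ _)
      ((gI_upper hc hδ.le (Real.sqrt_nonneg _)).trans_eq ?_) k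
    ring
  · rw [setIntegral_const, smul_eq_mul, mul_comm]

lemma Thin_mid {κ : Type} [Fintype κ] {K : Set (κ → ℝ)} (hK : Body K) {k : ℕ}
    (Γ : Matrix (Fin k) κ ℝ) (a b δ : ℝ) :
    volume.real {x ∈ K | Γ.mulVec x ∈ Set.Icc (fun _ => a) (fun _ => a + δ)} *
        volume.real {x ∈ K | Γ.mulVec x ∈ Set.Icc (fun _ => b) (fun _ => b + δ)} ≤
      volume.real {x ∈ K | Γ.mulVec x ∈
        Set.Icc (fun _ => (a + b) / 2) (fun _ => (a + b) / 2 + δ)} ^ 2 := by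
  have hc : Continuous fun x : κ → ℝ => Γ.mulVec x :=
    Continuous.matrix_mulVec continuous_const continuous_id
  have hm : ∀ t : ℝ, MeasurableSet
      {x ∈ K | Γ.mulVec x ∈ Set.Icc (fun _ => t) (fun _ => t + δ)} := fun t =>
    hK.1.measurableSet.inter (hc.measurable measurableSet_Icc)
  refine bm_mid (hm _) (hm _) (hm _)
    (measure_ne_top_of_subset (fun _ hx => hx.1) hK.1.measure_lt_top.ne) fun x hx y hy => ?_
  have e : (fun i => (x i + y i) / 2) = (1 / 2 : ℝ) • x + (1 / 2 : ℝ) • y := by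
    ext i
    simp only [Pi.add_apply, Pi.smul_apply, smul_eq_mul]
    ring
  rw [e]
  refine ⟨hK.2.1 hx.1 hy.1 (by norm_num) (by norm_num) (by norm_num), fun i => ?_, fun i => ?_⟩
  · have h1 := hx.2.1 i
    have h2 := hy.2.1 i
    simp only [Matrix.mulVec_add, Matrix.mulVec_smul, Pi.add_apply, Pi.smul_apply, smul_eq_mul]
    linarith
  · have h1 := hx.2.2 i
    have h2 := hy.2.2 i
    simp only [Matrix.mulVec_add, Matrix.mulVec_smul, Pi.add_apply, Pi.smul_apply, smul_eq_mul]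
    linarith

/-- Two windows. Cubes `Q(a) = [a, a + δ]^k` in `Fin k → ℝ`; `F` = relative volume of
`{x ∈ K | Γ x ∈ Q}`, `G = ∫ gq / vol`. `bm_mid` gives `F(a) F(b) ≤ F((a+b)/2)²`. If
`δ ≤ a / k`: for `nrm x ∈ [a, a(1 + 1/k)]`, `gI_lower` gives
`gq ≥ e^{-3} (δ g1 1 / a)^k`, and `gI_upper` gives `G(c) ≤ (δ g1 1 / c)^k`. Here `ζ` is the
error in units of `u₀ ≤ (δ g1 1 / t)^k`, `t ∈ {a, b, (a+b)/2}`. -/
theorem two_windows {κ : Type} [Fintype κ] {K : Set (κ → ℝ)} (hK : Body K) {k : ℕ} (hk : 1 ≤ k)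
    (Γ : Matrix (Fin k) κ ℝ) {a b δ A ζ : ℝ} (ha : 0 < a) (hb : 0 < b) (hδ : 0 < δ)
    (haA : a ≤ A) (hbA : b ≤ A) (hδa : δ ≤ a / k) (hδb : δ ≤ b / k) (hζ : 0 ≤ ζ) (hζ1 : ζ ≤ 1)
    (herr : ∀ t ∈ ({a, b, (a + b) / 2} : Set ℝ),
      |volume.real {x ∈ K | Γ.mulVec x ∈ Set.Icc (fun _ => t) (fun _ => t + δ)} -
        ∫ x in K, gq (fun _ : Fin k => t) (fun _ => t + δ) (nrm x)| ≤
          ζ * (δ * g1 1 / A) ^ k * volume.real K)
    {νa νb : ℝ} (hνa : νa * volume.real K ≤ volume.real {x ∈ K | a ≤ nrm x ∧ nrm x ≤ a * (1 + 1 / k)})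
    (hνb : νb * volume.real K ≤ volume.real {x ∈ K | b ≤ nrm x ∧ nrm x ≤ b * (1 + 1 / k)})
    (hpos : ζ ≤ Real.exp (-3) * νa) :
    (Real.exp (-3) * νa - ζ) * (Real.exp (-3) * νb - ζ) ≤ 4 * (4 * a * b / (a + b) ^ 2) ^ k := by
  classical
  have hV := hK.vol_pos
  have hg := g1_pos 1
  have hA : 0 < A := ha.trans_le haA
  have hE := Real.exp_pos (-3)
  have hu : ∀ t, 0 < t → t ≤ A → ζ * (δ * g1 1 / A) ^ k * volume.real K ≤
      ζ * (δ * g1 1 / t) ^ k * volume.real K := fun t ht htA => by gcongr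
  have hlow : ∀ t ν : ℝ, 0 < t → t ≤ A → δ ≤ t / k → t ∈ ({a, b, (a + b) / 2} : Set ℝ) →
      ν * volume.real K ≤ volume.real {x ∈ K | t ≤ nrm x ∧ nrm x ≤ t * (1 + 1 / k)} →
      (Real.exp (-3) * ν - ζ) * ((δ * g1 1 / t) ^ k * volume.real K) ≤
        volume.real {x ∈ K | Γ.mulVec x ∈ Set.Icc (fun _ => t) (fun _ => t + δ)} := by
    intro t ν ht htA hδt hm hν
    have h1 := (abs_le.1 (herr t hm)).1
    have h2 := Thin_lower hK.1 hk ht hδ hδt
    have h3 := mul_le_mul_of_nonneg_left hν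
      (show 0 ≤ Real.exp (-3) * (δ * g1 1 / t) ^ k by positivity)
    have h4 := hu t ht htA
    linarith
  have h1 := hlow a νa ha haA hδa (by simp) hνa
  have h2 := hlow b νb hb hbA hδb (by simp) hνb
  have hc : 0 < (a + b) / 2 := by positivity
  have h3 : volume.real {x ∈ K | Γ.mulVec x ∈
      Set.Icc (fun _ => (a + b) / 2) (fun _ => (a + b) / 2 + δ)} ≤
      2 * ((δ * g1 1 / ((a + b) / 2)) ^ k * volume.real K) := by
    have h4 := (abs_le.1 (herr ((a + b) / 2) (by simp))).2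
    have h5 := Thin_upper hK.1 k hc hδ
    have h6 := hu _ hc (by linarith)
    have h7 := mul_le_mul_of_nonneg_right hζ1
      (show 0 ≤ (δ * g1 1 / ((a + b) / 2)) ^ k * volume.real K by positivity)
    linarith
  rcases le_or_gt (Real.exp (-3) * νb - ζ) 0 with hneg | hb0
  · exact (mul_nonpos_of_nonneg_of_nonpos (sub_nonneg.2 hpos) hneg).trans (by positivity)
  have h4 := ((mul_le_mul h1 h2 (by positivity) measureReal_nonneg).trans
    (Thin_mid hK Γ a b δ)).trans (pow_le_pow_left₀ measureReal_nonneg h3 2)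
  have e : (δ * g1 1 / ((a + b) / 2)) ^ k * (δ * g1 1 / ((a + b) / 2)) ^ k =
      (4 * a * b / (a + b) ^ 2) ^ k * ((δ * g1 1 / a) ^ k * (δ * g1 1 / b) ^ k) := by
    rw [← mul_pow, ← mul_pow, ← mul_pow]
    congr 1
    field_simp
    ring
  refine le_of_mul_le_mul_right ?_
    (show 0 < (δ * g1 1 / a) ^ k * (δ * g1 1 / b) ^ k * volume.real K ^ 2 by positivity)
  calc _ = (Real.exp (-3) * νa - ζ) * ((δ * g1 1 / a) ^ k * volume.real K) *
        ((Real.exp (-3) * νb - ζ) * ((δ * g1 1 / b) ^ k * volume.real K)) := by ring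
    _ ≤ _ := h4
    _ = 4 * ((δ * g1 1 / ((a + b) / 2)) ^ k * (δ * g1 1 / ((a + b) / 2)) ^ k) *
        volume.real K ^ 2 := by ring
    _ = _ := by
      rw [e]
      ring

lemma Thin_cover {α : Type} [MeasurableSpace α] {μ : Measure α} {K S L T : Set α}
    {W : ℕ → Set α} {I : ℕ} {m : ℝ} (hK : μ K ≠ ⊤) (hS : S ⊆ K) (hL : L ⊆ K) (hT : T ⊆ K)
    (hW : ∀ i, W i ⊆ K) (hm : 0 ≤ m) (hc : ∀ x ∈ K, x ∈ S ∨ x ∈ L ∨ ∃ i < I, x ∈ W i)
    (h : ∀ i < I, W i ⊆ T ∨ μ.real (W i) ≤ m) :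
    μ.real K ≤ μ.real S + μ.real L + μ.real T + I * m := by
  classical
  have h1 : K ⊆ S ∪ L ∪ T ∪ ⋃ i ∈ (Finset.range I).filter fun i => μ.real (W i) ≤ m, W i := by
    intro x hx
    rcases hc x hx with h1 | h1 | ⟨i, hi, h1⟩
    · exact Or.inl (Or.inl (Or.inl h1))
    · exact Or.inl (Or.inl (Or.inr h1))
    · rcases h i hi with h2 | h2
      · exact Or.inl (Or.inr (h2 h1))
      · exact Or.inr (Set.mem_biUnion (Finset.mem_filter.2 ⟨Finset.mem_range.2 hi, h2⟩) h1)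
  have h2 : S ∪ L ∪ T ∪ ⋃ i ∈ (Finset.range I).filter fun i => μ.real (W i) ≤ m, W i ⊆ K :=
    Set.union_subset (Set.union_subset (Set.union_subset hS hL) hT)
      (Set.iUnion₂_subset fun i _ => hW i)
  refine (measureReal_mono h1 (measure_ne_top_of_subset h2 hK)).trans
    ((measureReal_union_le _ _).trans (add_le_add ((measureReal_union_le _ _).trans
      (add_le_add (measureReal_union_le _ _) le_rfl)) ?_))
  refine (measureReal_biUnion_finset_le _ _).trans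
    ((Finset.sum_le_card_nsmul _ _ m fun i hi => (Finset.mem_filter.1 hi).2).trans ?_)
  rw [nsmul_eq_mul]
  refine mul_le_mul_of_nonneg_right (Nat.cast_le.2 ?_) hm
  exact (Finset.card_filter_le _ _).trans_eq (Finset.card_range I)

lemma Thin_far {a b η : ℝ} (ha : 0 < a) (hη : 0 < η) (hη1 : η ≤ 1) (h : a * (1 + η) ≤ b) :
    4 * a * b / (a + b) ^ 2 ≤ Real.exp (-(η ^ 2 / 9)) := by
  have h0 : 0 < a * η := mul_pos ha hη
  have hb : 0 < b := by linarith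
  refine le_trans ?_ (Real.add_one_le_exp _)
  rw [div_le_iff₀ (by positivity)]
  have h1 : η * (a + b) ≤ 3 * (b - a) := by
    have := mul_le_mul_of_nonneg_left h (show 0 ≤ 3 - η by linarith)
    have := mul_nonneg h0.le (sub_nonneg.2 hη1)
    nlinarith
  have h2 := pow_le_pow_left₀ (by positivity) h1 2
  nlinarith

lemma Thin_idx {a₀ r : ℝ} {M k : ℕ} (ha : 0 < a₀) (hk : 1 ≤ k) (h1 : a₀ ≤ r) (h2 : r < M * a₀) :
    ∃ i < M * k, a₀ * (1 + i / k) ≤ r ∧ r ≤ a₀ * (1 + i / k) * (1 + 1 / k) := by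
  have hk0 : (0 : ℝ) < k := by exact_mod_cast hk
  have h4 : 0 ≤ (r - a₀) / (a₀ / k) := div_nonneg (by linarith) (by positivity)
  have h5 := Nat.floor_le h4
  have h6 := Nat.lt_floor_add_one ((r - a₀) / (a₀ / k))
  have h8 : (r - a₀) / (a₀ / k) < (M * k : ℕ) := by
    rw [div_lt_iff₀ (by positivity)]
    have : ((M * k : ℕ) : ℝ) * (a₀ / k) = M * a₀ := by
      push_cast
      field_simp
    linarith
  refine ⟨_, (Nat.floor_lt h4).2 h8, ?_⟩
  rw [le_div_iff₀ (by positivity)] at h5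
  rw [div_lt_iff₀ (by positivity)] at h6
  generalize ⌊(r - a₀) / (a₀ / k)⌋₊ = i at *
  have e1 : a₀ * (1 + i / k) = a₀ + i * (a₀ / k) := by ring
  have e2 : a₀ * (1 + i / k) * (1 + 1 / k) = a₀ + (i + 1) * (a₀ / k) + i * (a₀ / k) / k := by ring
  have e3 : 0 ≤ i * (a₀ / k) / k := by positivity
  exact ⟨by linarith, by linarith⟩

lemma Thin_alg {ζ x y : ℝ} (hζ : 0 < ζ) (hx : 9 * ζ ≤ x) (h : (x - ζ) * (y - ζ) ≤ 8 * ζ ^ 2) :
    y ≤ 2 * ζ := by
  by_contra h4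
  have h5 := mul_lt_mul_of_pos_left (show ζ < y - ζ by linarith) (show 0 < 8 * ζ by positivity)
  have h6 := mul_le_mul_of_nonneg_right (show 8 * ζ ≤ x - ζ by linarith)
    (show 0 ≤ y - ζ by linarith)
  linarith

lemma Thin_cube {η : ℝ} (h0 : 0 ≤ η) (h1 : η ≤ 1 / 4) : (1 + η) ^ 3 ≤ 1 + 4 * η := by
  nlinarith [mul_nonneg h0 h0, mul_nonneg h0 (sub_nonneg.2 h1),
    mul_nonneg (mul_nonneg h0 h0) (sub_nonneg.2 h1)]

lemma Thin_num {M : ℕ} (hM : 1 ≤ M) {Cp : ℝ} (hCp : 0 < Cp) : ∃ C : ℕ, ∀ D : ℕ, 1 ≤ D → ∃ k : ℕ,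
    4 * D ≤ k ∧
    Real.exp (-((1 / (4 * D)) ^ 2 / 9)) ^ k ≤ 2 * (Real.exp (-3) / (10 * (M * k))) ^ 2 ∧
    ∀ n : ℝ, 0 < n → ((D : ℝ) + 2) ^ C ≤ Real.log n → 2 * (M * k) * Cp * (k + 1) <
      (Real.exp (-3) / (10 * (M * k)) * (g1 1 / (k * (1 + M))) ^ k) ^ 2 * n ^ (1 / 16 : ℝ) := by
  have hM1 : (1 : ℝ) ≤ M := by exact_mod_cast hM
  have hg := g1_pos 1
  have hE := Real.exp_pos 3
  obtain ⟨C₀, hC₀⟩ := exists_nat_ge (4 + 300 * Real.exp 3 ^ 2 * (M : ℝ) ^ 2 * 144 ^ 3)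
  have hC4 : (4 : ℝ) ≤ C₀ := le_trans (le_add_of_nonneg_right (by positivity)) hC₀
  obtain ⟨L₁, hL₁⟩ : ∃ L : ℝ, L = 200 * (M : ℝ) ^ 3 * Cp * Real.exp 3 ^ 2 := ⟨_, rfl⟩
  obtain ⟨L₂, hL₂⟩ : ∃ L : ℝ, L = (1 + M) / g1 1 := ⟨_, rfl⟩
  have hL₁0 : 0 < L₁ := hL₁ ▸ by positivity
  have hL₂0 : 0 < L₂ := hL₂ ▸ by positivity
  obtain ⟨C', hC'⟩ := pow_unbounded_of_one_lt (16 * ((L₁ + 4 + 2 * L₂) * (C₀ : ℝ) ^ 2))
    (show (1 : ℝ) < 3 by norm_num)
  refine ⟨C' + 12, fun D hD => ?_⟩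
  have hD1 : (1 : ℝ) ≤ D := by exact_mod_cast hD
  obtain ⟨k, hk⟩ : ∃ k : ℕ, (k : ℝ) = C₀ * (D : ℝ) ^ 6 := ⟨C₀ * D ^ 6, by push_cast; rfl⟩
  have hD6 : (D : ℝ) ≤ (D : ℝ) ^ 6 := le_self_pow₀ hD1 (by norm_num)
  have hk4 : (4 : ℝ) * D ≤ k := by
    rw [hk]
    gcongr
  have hk1 : (1 : ℝ) ≤ k := by linarith
  refine ⟨k, by exact_mod_cast hk4, ?_, fun n hn hlog => ?_⟩
  · rw [← Real.exp_nat_mul, mul_neg, Real.exp_neg, Real.exp_neg]
    have h1 := Real.pow_div_factorial_le_exp (k * ((1 / (4 * D)) ^ 2 / 9)) (by positivity) 3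
    refine inv_le_of_inv_le₀ (by positivity) (le_trans ?_ h1)
    have h2 : 300 * Real.exp 3 ^ 2 * (M : ℝ) ^ 2 * 144 ^ 3 * (D : ℝ) ^ 6 ≤ k := by
      rw [hk]
      exact mul_le_mul_of_nonneg_right (by linarith) (by positivity)
    calc (2 * ((Real.exp 3)⁻¹ / (10 * (M * k))) ^ 2)⁻¹
        = 300 * Real.exp 3 ^ 2 * (M : ℝ) ^ 2 * 144 ^ 3 * (D : ℝ) ^ 6 *
            ((k : ℝ) ^ 2 / (6 * 144 ^ 3 * (D : ℝ) ^ 6)) := by
          field_simp
          ring
      _ ≤ k * ((k : ℝ) ^ 2 / (6 * 144 ^ 3 * (D : ℝ) ^ 6)) :=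
          mul_le_mul_of_nonneg_right h2 (by positivity)
      _ = _ := by
          rw [show ((Nat.factorial 3 : ℕ) : ℝ) = 6 by norm_num [Nat.factorial]]
          field_simp
          ring
  · have h1 : (L₁ + 4 + 2 * L₂) * (k : ℝ) ^ 2 < Real.log n * (1 / 16) := by
      have h2 : (3 : ℝ) ^ C' * (D : ℝ) ^ 12 ≤ ((D : ℝ) + 2) ^ (C' + 12) := by
        rw [pow_add]
        gcongr <;> linarith
      have h3 := mul_lt_mul_of_pos_right hC' (show 0 < (D : ℝ) ^ 12 by positivity)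
      have h4 : (k : ℝ) ^ 2 = (C₀ : ℝ) ^ 2 * (D : ℝ) ^ 12 := by
        rw [hk]
        ring
      rw [h4]
      linarith
    have h2 : ∀ x : ℝ, x ≤ Real.exp x := fun x => by linarith [Real.add_one_le_exp x]
    have h3 : L₁ * (k * (k + 1) * (k * k)) * ((k * L₂) ^ k) ^ 2 ≤
        Real.exp L₁ * (Real.exp k * Real.exp k * (Real.exp k * Real.exp k)) *
          (Real.exp (k * L₂) ^ k) ^ 2 := by
      have := Real.add_one_le_exp (k : ℝ)
      have := h2 k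
      have := h2 L₁
      have := h2 (k * L₂)
      gcongr
    have h4 : Real.exp L₁ * (Real.exp k * Real.exp k * (Real.exp k * Real.exp k)) *
        (Real.exp (k * L₂) ^ k) ^ 2 ≤ Real.exp ((L₁ + 4 + 2 * L₂) * (k : ℝ) ^ 2) := by
      rw [← pow_mul, ← Real.exp_nat_mul, ← Real.exp_add, ← Real.exp_add, ← Real.exp_add,
        ← Real.exp_add]
      refine Real.exp_le_exp.2 ?_
      have h5 : (k : ℝ) ≤ (k : ℝ) ^ 2 := le_self_pow₀ hk1 two_ne_zero
      have h6 := mul_le_mul_of_nonneg_left (hk1.trans h5) hL₁0.le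
      push_cast
      nlinarith
    have h5 := (h3.trans h4).trans_lt (Real.exp_lt_exp.2 h1)
    rw [← Real.rpow_def_of_pos hn] at h5
    have e : g1 1 / (k * (1 + M)) = (k * L₂)⁻¹ := by
      rw [hL₂]
      field_simp
    have h6 : 0 < (k * L₂) ^ k := by positivity
    rw [e, inv_pow, Real.exp_neg]
    refine lt_of_eq_of_lt ?_ (mul_lt_mul_of_pos_left h5 (by positivity))
    rw [hL₁]
    field_simp
    ring

/-- `n = |κ|`. Absolute `a₀ < A₀` with mass `≥ 9/10` on `nrm ∈ [a₀ √n, A₀ √n]` (`small_norm`,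
`large_norm`). `k = C₀ (D+2)^4`, windows `[a_i, a_i (1 + 1/k)]`, `a_i = a₀ √n (1 + 1/k)^i`,
`i ≤ I ≤ C k`; `δ = a₀ √n / k`, `A = A₀ √n`. Let `a` be the heaviest window (mass `≥ c / k`),
`ζ = c' / k`; `exists_proj` for the cubes at `a_i` and `(a + a_i)/2`. If
`a_i / a ∉ [1/(1+η), 1+η]`, `η = 1/(4D)`, then `4ab/(a+b)² ≤ exp (-η²/9)` and `two_windows`
bounds the mass of the window by `e³ ζ + C k exp (-k η²/9)`; these sum to `≤ 2/5`. The remaining
windows lie in `[r₀, r₀ (1+η)² (1 + 1/k)]`, `r₀ = a / (1+η)`. -/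
theorem thin_shell : ∃ C : ℕ, ∀ (κ : Type) [Fintype κ] [DecidableEq κ] [Nonempty κ]
    (K : Set (κ → ℝ)), Body K → Iso K → ∀ D : ℕ, 1 ≤ D →
      ((D : ℝ) + 2) ^ C ≤ Real.log (Fintype.card κ) →
      ∃ r₀ : ℝ, 0 < r₀ ∧
        volume.real K / 2 ≤ volume.real {x ∈ K | r₀ ≤ nrm x ∧ nrm x ≤ r₀ * (1 + 1 / D)} := by
  obtain ⟨Cs, hCs, hs⟩ := small_norm
  obtain ⟨Cp, hCp, hp⟩ := exists_proj
  obtain ⟨ε, hε⟩ : ∃ ε : ℝ, ε = 1 / (20 * Cs) := ⟨_, rfl⟩
  have hε0 : 0 < ε := hε ▸ by positivity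
  obtain ⟨M, hM⟩ := exists_nat_ge (5 / ε)
  have hM0 : (0 : ℝ) < M := lt_of_lt_of_le (by positivity) hM
  have hM1 : 1 ≤ M := by exact_mod_cast hM0
  obtain ⟨C, hC⟩ := Thin_num hM1 hCp
  refine ⟨C, fun κ _ _ _ K hK hI D hD hlog => ?_⟩
  obtain ⟨k, hk4, hk1, hk2⟩ := hC D hD
  have hn : (0 : ℝ) < Fintype.card κ := Nat.cast_pos.2 Fintype.card_pos
  have hV := hK.vol_pos
  have hfin : volume K ≠ ⊤ := hK.1.measure_lt_top.ne
  have hD1 : (1 : ℝ) ≤ D := by exact_mod_cast hD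
  have hk4' : (4 : ℝ) * D ≤ k := by exact_mod_cast hk4
  have hk0 : (0 : ℝ) < k := by linarith
  have hk : 1 ≤ k := by exact_mod_cast hk0
  have hg := g1_pos 1
  have hE := Real.exp_pos (-3)
  have hsq : 0 < √(Fintype.card κ : ℝ) := Real.sqrt_pos.2 hn
  obtain ⟨a₀, ha₀⟩ : ∃ a₀ : ℝ, a₀ = ε * √(Fintype.card κ : ℝ) := ⟨_, rfl⟩
  have ha₀0 : 0 < a₀ := ha₀ ▸ by positivity
  obtain ⟨a, ha⟩ : ∃ a : ℕ → ℝ, ∀ i, a i = a₀ * (1 + i / k) := ⟨_, fun _ => rfl⟩
  have ha1 : ∀ i, a₀ ≤ a i := fun i => by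
    rw [ha]
    exact le_mul_of_one_le_right ha₀0.le (le_add_of_nonneg_right (by positivity))
  have ha2 : ∀ i < M * k, a i ≤ a₀ * (1 + M) := fun i hi => by
    have h1 : (i : ℝ) ≤ M * k := by exact_mod_cast hi.le
    rw [ha]
    exact mul_le_mul_of_nonneg_left (add_le_add le_rfl ((div_le_iff₀ hk0).2 h1)) ha₀0.le
  have ha0 : ∀ i, 0 < a i := fun i => ha₀0.trans_le (ha1 i)
  obtain ⟨W, hW⟩ : ∃ W : ℕ → Set (κ → ℝ),
      ∀ i, W i = {x ∈ K | a i ≤ nrm x ∧ nrm x ≤ a i * (1 + 1 / k)} := ⟨_, fun _ => rfl⟩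
  have hS : volume.real {x ∈ K | nrm x ≤ ε * √(Fintype.card κ)} ≤ volume.real K / 20 := by
    refine (hs κ K hK hI ε hε0).trans_eq ?_
    rw [hε]
    field_simp
  have hL := large_norm hK hI (t := 5) (by norm_num)
  have hcov : ∀ {T : Set (κ → ℝ)} {m : ℝ}, T ⊆ K → 0 ≤ m →
      (∀ i < M * k, W i ⊆ T ∨ volume.real (W i) ≤ m) →
      9 / 10 * volume.real K ≤ volume.real T + M * k * m := by
    intro T m hT hm h
    have h1 := Thin_cover (S := {x ∈ K | nrm x ≤ ε * √(Fintype.card κ)})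
      (L := {x ∈ K | 5 * √(Fintype.card κ) ≤ nrm x}) hfin (fun _ hx => hx.1) (fun _ hx => hx.1) hT
      (fun i x hx => (hW i ▸ hx : x ∈ {x ∈ K | _}).1) hm (fun x hx => ?_) h
    · push_cast at h1
      linarith
    · rcases le_or_gt (nrm x) a₀ with h2 | h2
      · exact Or.inl ⟨hx, ha₀ ▸ h2⟩
      rcases le_or_gt (5 * √(Fintype.card κ : ℝ)) (nrm x) with h3 | h3
      · exact Or.inr (Or.inl ⟨hx, h3⟩)
      have h7 : 5 * √(Fintype.card κ : ℝ) ≤ M * a₀ := by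
        rw [ha₀, ← mul_assoc]
        exact mul_le_mul_of_nonneg_right ((div_le_iff₀ hε0).1 hM) hsq.le
      obtain ⟨i, hi, h8⟩ := Thin_idx ha₀0 hk h2.le (h3.trans_le h7)
      refine Or.inr (Or.inr ⟨i, hi, ?_⟩)
      rw [hW, ha]
      exact ⟨hx, h8⟩
  obtain ⟨i₀, hi₀, hmax⟩ := Finset.exists_max_image (Finset.range (M * k))
    (fun i => volume.real (W i)) ⟨0, Finset.mem_range.2 (Nat.mul_pos hM1 hk)⟩
  have hi₀ := Finset.mem_range.1 hi₀
  have h₀ := hcov (T := ∅) (Set.empty_subset _) measureReal_nonneg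
    fun i hi => Or.inr (hmax i (Finset.mem_range.2 hi))
  rw [measureReal_empty, zero_add] at h₀
  obtain ⟨ζ, hζ⟩ : ∃ ζ : ℝ, ζ = Real.exp (-3) / (10 * (M * k)) := ⟨_, rfl⟩
  have hζ0 : 0 < ζ := hζ ▸ by positivity
  have hζe : Real.exp (-3) = ζ * (10 * (M * k)) := by
    rw [hζ]
    field_simp
  have hζ1 : ζ ≤ 1 := by
    have h1 : (1 : ℝ) ≤ M * k := by exact_mod_cast Nat.mul_pos hM1 hk
    have h2 : Real.exp (-3) ≤ 1 := Real.exp_le_one_iff.2 (by norm_num)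
    rw [hζ, div_le_one (by positivity)]
    linarith
  rw [← hζ] at hk1 hk2
  obtain ⟨Γ, hΓ⟩ := hp κ (Fin k) K hK hI
    ((Finset.range (M * k)).image (fun i => (fun _ => a i, fun _ => a i + a₀ / k)) ∪
      (Finset.range (M * k)).image
        (fun i => (fun _ => (a i₀ + a i) / 2, fun _ => (a i₀ + a i) / 2 + a₀ / k)))
    (ζ * (g1 1 / (k * (1 + M))) ^ k) (by positivity) (by
      refine lt_of_le_of_lt ?_ (hk2 _ hn hlog)
      rw [Fintype.card_fin]
      refine mul_le_mul_of_nonneg_right (mul_le_mul_of_nonneg_right ?_ hCp.le) (by positivity)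
      have := (Finset.card_union_le _ _).trans
        (add_le_add (Finset.card_image_le (s := Finset.range (M * k))
          (f := fun i => ((fun _ => a i, fun _ => a i + a₀ / k) : (Fin k → ℝ) × (Fin k → ℝ))))
          (Finset.card_image_le (s := Finset.range (M * k))
          (f := fun i => ((fun _ => (a i₀ + a i) / 2, fun _ => (a i₀ + a i) / 2 + a₀ / k) :
            (Fin k → ℝ) × (Fin k → ℝ)))))
      rw [Finset.card_range, ← two_mul] at this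
      exact_mod_cast this)
  have hνa : 9 * ζ ≤ Real.exp (-3) * (volume.real (W i₀) / volume.real K) := by
    rw [← mul_div_assoc, le_div_iff₀ hV, hζe]
    have := mul_le_mul_of_nonneg_left h₀ (show 0 ≤ 10 * ζ by positivity)
    linarith
  have hfar : ∀ i < M * k, 4 * a i₀ * a i / (a i₀ + a i) ^ 2 ≤
      Real.exp (-((1 / (4 * D)) ^ 2 / 9)) → volume.real (W i) ≤ volume.real K / (5 * (M * k)) := by
    intro i hi hθ
    have e : a₀ / k * g1 1 / (a₀ * (1 + M)) = g1 1 / (k * (1 + M)) := by field_simp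
    have h1 := two_windows hK hk Γ (ha0 i₀) (ha0 i) (δ := a₀ / k) (by positivity) (ha2 i₀ hi₀)
      (ha2 i hi) (div_le_div_of_nonneg_right (ha1 _) hk0.le)
      (div_le_div_of_nonneg_right (ha1 _) hk0.le) hζ0.le hζ1 (fun t ht => ?_)
      (νa := volume.real (W i₀) / volume.real K) (νb := volume.real (W i) / volume.real K)
      (by rw [div_mul_cancel₀ _ hV.ne', hW]) (by rw [div_mul_cancel₀ _ hV.ne', hW]) (by linarith)
    · have h2 : 0 ≤ 4 * a i₀ * a i / (a i₀ + a i) ^ 2 := by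
        have := ha0 i₀
        have := ha0 i
        positivity
      have h3 := (pow_le_pow_left₀ h2 hθ k).trans hk1
      have h4 := Thin_alg hζ0 hνa (h1.trans (by linarith))
      rw [← mul_div_assoc, div_le_iff₀ hV, hζe] at h4
      rw [le_div_iff₀ (by positivity)]
      refine le_of_mul_le_mul_left ?_ (show 0 < 2 * ζ by positivity)
      linarith
    · rw [e]
      rcases ht with rfl | rfl | rfl
      · have h2 := hΓ _
          (Finset.mem_union_left _ (Finset.mem_image_of_mem _ (Finset.mem_range.2 hi₀)))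
        exact h2
      · have h2 := hΓ _
          (Finset.mem_union_left _ (Finset.mem_image_of_mem _ (Finset.mem_range.2 hi)))
        exact h2
      · have h2 := hΓ _
          (Finset.mem_union_right _ (Finset.mem_image_of_mem _ (Finset.mem_range.2 hi)))
        exact h2
  obtain ⟨η, hη⟩ : ∃ η : ℝ, η = 1 / (4 * D) := ⟨_, rfl⟩
  have hη0 : 0 < η := hη ▸ by positivity
  have hη1 : η ≤ 1 / 4 := hη ▸ one_div_le_one_div_of_le (by norm_num) (by linarith)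
  have hη2 : 1 / (k : ℝ) ≤ η := hη ▸ one_div_le_one_div_of_le (by positivity) hk4'
  have hη3 : 1 / (D : ℝ) = 4 * η := by
    rw [hη]
    field_simp
  rw [← hη] at hfar
  obtain ⟨r₀, hr₀⟩ : ∃ r₀ : ℝ, r₀ = a i₀ / (1 + η) := ⟨_, rfl⟩
  have hr₀0 : 0 < r₀ := hr₀ ▸ div_pos (ha0 i₀) (by positivity)
  have hr₁ : a i₀ = r₀ * (1 + η) := by
    rw [hr₀]
    field_simp
  refine ⟨r₀, hr₀0, ?_⟩
  have h₁ := hcov (T := {x ∈ K | r₀ ≤ nrm x ∧ nrm x ≤ r₀ * (1 + 1 / D)})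
    (m := volume.real K / (5 * (M * k))) (fun _ hx => hx.1) (by positivity) fun i hi => ?_
  · have e : (M : ℝ) * k * (volume.real K / (5 * (M * k))) = volume.real K / 5 := by field_simp
    linarith
  rcases le_or_gt (a i₀ * (1 + η)) (a i) with h1 | h1
  · exact Or.inr (hfar i hi (Thin_far (ha0 i₀) hη0 (by linarith) h1))
  rcases le_or_gt (a i * (1 + η)) (a i₀) with h2 | h2
  · refine Or.inr (hfar i hi (le_trans (le_of_eq ?_) (Thin_far (ha0 i) hη0 (by linarith) h2)))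
    ring
  refine Or.inl fun x hx => ?_
  rw [hW] at hx
  refine ⟨hx.1, le_trans ?_ hx.2.1, hx.2.2.trans ?_⟩
  · rw [hr₁] at h2
    exact (lt_of_mul_lt_mul_right h2 (by positivity)).le
  · rw [hη3]
    rw [hr₁] at h1
    calc a i * (1 + 1 / k) ≤ r₀ * (1 + η) * (1 + η) * (1 + η) :=
          mul_le_mul h1.le (by linarith) (by positivity) (by positivity)
      _ = r₀ * (1 + η) ^ 3 := by ring
      _ ≤ _ := mul_le_mul_of_nonneg_left (Thin_cube hη0.le hη1) hr₀0.le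

end Crest.Agent.R225
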