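import Crest.Agent.R225.Defs

/-! Task `R225 Tree`: closure properties of `Tree` (all by induction on the `Tree` derivation). -/

set_option autoImplicit false

namespace Crest.Agent.R225

variable {α ι : Type} [DecidableEq α] {pos : α → ι → ℤ} {D : ℕ} {B : Finset α}

lemma Tree.nonempty (h : Tree pos D B) : B.Nonempty := by
  induction h with
  | single a => exact Finset.singleton_nonempty a
  | mono _ ih => exact ih
  | split _ _ _ _ _ _ ih _ => exact ih.mono Finset.subset_union_left

lemma Tree.le (h : Tree pos D B) {D' : ℕ} (hD : D ≤ D') : Tree pos D' B := by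
  induction hD with
  | refl => exact h
  | step _ ih => exact ih.mono

lemma Tree.subset (h : Tree pos D B) {A : Finset α} (hA : A ⊆ B) (hne : A.Nonempty) :
    Tree pos D A := by
  induction h generalizing A with
  | single a =>
    rw [hne.subset_singleton_iff.1 hA]
    exact .single a
  | mono _ ih => exact (ih hA hne).mono
  | @split D B₀ B₁ i w _ _ h₀ h₁ ih₀ ih₁ =>
    have e : A = A ∩ B₀ ∪ A ∩ B₁ := by
      rw [← Finset.inter_union_distrib_left, Finset.inter_eq_left.2 hA]
    rcases (A ∩ B₀).eq_empty_or_nonempty with k₀ | k₀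
    · rw [k₀, Finset.empty_union] at e
      exact (ih₁ (e ▸ Finset.inter_subset_right) hne).mono
    rcases (A ∩ B₁).eq_empty_or_nonempty with k₁ | k₁
    · rw [k₁, Finset.union_empty] at e
      exact (ih₀ (e ▸ Finset.inter_subset_right) hne).mono
    rw [e]
    exact .split i w (ih₀ Finset.inter_subset_right k₀) (ih₁ Finset.inter_subset_right k₁)
      (fun a ha => h₀ a (Finset.mem_inter.1 ha).2) fun a ha => h₁ a (Finset.mem_inter.1 ha).2

/-- Distinct members differ by `± 1` in some coordinate. -/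
lemma Tree.sep (h : Tree pos D B) {a b : α} (ha : a ∈ B) (hb : b ∈ B) (hab : a ≠ b) :
    ∃ i, pos a i = pos b i + 1 ∨ pos b i = pos a i + 1 := by
  induction h with
  | single c => exact absurd ((Finset.mem_singleton.1 ha).trans (Finset.mem_singleton.1 hb).symm) hab
  | mono _ ih => exact ih ha hb
  | split i w _ _ h₀ h₁ ih₀ ih₁ =>
    rcases Finset.mem_union.1 ha with ha | ha <;> rcases Finset.mem_union.1 hb with hb | hb
    · exact ih₀ ha hb
    · exact ⟨i, .inr (by rw [h₀ a ha, h₁ b hb])⟩
    · exact ⟨i, .inl (by rw [h₀ b hb, h₁ a ha])⟩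
    · exact ih₁ ha hb

/-- Relabel, enlarge the coordinate set, translate. -/
lemma Tree.image {β ι' : Type} [DecidableEq β] {pos' : β → ι' → ℤ} (h : Tree pos D B)
    (f : α → β) (φ : ι → ι') (c : ι → ℤ) (hf : ∀ a ∈ B, ∀ i, pos' (f a) (φ i) = pos a i + c i) :
    Tree pos' D (B.image f) := by
  induction h with
  | single a =>
    rw [Finset.image_singleton]
    exact .single _
  | mono _ ih => exact (ih hf).mono
  | split i w _ _ h₀ h₁ ih₀ ih₁ =>
    rw [Finset.image_union]
    refine .split (φ i) (w + c i) (ih₀ fun a ha => hf a (Finset.mem_union_left _ ha))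
      (ih₁ fun a ha => hf a (Finset.mem_union_right _ ha)) ?_ ?_
    · simp only [Finset.forall_mem_image]
      intro a ha
      rw [hf a (Finset.mem_union_left _ ha), h₀ a ha]
    · simp only [Finset.forall_mem_image]
      intro a ha
      rw [hf a (Finset.mem_union_right _ ha), h₁ a ha, add_right_comm]

/-- Littlestone/Sauer type lemma: `(D+1)^j + (D+1)^(j-1) ≤ (D+2)^j`. Induct on the derivation
with `j` generalised; in the split case the two halves are disjoint. -/
lemma Tree.littlestone (h : Tree pos D B) (j : ℕ) (hj : (D + 1) ^ j < B.card) :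
    ∃ A ⊆ B, Tree pos j A ∧ A.card = 2 ^ j := by
  induction h generalizing j with
  | single a => simp at hj
  | mono _ ih => exact ih j ((Nat.pow_le_pow_left (Nat.le_succ _) j).trans_lt hj)
  | @split D B₀ B₁ i w t₀ _ h₀ h₁ ih₀ ih₁ =>
    rcases j with _ | j
    · obtain ⟨a, ha⟩ := t₀.nonempty
      exact ⟨{a}, Finset.singleton_subset_iff.2 (Finset.mem_union_left _ ha), .single a, rfl⟩
    by_cases k₀ : (D + 1) ^ (j + 1) < B₀.card
    · obtain ⟨A, hA, h⟩ := ih₀ _ k₀
      exact ⟨A, hA.trans Finset.subset_union_left, h⟩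
    by_cases k₁ : (D + 1) ^ (j + 1) < B₁.card
    · obtain ⟨A, hA, h⟩ := ih₁ _ k₁
      exact ⟨A, hA.trans Finset.subset_union_right, h⟩
    have h2 : (D + 1) ^ (j + 1) + (D + 1) ^ j ≤ (D + 1 + 1) ^ (j + 1) :=
      calc _ = (D + 1) ^ j * (D + 1 + 1) := by ring
        _ ≤ (D + 1 + 1) ^ j * (D + 1 + 1) :=
          Nat.mul_le_mul_right _ (Nat.pow_le_pow_left (Nat.le_succ _) j)
    have h3 := Finset.card_union_le B₀ B₁
    obtain ⟨A₀, s₀, u₀, c₀⟩ := ih₀ j (by omega)
    obtain ⟨A₁, s₁, u₁, c₁⟩ := ih₁ j (by omega)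
    refine ⟨A₀ ∪ A₁, Finset.union_subset_union s₀ s₁,
      .split i w u₀ u₁ (fun a ha => h₀ a (s₀ ha)) fun a ha => h₁ a (s₁ ha), ?_⟩
    rw [Finset.card_union_of_disjoint (Finset.disjoint_left.2 fun a ha ha' => by
      have := h₀ a (s₀ ha)
      have := h₁ a (s₁ ha')
      omega), c₀, c₁, pow_succ, mul_two]

/-- A Boolean cell. -/
lemma tree_cube (k : ℕ) (c : Fin k → ℤ) :
    Tree (fun (ε : Fin k → Bool) (i : Fin k) => c i + if ε i then 1 else 0) k Finset.univ := by
  induction k with
  | zero =>
    rw [Finset.univ_unique]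
    exact .single _
  | succ k ih =>
    have e : (Finset.univ : Finset (Fin (k + 1) → Bool)) =
        Finset.univ.image (Fin.cons false) ∪ Finset.univ.image (Fin.cons true) := by
      ext ε
      simp only [Finset.mem_univ, Finset.mem_union, Finset.mem_image, true_and, true_iff]
      have := Fin.cons_self_tail ε
      cases h : ε 0 <;> rw [h] at this
      · exact .inl ⟨_, this⟩
      · exact .inr ⟨_, this⟩
    rw [e]
    refine .split 0 (c 0) ((ih fun i => c i.succ).image _ Fin.succ 0 (by simp))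
      ((ih fun i => c i.succ).image _ Fin.succ 0 (by simp)) ?_ ?_ <;> simp

/-- Grafting trees in new coordinates onto the leaves of a tree. -/
lemma Tree.graft {β ι' : Type} [DecidableEq β] (pos' : α → β → ι' → ℤ) {D' : ℕ}
    (C : Finset (α × β)) (h : Tree pos D (C.image Prod.fst))
    (h' : ∀ a ∈ C.image Prod.fst,
      Tree (pos' a) D' ((C.filter fun x => x.1 = a).image Prod.snd)) :
    Tree (fun x : α × β => Sum.elim (pos x.1) (pos' x.1 x.2)) (D + D') C := by
  generalize hB : C.image Prod.fst = B at h h'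
  induction h generalizing C with
  | single a =>
    have e : C = ((C.filter fun x => x.1 = a).image Prod.snd).image (Prod.mk a) := by
      ext ⟨x, y⟩
      simp only [Finset.mem_image, Finset.mem_filter, Prod.mk.injEq]
      constructor
      · intro hx
        obtain rfl : x = a := Finset.mem_singleton.1 (hB ▸ Finset.mem_image_of_mem Prod.fst hx)
        exact ⟨y, ⟨(x, y), ⟨hx, rfl⟩, rfl⟩, rfl, rfl⟩
      · rintro ⟨_, ⟨z, ⟨hz, rfl⟩, rfl⟩, rfl, rfl⟩
        exact hz
    rw [zero_add, e]
    exact (h' a (Finset.mem_singleton_self a)).image _ Sum.inr 0 (by simp)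
  | mono _ ih =>
    rw [add_right_comm]
    exact (ih C hB h').mono
  | @split D B₀ B₁ i w _ _ h₀ h₁ ih₀ ih₁ =>
    have k1 : ∀ A ⊆ B₀ ∪ B₁, (C.filter fun x => x.1 ∈ A).image Prod.fst = A := fun A hA => by
      rw [← Finset.filter_image (p := (· ∈ A)), hB, Finset.filter_mem_eq_inter, Finset.inter_eq_right.2 hA]
    have k2 : ∀ A ⊆ B₀ ∪ B₁, ∀ a ∈ A, Tree (pos' a) D'
        (((C.filter fun x => x.1 ∈ A).filter fun x => x.1 = a).image Prod.snd) := fun A hA a ha => by
      rw [Finset.filter_filter, Finset.filter_congr (q := fun x => x.1 = a) fun x _ =>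
        ⟨fun h => h.2, fun h => ⟨h ▸ ha, h⟩⟩]
      exact h' a (hA ha)
    have e : C = (C.filter fun x => x.1 ∈ B₀) ∪ C.filter fun x => x.1 ∈ B₁ := by
      rw [← Finset.filter_or]
      exact (Finset.filter_true_of_mem fun x hx =>
        Finset.mem_union.1 (hB ▸ Finset.mem_image_of_mem Prod.fst hx)).symm
    rw [add_right_comm, e]
    exact .split (Sum.inl i) w
      (ih₀ _ (k1 _ Finset.subset_union_left) (k2 _ Finset.subset_union_left))
      (ih₁ _ (k1 _ Finset.subset_union_right) (k2 _ Finset.subset_union_right))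
      (fun a ha => h₀ _ (Finset.mem_filter.1 ha).2) fun a ha => h₁ _ (Finset.mem_filter.1 ha).2

end Crest.Agent.R225
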