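import Crest.Agent.R225.MDefs
import Crest.Agent.R225.Tree

/-! Row 225: the vertical lattice, built block by block.

A block adds one fine coordinate (spacing `σ`, candidates `t ∈ T`) and `k` coordinates of spacing
`s` (positions measured in units `s / p`). A parent particle whose sheared position is `u` has kids
`(t, ε)` of weight `wt g u t ε`; only one `t` is active, its kids form a Boolean cell. -/

set_option autoImplicit false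

namespace Crest.Agent.R225

structure Blk where
  p : ℕ
  hp : p.Prime
  k : ℕ
  s : ℝ
  σ : ℝ
  N : ℕ
  T : Finset ℤ
  rh : ℕ
  om : ℤ → ℝ
  Psi : (Fin k → ZMod p) → (Fin k → Bool) → ℝ
  Sig : Finset (Fin k → ZMod p)
  cst : ℝ

instance (B : Blk) : Fact B.p.Prime := ⟨B.hp⟩

namespace Blk
variable (B : Blk)

abbrev A := Fin B.k → ZMod B.p

/-- Reduction mod `p`. -/
def red (u : Fin B.k → ℤ) : B.A := fun i => (u i : ZMod B.p)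

/-- Canonical lift. -/
def lift (δ : B.A) : Fin B.k → ℤ := fun i => ((δ i).val : ℤ)

/-- The alternatives `r ∈ [0, rh)^k`. -/
abbrev Box := Fin B.k → Fin B.rh

def box (r : B.Box) : Fin B.k → ℤ := fun i => ((r i : ℕ) : ℤ)

noncomputable def th (δ : B.A) : ℝ := ∑ ε, B.Psi δ ε

/-- Offset (in units `s / p`) of the leaf `ε`. -/
def jj (δ : B.A) (ε : Fin B.k → Bool) (i : Fin B.k) : ℤ :=
  ((δ i).val : ℤ) - if ε i then (B.p : ℤ) else 0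

open Classical in
noncomputable def wt (g u : B.A) (t : ℤ) (ε : Fin B.k → Bool) : ℝ :=
  if ∀ t' ∈ B.T, t' ≠ t → u - t' • g ∉ B.Sig then B.om t * B.Psi (u - t • g) ε else 0

/-- The multiplier: total weight of the kids. -/
noncomputable def mul (g u : B.A) : ℝ := ∑ t ∈ B.T, ∑ ε, B.wt g u t ε

/-- New coordinates of the kid `(t, ε)` of a parent at the integer position `u`. -/
def kid (g : B.A) (u : Fin B.k → ℤ) (t : ℤ) (ε : Fin B.k → Bool) : Option (Fin B.k) → ℤ :=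
  fun o => o.elim t fun i => (u i - t * B.lift g i) / B.p + if ε i then 1 else 0

structure Good (e α β κ Rb : ℝ) : Prop where
  s_pos : 0 < B.s
  σ_pos : 0 < B.σ
  T_sub : ∀ t ∈ B.T, |t| ≤ B.N
  N_lt : 2 * B.N < B.p
  rh_pos : 1 ≤ B.rh
  rh_le : B.rh ≤ B.p
  cst_pos : 0 < B.cst
  α_nonneg : 0 ≤ α
  β_nonneg : 0 ≤ β
  κ_nonneg : 0 ≤ κ
  om_nonneg : ∀ t, 0 ≤ B.om t
  Psi_nonneg : ∀ δ ε, 0 ≤ B.Psi δ ε
  off : ∀ δ ε, δ ∉ B.Sig → B.Psi δ ε = 0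
  geo : ∀ t ∈ B.T, ∀ δ ε (y₀ : ℝ) (y : Fin B.k → ℝ), |y₀| ≤ B.σ * |(t : ℝ)| + B.σ →
    (∀ i, |y i - B.s / B.p * B.jj δ ε i| ≤ B.s / B.p * B.rh) →
    B.cst * (B.om t * B.Psi δ ε) ≤ B.σ * g1 y₀ * ∏ i, B.s * g1 (y i)
  range0 : B.σ * (B.N + 1) ≤ Rb
  range1 : 2 * B.s ≤ Rb
  mean_ge : 1 - e ≤ (∑ t ∈ B.T, B.om t) * av B.th
  mean_le : (∑ t ∈ B.T, B.om t) * av B.th ≤ 1
  atom : ∀ t ∈ B.T, ∀ δ ε, B.om t * B.Psi δ ε ≤ α
  beta : ∀ t ∈ B.T, ∀ δ, B.om t * B.th δ ≤ β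
  coll : ((B.T.card : ℝ) - 1) * fr (fun δ => δ ∈ B.Sig) ≤ κ

/-- The numerical interface of a block leading from level `a` to level `b`. -/
def Intf (a b : ℝ) : Prop :=
  B.Good (b ^ (-1 / 25 : ℝ)) (Real.exp (-(b - a))) (Real.exp (3 * a / 5)) (Real.exp (-a / 10)) b ∧
    (B.k : ℝ) ≤ b ^ (137 / 100 : ℝ) + 1 ∧
    (4 * B.N + 1 : ℝ) ≤ Real.exp (b ^ (138 / 100 : ℝ)) ∧
    ((B.p : ℝ) / B.rh) ^ B.k ≤ Real.exp (b ^ (138 / 100 : ℝ))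

end Blk

/-- A state: lattice `M ℤ^ι`; for each target `h` and alternative `ξ` a weighted labelled family
of lattice points. -/
structure St where
  ι : Type
  [fι : Fintype ι]
  [dι : DecidableEq ι]
  Ξ : Type
  [fΞ : Fintype Ξ]
  Lab : Type
  [fL : Fintype Lab]
  [dL : DecidableEq Lab]
  M : Matrix ι ι ℝ
  pos : (ι → ℝ) → Ξ → Lab → ι → ℤ
  W : (ι → ℝ) → Ξ → Lab → ℝ
  Ω : Finset (ι → ℤ)

attribute [instance] St.fι St.dι St.fΞ St.fL St.dL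

namespace St
variable (S : St)

structure Geo (c₀ : ℝ) (D : ℕ) (αS tot R : ℝ) : Prop where
  det_ne : S.M.det ≠ 0
  ne : Nonempty S.Ξ
  c_pos : 0 < c₀
  W_nonneg : ∀ h ξ a, 0 ≤ S.W h ξ a
  W_le : ∀ h ξ a, S.W h ξ a ≤ αS
  α_nonneg : 0 ≤ αS
  tot_le : ∀ h ξ, ∑ a, S.W h ξ a ≤ tot
  tree : ∀ h ξ (C : Finset S.Lab), C.Nonempty → (∀ a ∈ C, S.W h ξ a ≠ 0) → Tree (S.pos h ξ) D C
  cmp : ∀ h ξ a, S.W h ξ a ≠ 0 →
    c₀ * S.W h ξ a ≤ |S.M.det| * gd (h - S.M.mulVec fun i => (S.pos h ξ a i : ℝ))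
  range : ∀ h ξ a, S.W h ξ a ≠ 0 → ∀ i, |(h - S.M.mulVec fun i => (S.pos h ξ a i : ℝ)) i| ≤ R
  diff : ∀ h ξ a a', S.W h ξ a ≠ 0 → S.W h ξ a' ≠ 0 → S.pos h ξ a - S.pos h ξ a' ∈ S.Ω

/-- The shear `row = (T, g)` keeps total weight `≥ c` for most alternatives. -/
def RowGood (B : Blk) (T : S.ι → B.A) (g : B.A) (c τ : ℝ) : Prop :=
  ∀ (h : S.ι → ℝ) (v : B.A), 1 - τ ≤ fr fun x : S.Ξ × B.Box =>
    c ≤ ∑ a, S.W h x.1 a * B.mul g (v + B.red (B.box x.2) - ∑ j, S.pos h x.1 a j • T j)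

def Nxt (B : Blk) (c π τ : ℝ) : Prop :=
  1 - π ≤ fr fun row : (S.ι → B.A) × B.A => S.RowGood B row.1 row.2 c τ

section Ext
variable (B : Blk) (T : S.ι → B.A) (g : B.A)

/-- Integer shear. -/
def lin (a : S.ι → ℤ) : Fin B.k → ℤ := fun i => ∑ j, a j * B.lift (T j) i

noncomputable def t0 (h : S.ι ⊕ Option (Fin B.k) → ℝ) : ℤ := ⌊h (Sum.inr none) / B.σ⌋

noncomputable def v1 (h : S.ι ⊕ Option (Fin B.k) → ℝ) : Fin B.k → ℤ :=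
  fun i => ⌊B.p * h (Sum.inr (some i)) / B.s⌋ - S.t0 B h * B.lift g i

/-- Sheared integer position of the parent `a` in the new block. -/
noncomputable def uu (h : S.ι ⊕ Option (Fin B.k) → ℝ) (x : S.Ξ × B.Box) (a : S.Lab) :
    Fin B.k → ℤ :=
  S.v1 B g h + B.box x.2 - S.lin B T (S.pos (fun i => h (Sum.inl i)) x.1 a)

noncomputable def extM : Matrix (S.ι ⊕ Option (Fin B.k)) (S.ι ⊕ Option (Fin B.k)) ℝ :=
  Matrix.fromBlocks S.M 0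
    (Matrix.of fun o j => o.elim 0 fun i => B.s / B.p * B.lift (T j) i)
    (Matrix.of fun o o' => o.elim (o'.elim B.σ fun _ => 0) fun i =>
      o'.elim (B.s / B.p * B.lift g i) fun i' => if i = i' then B.s else 0)

noncomputable def extΩ : Finset (S.ι ⊕ Option (Fin B.k) → ℤ) :=
  (S.Ω ×ˢ Finset.Icc (-(2 * (B.N : ℤ))) (2 * B.N) ×ˢ
      Fintype.piFinset fun _ : Fin B.k => Finset.Icc (-1 : ℤ) 2).image fun x =>
    Sum.elim x.1 fun o => o.elim x.2.1 fun i =>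
      (-(S.lin B T x.1 i + x.2.1 * B.lift g i)) / B.p + x.2.2 i

/-- The extended state. -/
noncomputable def ext : St where
  ι := S.ι ⊕ Option (Fin B.k)
  Ξ := S.Ξ × B.Box
  Lab := S.Lab × (B.T × (Fin B.k → Bool))
  M := S.extM B T g
  pos h x l := Sum.elim (S.pos (fun i => h (Sum.inl i)) x.1 l.1) fun o =>
    B.kid g (S.uu B T g h x l.1) l.2.1 l.2.2 o + o.elim (S.t0 B h) fun _ => 0
  W h x l := S.W (fun i => h (Sum.inl i)) x.1 l.1 *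
    B.wt g (B.red (S.uu B T g h x l.1)) l.2.1 l.2.2
  Ω := S.extΩ B T g

end Ext

end St

/-- The inductive invariant at level `a`. -/
def Lev (c a : ℝ) : Prop :=
  ∃ (S : St) (c₀ : ℝ) (D : ℕ) (B : Blk), c₀ * B.cst = c ∧
    S.Geo c₀ D (Real.exp (-a)) (Real.exp a) a ∧
    (Fintype.card S.ι : ℝ) ≤ a ^ (138 / 100 : ℝ) ∧ (D : ℝ) ≤ a ^ (138 / 100 : ℝ) ∧
    (S.Ω.card : ℝ) ≤ Real.exp (a ^ (139 / 100 : ℝ)) ∧ B.Intf a (a ^ (7 / 5 : ℝ)) ∧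
    S.Nxt B (1 / 2 + a ^ (-1 / 100 : ℝ)) (1 / 2 - a ^ (-1 / 100 : ℝ)) (1 / 2 - a ^ (-1 / 100 : ℝ))

/-! ### Two consecutive blocks -/

section Two
variable (B₁ B₂ : Blk) (g₁ : B₁.A) (g₂ : B₂.A) (Tk : Option (Fin B₁.k) → B₂.A)

/-- Total weight of the grandchildren. -/
noncomputable def M12 (x : (Fin B₁.k → ℤ) × B₂.A) : ℝ :=
  ∑ t ∈ B₁.T, ∑ ε, B₁.wt g₁ (B₁.red x.1) t ε *
    B₂.mul g₂ (x.2 - ∑ o, B₁.kid g₁ x.1 t ε o • Tk o)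

def Ubad (m₀ tiny : ℝ) (x : (Fin B₁.k → ℤ) × B₂.A) : Prop :=
  M12 B₁ B₂ g₁ g₂ Tk x < m₀ * B₁.mul g₁ (B₁.red x.1) - tiny

/-- The period lattice `{(p₁ z, ∑ z i • Tk (some i))}`. -/
def Gam : AddSubgroup ((Fin B₁.k → ℤ) × B₂.A) where
  carrier := {x | ∃ z : Fin B₁.k → ℤ, x = ((B₁.p : ℤ) • z, ∑ i, z i • Tk (some i))}
  zero_mem' := ⟨0, by ext <;> simp⟩
  add_mem' := by
    rintro _ _ ⟨z, rfl⟩ ⟨z', rfl⟩
    exact ⟨z + z', by simp [add_smul, Finset.sum_add_distrib]⟩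
  neg_mem' := by
    rintro _ ⟨z, rfl⟩
    exact ⟨-z, by simp [Finset.sum_neg_distrib]⟩

/-- The transversal. -/
def tau (σ : B₁.A × B₂.A) : (Fin B₁.k → ℤ) × B₂.A := (B₁.lift σ.1, σ.2)

/-- The conclusion of `split_quot` for the columns `T`. -/
def SplitGood {ι : Type} [Fintype ι] [DecidableEq ι] (Ω : Finset (ι → ℤ))
    (U : (Fin B₁.k → ℤ) × B₂.A → Prop) (T : ι → B₁.A × B₂.A) (N ε : ℝ) (j : ℕ) : Prop :=
  ∀ C : Finset Ω, Tree (fun ω : Ω => (ω : ι → ℤ)) j C → ∀ w : (Fin B₁.k → ℤ) × B₂.A,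
    fr (fun σ : B₁.A × B₂.A => ∀ ω ∈ C,
      U (tau B₁ B₂ σ + w - ∑ i, (ω : ι → ℤ) i • tau B₁ B₂ (T i))) ≤
        N ^ (j * C.card) * ε ^ C.card

end Two

end Crest.Agent.R225
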