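import Crest.Agent.R225.Step

/-! Task `R225 Vert`: start and end of the iteration. -/

set_option autoImplicit false

namespace Crest.Agent.R225

/-- The trivial state. -/
noncomputable def Vert_S0 : St where
  ι := Empty
  Ξ := Unit
  Lab := Unit
  M := 1
  pos _ _ _ := 0
  W _ _ _ := 1
  Ω := {0}

lemma Vert_geo0 : Vert_S0.Geo 1 0 1 1 0 where
  det_ne := (Matrix.det_one (n := Empty) (R := ℝ)).trans_ne one_ne_zero
  ne := ⟨()⟩
  c_pos := one_pos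
  W_nonneg _ _ _ := zero_le_one
  W_le _ _ _ := le_rfl
  α_nonneg := zero_le_one
  tot_le _ _ := show ∑ _a : Unit, (1 : ℝ) ≤ 1 by simp
  tree h ξ C hC _ := by
    obtain ⟨a, ha⟩ := hC
    have : C = {a} := Finset.eq_singleton_iff_unique_mem.2 ⟨ha, fun _ _ => rfl⟩
    rw [this]
    exact Tree.single a
  cmp h ξ a _ := show (1 : ℝ) * 1 ≤ |(1 : Matrix Empty Empty ℝ).det| * ∏ _i : Empty, _ by simp
  range _ _ _ _ i := i.elim
  diff _ _ _ _ _ _ := show (0 : Empty → ℤ) - 0 ∈ ({0} : Finset (Empty → ℤ)) by simp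

lemma Vert_root {a : ℝ} (ha : 3 ^ 100 ≤ a) : ∃ t : ℝ, 3 ≤ t ∧ a = t ^ 100 ∧
    a ^ (137 / 100 : ℝ) = t ^ 137 ∧ a ^ (138 / 100 : ℝ) = t ^ 138 ∧
    a ^ (139 / 100 : ℝ) = t ^ 139 ∧ a ^ (-1 / 100 : ℝ) = t⁻¹ := by
  have ha0 : 0 ≤ a := le_trans (by positivity) ha
  have h : ∀ n : ℕ, a ^ ((n : ℝ) / 100) = (a ^ (1 / 100 : ℝ)) ^ n := fun n => by
    rw [← Real.rpow_natCast, ← Real.rpow_mul ha0]
    congr 1
    ring
  have h100 : a = (a ^ (1 / 100 : ℝ)) ^ 100 := by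
    rw [← h 100]; norm_num
  refine ⟨a ^ (1 / 100 : ℝ), ?_, h100, by exact_mod_cast h 137, by exact_mod_cast h 138,
    by exact_mod_cast h 139, ?_⟩
  · refine le_of_pow_le_pow_left₀ (n := 100) (by norm_num) (by positivity) ?_
    rw [← h100]
    exact ha
  · rw [← Real.rpow_neg ha0]
    congr 1
    ring

lemma Vert_num {a : ℝ} (ha : 3 ^ 100 ≤ a) (k : ℕ) (hk : k = ⌈a ^ (137 / 100 : ℝ)⌉₊) :
    (1 / 2 : ℝ) ^ k ≤ Real.exp (-a) ∧ 2 ≤ a ∧ (k : ℝ) + 1 ≤ a ^ (138 / 100 : ℝ) ∧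
      (4 : ℝ) ^ k ≤ Real.exp (a ^ (139 / 100 : ℝ)) ∧ a ^ (-1 / 100 : ℝ) ≤ 1 / 2 := by
  obtain ⟨t, ht, h100, h137, h138, h139, hi⟩ := Vert_root ha
  have ht1 : 1 ≤ t := by linarith
  have hp : (1 : ℝ) ≤ t ^ 137 := one_le_pow₀ ht1
  have hk1 : t ^ 137 ≤ k := by rw [hk, h137]; exact Nat.le_ceil _
  have hk2 : (k : ℝ) ≤ t ^ 137 + 1 := by
    rw [hk, h137]; exact (Nat.ceil_lt_add_one (by positivity)).le
  have e138 : t ^ 138 = t ^ 137 * t := pow_succ t 137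
  have e139 : t ^ 139 = t ^ 138 * t := pow_succ t 138
  have h3 : 3 * t ^ 137 ≤ t ^ 138 := by rw [e138]; nlinarith
  have h4 : 3 * t ^ 138 ≤ t ^ 139 := by rw [e139]; nlinarith
  have h5 : 3 * a ≤ t ^ 137 := by
    have h6 : t ^ 101 ≤ t ^ 137 := pow_le_pow_right₀ ht1 (by norm_num)
    have h7 : t ^ 101 = t ^ 100 * t := pow_succ t 100
    have h8 : (0 : ℝ) ≤ t ^ 100 := by positivity
    rw [h100]
    nlinarith
  have ha2 : 2 ≤ a := le_trans (by norm_num) ha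
  refine ⟨?_, ha2, by rw [h138]; linarith, ?_, ?_⟩
  · have h1 : (1 / 2 : ℝ) ≤ Real.exp (-(1 / 3)) := by
      have := Real.add_one_le_exp (-(1 / 3))
      linarith
    refine (pow_le_pow_left₀ (by norm_num) h1 k).trans ?_
    rw [← Real.exp_nat_mul]
    exact Real.exp_le_exp.2 (by linarith)
  · have h1 : (4 : ℝ) ≤ Real.exp 3 := by
      have := Real.add_one_le_exp 3
      linarith
    refine (pow_le_pow_left₀ (by norm_num) h1 k).trans ?_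
    rw [← Real.exp_nat_mul, h139]
    exact Real.exp_le_exp.2 (by linarith)
  · rw [hi, inv_le_comm₀ (by linarith) (by norm_num)]
    norm_num
    linarith

lemma VertP.mono_w {d : ℕ} {M : Matrix (Fin d) (Fin d) ℝ} {Ω : Finset (Fin d → ℤ)} {D : ℕ}
    {R c₀ w w' : ℝ} (h : VertP M Ω D R c₀ w) (hw : w ≤ w') : VertP M Ω D R c₀ w' := by
  refine ⟨h.1, fun y => ?_⟩
  obtain ⟨P, u, h1, h2, h3⟩ := h.2 y
  exact ⟨P, u, h1, h2, fun a ha => ⟨(h3 a ha).1, (h3 a ha).2.1.trans hw, (h3 a ha).2.2⟩⟩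

/-- The trivial state (`ι = Empty`, `Ξ = Lab = Unit`, `W = 1`, `Ω = {0}`, `Geo 1 0 1 1 0`)
extended by the base block with `k = ⌈a^{1.37}⌉₊` has total weight exactly `1` (`sum_W_ext`);
next block from `exists_base_intf` (multiplier `1`, so `Nxt` holds with `c = 1, π = τ = 0`;
`a^{-1/100} ≤ 1/2`). -/
theorem lev_start : ∃ a₁ : ℝ, ∀ a : ℝ, a₁ ≤ a → ∃ c : ℝ, 0 < c ∧ Lev c a := by
  obtain ⟨a₁, h₁⟩ := exists_base_intf
  refine ⟨max a₁ (3 ^ 100), fun a ha => ?_⟩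
  obtain ⟨B, hB, hmul⟩ := h₁ a ((le_max_left _ _).trans ha)
  obtain ⟨B₀, hk, hG, hN, -, -, hmul₀⟩ := exists_base ⌈a ^ (137 / 100 : ℝ)⌉₊
  obtain ⟨n1, n2, n3, n4, n5⟩ := Vert_num ((le_max_right _ _).trans ha) B₀.k hk
  rw [← hk] at hG
  have hgeo := St.Geo.ext Vert_S0 B₀ 0 0 Vert_geo0 hG
  have htot : ∀ h ξ, ∑ l, (Vert_S0.ext B₀ 0 0).W h ξ l = 1 := fun h ξ => by
    refine (St.sum_W_ext Vert_S0 B₀ 0 0 h ξ).trans ?_
    simp only [hmul₀, mul_one]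
    exact show ∑ _a : Unit, (1 : ℝ) = 1 by simp
  refine ⟨1 * B₀.cst * B.cst, mul_pos hgeo.c_pos hB.1.cst_pos, Vert_S0.ext B₀ 0 0, 1 * B₀.cst,
    0 + B₀.k, B, rfl, hgeo.mono le_rfl (by linarith) ?_ (max_le (by linarith) n2), ?_, ?_, ?_, hB,
    St.Nxt.mono (c := 1) (π := 0) (τ := 0) ?_ (by linarith) (by linarith) (by linarith)⟩
  · rw [one_mul]
    exact Real.one_le_exp (by linarith)
  · rw [St.card_ext]
    have : Fintype.card Vert_S0.ι = 0 := Fintype.card_empty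
    rw [this]
    push_cast
    linarith
  · push_cast
    linarith
  · refine le_trans ?_ n4
    have h1 := St.card_extΩ Vert_S0 B₀ 0 0
    have h2 : Vert_S0.Ω.card = 1 := rfl
    rw [h2, hN] at h1
    exact_mod_cast h1.trans (by simp)
  · have : Nonempty (((Vert_S0.ext B₀ 0 0).ι → B.A) × B.A) := ⟨(0, 0)⟩
    have : Nonempty ((Vert_S0.ext B₀ 0 0).Ξ × B.Box) :=
      ⟨(hgeo.ne.some, fun _ => ⟨0, hB.1.rh_pos⟩)⟩
    rw [St.Nxt, fr_true, sub_zero]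
    intro row h v
    rw [fr_true, sub_zero]
    intro x
    simp only [hmul, mul_one, htot, le_refl]

/-- A good row exists (`π < 1`); `Geo.ext`, `ext_num`, `exists_total`, `vertP_of_geo`. -/
theorem lev_end : ∃ a₁ : ℝ, ∀ c a : ℝ, a₁ ≤ a → Lev c a → ∀ b : ℝ, b = a ^ (7 / 5 : ℝ) →
    ∃ (d : ℕ) (M : Matrix (Fin d) (Fin d) ℝ) (Ω : Finset (Fin d → ℤ)) (D : ℕ),
      VertP M Ω D b c (c * Real.exp (-b)) ∧ (d : ℝ) ≤ b ^ 2 ∧ (D : ℝ) ≤ b ^ 2 ∧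
      (Ω.card : ℝ) ≤ Real.exp (b ^ 2) := by
  obtain ⟨a₁, h1, h₁⟩ := ext_num
  refine ⟨a₁, fun c a ha hL b hb => ?_⟩
  obtain ⟨S, c₀, D, B, hc, hS, hι, hD, hΩ, hB, hN⟩ := hL
  obtain ⟨hab, -, e2, e3⟩ := h₁ a ha b hb
  rw [← hb] at hB
  obtain ⟨hG, hk, hN4, -⟩ := hB
  have ha0 : 0 < a := by linarith
  have hb1 : 1 ≤ b := by linarith
  have hpos : 0 < a ^ (-1 / 100 : ℝ) := Real.rpow_pos_of_pos ha0 _
  obtain ⟨row, hrow⟩ := exists_of_fr_pos (lt_of_lt_of_le (by linarith) hN)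
  have hgeo := St.Geo.ext S B row.1 row.2 hS hG
  obtain ⟨M, Ω, hcard, hV⟩ := vertP_of_geo _ hgeo fun h => by
    obtain ⟨x, hx⟩ := hrow.exists_total (by linarith) h
    exact ⟨x, by linarith⟩
  have e4 : Real.exp (-a) * Real.exp (-(b - a)) = Real.exp (-b) := by
    rw [← Real.exp_add]; congr 1; ring
  rw [hc, e4, max_eq_right hab] at hV
  have hb2 : ∀ r : ℝ, r ≤ 2 → b ^ r ≤ b ^ 2 := fun r hr => by
    rw [← Real.rpow_natCast]
    exact Real.rpow_le_rpow_of_exponent_le hb1 (by exact_mod_cast hr)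
  have e5 := hb2 (138 / 100) (by norm_num)
  refine ⟨_, M, Ω, D + B.k, hV, ?_, ?_, ?_⟩
  · rw [St.card_ext]
    push_cast
    linarith
  · push_cast
    linarith
  · rw [hcard]
    have h2 : (((S.ext B row.1 row.2).Ω.card : ℕ) : ℝ) ≤ S.Ω.card * (4 * B.N + 1) * 4 ^ B.k := by
      exact_mod_cast St.card_extΩ S B row.1 row.2
    refine h2.trans (le_trans ?_ ((e3 B.k hk).trans
      (Real.exp_le_exp.2 (hb2 _ (by norm_num)))))
    gcongr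

/-- `a_ℓ = a*^{(7/5)^ℓ}` (`a* ≥ 2`), `Lev c a_ℓ` for all `ℓ`; take the least `ℓ` with
`g ≤ a_{ℓ+1}`; then `b = a_{ℓ+1} ≤ max (a*^{7/5}) (g^{7/5})`, and constants are `≤ g^C` as
`g ≥ 2`. -/
theorem vert : ∃ c₀ : ℝ, 0 < c₀ ∧ ∃ C : ℕ, ∀ g : ℝ, 2 ≤ g →
    ∃ (d : ℕ) (M : Matrix (Fin d) (Fin d) ℝ) (Ω : Finset (Fin d → ℤ)) (D : ℕ) (R : ℝ),
      VertP M Ω D R c₀ (c₀ * Real.exp (-g)) ∧ (d : ℝ) ≤ g ^ C ∧ (D : ℝ) ≤ g ^ C ∧ 1 ≤ R ∧
      R ≤ g ^ C ∧ (Ω.card : ℝ) ≤ Real.exp (g ^ C) := by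
  obtain ⟨a₁, h₁⟩ := lev_start
  obtain ⟨a₂, -, h₂⟩ := lev_step
  obtain ⟨a₃, h₃⟩ := lev_end
  obtain ⟨a₀, h01, h02, h03, h04⟩ : ∃ a₀ : ℝ, a₁ ≤ a₀ ∧ a₂ ≤ a₀ ∧ a₃ ≤ a₀ ∧ 4 ≤ a₀ :=
    ⟨max (max a₁ a₂) (max a₃ 4), by simp, by simp, by simp, by simp⟩
  obtain ⟨c, hc, hL⟩ := h₁ a₀ h01
  obtain ⟨a, ha0, haS⟩ : ∃ a : ℕ → ℝ, a 0 = a₀ ∧ ∀ l, a (l + 1) = a l ^ (7 / 5 : ℝ) :=
    ⟨fun l => (fun x : ℝ => x ^ (7 / 5 : ℝ))^[l] a₀, rfl, fun l =>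
      Function.iterate_succ_apply' _ _ _⟩
  have hstep : ∀ x : ℝ, 4 ≤ x → x + 1 ≤ x ^ (7 / 5 : ℝ) := fun x hx => by
    have := one_add_mul_self_le_rpow_one_add (s := x - 1) (by linarith) (p := 7 / 5) (by norm_num)
    rw [add_sub_cancel] at this
    linarith
  have hall : ∀ l : ℕ, a₀ + l ≤ a l ∧ Lev c (a l) := by
    intro l
    induction l with
    | zero => rw [ha0]; exact ⟨by simp, hL⟩
    | succ l ih =>
      have hl : (0 : ℝ) ≤ l := l.cast_nonneg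
      rw [haS]
      refine ⟨?_, h₂ c _ (by linarith [ih.1]) ih.2⟩
      have := hstep (a l) (by linarith [ih.1])
      push_cast
      linarith [ih.1]
  obtain ⟨C, hC⟩ := pow_unbounded_of_one_lt (a 1) (one_lt_two (α := ℝ))
  refine ⟨c, hc, (C + 2) * 2, fun g hg => ?_⟩
  have hex : ∃ l, g ≤ a (l + 1) := by
    obtain ⟨l, hl⟩ := exists_nat_ge g
    have := (hall (l + 1)).1
    push_cast at this
    exact ⟨l, by linarith⟩
  have hg1 : 1 ≤ g := by linarith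
  obtain ⟨l, hl, hb⟩ : ∃ l, g ≤ a (l + 1) ∧ a (l + 1) ≤ g ^ (C + 2) := by
    classical
    refine ⟨Nat.find hex, Nat.find_spec hex, ?_⟩
    rcases h : Nat.find hex with _ | l
    · exact hC.le.trans ((pow_le_pow_left₀ (by norm_num) hg C).trans
        (pow_le_pow_right₀ hg1 (by omega)))
    · have h1 : a (l + 1) ≤ g := (not_le.1 (Nat.find_min hex (by omega))).le
      have h2 : 0 ≤ a (l + 1) := by
        have := (hall (l + 1)).1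
        have hl : (0 : ℝ) ≤ (l + 1 : ℕ) := Nat.cast_nonneg _
        linarith
      rw [haS]
      refine (Real.rpow_le_rpow h2 h1 (by norm_num)).trans ?_
      rw [← Real.rpow_natCast]
      refine Real.rpow_le_rpow_of_exponent_le hg1 ?_
      have : (0 : ℝ) ≤ C := C.cast_nonneg
      push_cast
      linarith
  have hl0 : (0 : ℝ) ≤ l := l.cast_nonneg
  obtain ⟨d, M, Ω, D, hV, hd, hD, hΩ⟩ := h₃ c (a l) (by linarith [(hall l).1]) (hall l).2 _ (haS l)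
  have hb2 : a (l + 1) ^ 2 ≤ g ^ ((C + 2) * 2) := by
    rw [pow_mul]
    exact pow_le_pow_left₀ (by linarith) hb 2
  refine ⟨d, M, Ω, D, a (l + 1), hV.mono_w ?_, hd.trans hb2, hD.trans hb2, by linarith,
    hb.trans (pow_le_pow_right₀ hg1 (by omega)), hΩ.trans (Real.exp_le_exp.2 hb2)⟩
  exact mul_le_mul_of_nonneg_left (Real.exp_le_exp.2 (by linarith)) hc.le

end Crest.Agent.R225
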