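import Crest.Agent.R225.Defs

/-! Task `R225 Young1`: Young's convolution inequality `L^{3/2}` on `ℝ` with a constant `< 1`. -/

set_option autoImplicit false
open MeasureTheory
open scoped ENNReal

namespace Crest.Agent.R225

/-- Trilinear Young inequality with constant `θ` on a measurable group. -/
def YoungP (G : Type) [MeasurableSpace G] [Add G] (μ : Measure G) (θ : ℝ≥0∞) : Prop :=
  ∀ f g h : G → ℝ≥0∞, Measurable f → Measurable g → Measurable h →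
    ∫⁻ x, ∫⁻ y, f x * g y * h (x + y) ∂μ ∂μ ≤
      θ * ((∫⁻ x, f x ^ (3 / 2 : ℝ) ∂μ) ^ (2 / 3 : ℝ) * (∫⁻ x, g x ^ (3 / 2 : ℝ) ∂μ) ^ (2 / 3 : ℝ) *
        (∫⁻ x, h x ^ (3 / 2 : ℝ) ∂μ) ^ (2 / 3 : ℝ))

namespace Y1

/-- the additive character -/
noncomputable def e (t : ℝ) : ℂ := (Real.fourierChar t : Circle)

theorem e_add (s t : ℝ) : e (s + t) = e s * e t := by
  simp only [e, AddChar.map_add_eq_mul, Circle.coe_mul]

theorem norm_e (t : ℝ) : ‖e t‖ = 1 := Circle.norm_coe _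

theorem continuous_e : Continuous e := continuous_subtype_val.comp Real.continuous_fourierChar

/-- modulated density -/
noncomputable def md (φ : ℝ → ℝ) (ξ x : ℝ) : ℂ := e (-(x * ξ)) * φ x

/-- characteristic function -/
noncomputable def ft (φ : ℝ → ℝ) (ξ : ℝ) : ℂ := ∫ x, md φ ξ x

theorem norm_md (φ : ℝ → ℝ) (ξ x : ℝ) : ‖md φ ξ x‖ = ‖φ x‖ := by
  rw [md, norm_mul, norm_e, one_mul, Complex.norm_real]

theorem meas_md {φ : ℝ → ℝ} (h : Integrable φ) (ξ : ℝ) : AEStronglyMeasurable (md φ ξ) :=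
  (continuous_e.comp (by fun_prop)).aestronglyMeasurable.mul h.ofReal.1

theorem int_md {φ : ℝ → ℝ} (h : Integrable φ) (ξ : ℝ) : Integrable (md φ ξ) :=
  h.mono (meas_md h ξ) (.of_forall fun x => (norm_md φ ξ x).le)

theorem ft_zero {φ : ℝ → ℝ} (h1 : ∫ x, φ x = 1) : ft φ 0 = 1 := by
  simp only [ft, md, e, mul_zero, neg_zero, AddChar.map_zero_eq_one, Circle.coe_one, one_mul]
  rw [integral_complex_ofReal, h1, Complex.ofReal_one]

theorem norm_ft_le {φ : ℝ → ℝ} (h0 : ∀ x, 0 ≤ φ x) (h1 : ∫ x, φ x = 1) (ξ : ℝ) : ‖ft φ ξ‖ ≤ 1 := by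
  refine (norm_integral_le_integral_norm _).trans_eq ?_
  simp only [norm_md, Real.norm_of_nonneg (h0 _), h1]

theorem exists_half {φ : ℝ → ℝ} (h : Integrable φ) (h1 : ∫ x, φ x = 1) :
    ∃ ξ, ‖ft φ ξ‖ = 1 / 2 := by
  have hc : Continuous (ft φ) :=
    continuous_of_dominated (meas_md h) (fun ξ => .of_forall fun x => (norm_md φ ξ x).le) h.norm
      (.of_forall fun x => (continuous_e.comp (by fun_prop)).mul continuous_const)
  have ht : Filter.Tendsto (ft φ) (Filter.cocompact ℝ) (nhds 0) :=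
    Real.tendsto_integral_exp_smul_cocompact fun x => (φ x : ℂ)
  obtain ⟨ξ, hξ⟩ := (ht.norm.eventually (gt_mem_nhds (a := 1 / 2) (by norm_num))).exists
  exact intermediate_value_univ ξ 0 hc.norm ⟨hξ.le, by rw [ft_zero h1]; norm_num⟩

theorem comp_mp {𝕜 : Type} [RCLike 𝕜] {f g : ℝ → 𝕜} (hf : Integrable f) (hg : Integrable g)
    {S : ℝ × ℝ → ℝ × ℝ} (hS : MeasurePreserving S (volume.prod volume) (volume.prod volume)) :
    Integrable (fun p => f (S p).1 * g (S p).2) (volume.prod volume) ∧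
      ∫ p, f (S p).1 * g (S p).2 ∂(volume.prod volume) = (∫ x, f x) * ∫ x, g x := by
  refine ⟨hS.integrable_comp_of_integrable (hf.mul_prod hg), ?_⟩
  rw [← integral_prod_mul]
  conv_rhs => rw [← hS.map_eq]
  rw [integral_map hS.measurable.aemeasurable (by rw [hS.map_eq]; exact (hf.mul_prod hg).1)]

theorem amgm {m c t : ℝ} (hm : 0 ≤ m) (hc : 0 ≤ c) (h : t ^ 3 = m ^ 2 * c) : 3 * t ≤ 2 * m + c := by
  refine le_of_pow_le_pow_left₀ (n := 3) (by norm_num) (by positivity) ?_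
  rw [mul_pow, h]
  nlinarith [mul_nonneg (sq_nonneg (m - c)) (by positivity : 0 ≤ 8 * m + c)]

theorem pt {x y z : ℝ} (hx : 0 ≤ x) (hy : 0 ≤ y) (hz : 0 ≤ z) :
    |x * y - z * y| ≤ 16 * (x * y + z * y + x * z) + (x * y + z * y) / 32 -
      48 * (x * y * z) ^ (2 / 3 : ℝ) ∧ 3 * (x * y * z) ^ (2 / 3 : ℝ) ≤ x * y + z * y + x * z := by
  obtain ⟨p, hp, h1⟩ : ∃ p, 0 ≤ p ∧ x * y = p ^ 2 :=
    ⟨_, Real.sqrt_nonneg _, (Real.sq_sqrt (by positivity)).symm⟩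
  obtain ⟨q, hq, h2⟩ : ∃ q, 0 ≤ q ∧ z * y = q ^ 2 :=
    ⟨_, Real.sqrt_nonneg _, (Real.sq_sqrt (by positivity)).symm⟩
  have h3 : ((x * y * z) ^ (2 / 3 : ℝ)) ^ 3 = (p * q) ^ 2 * (x * z) := by
    rw [← Real.rpow_natCast, ← Real.rpow_mul (by positivity), mul_pow, ← h1, ← h2]
    norm_num
    ring
  have h4 := amgm (by positivity) (by positivity) h3
  rw [h2]
  generalize (x * y * z) ^ (2 / 3 : ℝ) = t at h4 ⊢
  rw [h1]
  refine ⟨abs_le.2 ⟨?_, ?_⟩, by nlinarith [sq_nonneg (p - q)]⟩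
  · nlinarith [sq_nonneg (32 * (p - q) + (p + q)), sq_nonneg (p - q)]
  · nlinarith [sq_nonneg (32 * (p - q) - (p + q)), sq_nonneg (p - q)]

variable {u v w : ℝ → ℝ} (hu : Measurable u) (hv : Measurable v) (hw : Measurable w)
    (hu0 : ∀ x, 0 ≤ u x) (hv0 : ∀ x, 0 ≤ v x) (hw0 : ∀ x, 0 ≤ w x)
    (iu : Integrable u) (iv : Integrable v) (iw : Integrable w)
    (hu1 : ∫ x, u x = 1) (hv1 : ∫ x, v x = 1) (hw1 : ∫ x, w x = 1)
include hu hv hw hu0 hv0 hw0 iu iv iw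

theorem int_T : Integrable (fun p : ℝ × ℝ => (u p.1 * v p.2 * w (p.1 + p.2)) ^ (2 / 3 : ℝ))
    (volume.prod volume) := by
  have hA := iu.mul_prod iv
  have hB := (comp_mp iw iv (measurePreserving_add_prod volume volume)).1
  have hC := (comp_mp iu iw (measurePreserving_prod_add volume volume)).1
  refine ((hA.add hB).add hC).mono' (Measurable.aestronglyMeasurable (by fun_prop))
    (.of_forall fun p => ?_)
  have h1 := (pt (hu0 p.1) (hv0 p.2) (hw0 (p.1 + p.2))).2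
  have h2 : 0 ≤ (u p.1 * v p.2 * w (p.1 + p.2)) ^ (2 / 3 : ℝ) :=
    Real.rpow_nonneg (mul_nonneg (mul_nonneg (hu0 _) (hv0 _)) (hw0 _)) _
  rw [Real.norm_of_nonneg h2]
  simp only [Pi.add_apply]
  linarith

include hu1 hv1 hw1

theorem ft_close (ξ ζ : ℝ) : ‖ft u ξ * ft v ζ - ft w ξ * ft v (ζ - ξ)‖ ≤ 48 + 1 / 16 -
    48 * ∫ p : ℝ × ℝ, (u p.1 * v p.2 * w (p.1 + p.2)) ^ (2 / 3 : ℝ) ∂(volume.prod volume) := by
  have hA := comp_mp iu iv (MeasurePreserving.id _)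
  have hB := comp_mp iw iv (measurePreserving_add_prod volume volume)
  have hC := comp_mp iu iw (measurePreserving_prod_add volume volume)
  have hA' := comp_mp (int_md iu ξ) (int_md iv ζ) (MeasurePreserving.id _)
  have hB' := comp_mp (int_md iw ξ) (int_md iv (ζ - ξ)) (measurePreserving_add_prod volume volume)
  have hT := int_T hu hv hw hu0 hv0 hw0 iu iv iw
  simp only [id, hu1, hv1, hw1, mul_one] at hA hB hC hA' hB'
  have h1 := hA.1.add hB.1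
  have h2 := (h1.add hC.1).const_mul 16
  have h3 := h1.div_const 32
  rw [ft, ft, ft, ft, ← hA'.2, ← hB'.2, ← integral_sub hA'.1 hB'.1]
  refine (norm_integral_le_of_norm_le ((h2.add h3).sub (hT.const_mul 48))
    (.of_forall fun p => le_trans (le_of_eq ?_) (pt (hu0 p.1) (hv0 p.2) (hw0 (p.1 + p.2))).1)).trans_eq ?_
  · have h4 : e (-((p.1 + p.2) * ξ)) * e (-(p.2 * (ζ - ξ))) = e (-(p.1 * ξ)) * e (-(p.2 * ζ)) := by
      rw [← e_add, ← e_add]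
      congr 1; ring
    rw [md, md, md, md, mul_mul_mul_comm, mul_mul_mul_comm (e _) (w _ : ℂ), h4, ← mul_sub, norm_mul,
      norm_mul, norm_e, norm_e, one_mul, one_mul, ← Real.norm_eq_abs, ← Complex.norm_real]
    push_cast
    rfl
  · rw [integral_sub' (h2.add h3) (hT.const_mul 48), integral_add' h2 h3, integral_const_mul,
      integral_const_mul, integral_div, integral_add' h1 hC.1, integral_add' hA.1 hB.1, hA.2, hB.2,
      hC.2]
    norm_num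

theorem half (ξ : ℝ) : ‖ft u ξ‖ * (1 - ‖ft v ξ‖) ≤ 2 * (48 + 1 / 16 -
    48 * ∫ p : ℝ × ℝ, (u p.1 * v p.2 * w (p.1 + p.2)) ^ (2 / 3 : ℝ) ∂(volume.prod volume)) := by
  have h1 := ft_close hu hv hw hu0 hv0 hw0 iu iv iw hu1 hv1 hw1 ξ 0
  have h2 := ft_close hu hv hw hu0 hv0 hw0 iu iv iw hu1 hv1 hw1 ξ ξ
  rw [ft_zero hv1, mul_one] at h1
  rw [sub_self, ft_zero hv1, mul_one] at h2
  have h3 := norm_ft_le hv0 hv1 (0 - ξ)
  have h4 : ‖ft u ξ‖ ≤ ‖ft u ξ - ft w ξ * ft v (0 - ξ)‖ + ‖ft w ξ‖ * ‖ft v (0 - ξ)‖ := by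
    rw [← norm_mul]
    exact norm_le_norm_sub_add _ _
  have h5 : ‖ft w ξ‖ ≤ ‖ft u ξ * ft v ξ - ft w ξ‖ + ‖ft u ξ‖ * ‖ft v ξ‖ := by
    rw [← norm_mul, norm_sub_rev]
    exact norm_le_norm_sub_add _ _
  nlinarith [mul_le_of_le_one_right (norm_nonneg (ft w ξ)) h3]

end Y1

/-- Core. `u v w` probability densities, `μ₁ = u(x) v(y)`, `μ₂ = v(y) w(x+y)`,
`μ₃ = u(x) w(x+y)` probability densities on `ℝ²`, `T = ∫∫ (μ₁ μ₂ μ₃)^{1/3}`. AM-GM for
`(√(ab), √(ab), c)`: `(abc)^{1/3} ≤ (a+b+c)/3 - (√a - √b)²/3`, and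
`|a - b| ≤ (√a - √b)² / (2ε) + ε (a + b)`, so `‖μ₁ - μ₂‖₁, ‖μ₁ - μ₃‖₁ ≤ D = 3(1-T)/(2ε) + 2ε`.
Characteristic functions: `μ̂₁(ξ,ζ) = û(ξ) v̂(ζ)`, `μ̂₂(ξ,ζ) = ŵ(ξ) v̂(ζ-ξ)`; `ζ = 0` and
`ζ = ξ` give `|û| (1 - |v̂|²) ≤ 2D`, symmetrically `|v̂| (1 - |û|²) ≤ 2D`. By continuity,
`û(0) = 1` and Riemann–Lebesgue there is `ξ` with `|û(ξ)| = 1/2`; this forces `D > 1/8`;
`ε = 1/32` gives `1 - T > 1/768`. -/
theorem young_core (u v w : ℝ → ℝ) (hu : Measurable u) (hv : Measurable v) (hw : Measurable w)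
    (hu0 : ∀ x, 0 ≤ u x) (hv0 : ∀ x, 0 ≤ v x) (hw0 : ∀ x, 0 ≤ w x)
    (iu : Integrable u) (iv : Integrable v) (iw : Integrable w)
    (hu1 : ∫ x, u x = 1) (hv1 : ∫ x, v x = 1) (hw1 : ∫ x, w x = 1) :
    ∫⁻ x, ∫⁻ y, ENNReal.ofReal ((u x * v y * w (x + y)) ^ (2 / 3 : ℝ)) ≤
      ENNReal.ofReal (767 / 768) := by
  have hT := Y1.int_T hu hv hw hu0 hv0 hw0 iu iv iw
  obtain ⟨ξ, hξ⟩ := Y1.exists_half iu hu1
  have h1 := Y1.half hu hv hw hu0 hv0 hw0 iu iv iw hu1 hv1 hw1 ξ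
  have h2 := Y1.half hv hu hw hv0 hu0 hw0 iv iu iw hv1 hu1 hw1 ξ
  rw [← integral_prod_swap] at h2
  simp only [Prod.fst_swap, Prod.snd_swap, mul_comm (v _), add_comm (Prod.snd _) (Prod.fst _)] at h2
  rw [← lintegral_prod (fun p : ℝ × ℝ => ENNReal.ofReal
    ((u p.1 * v p.2 * w (p.1 + p.2)) ^ (2 / 3 : ℝ))) (Measurable.aemeasurable (by fun_prop)),
    ← ofReal_integral_eq_lintegral_ofReal hT (.of_forall fun p =>
      Real.rpow_nonneg (mul_nonneg (mul_nonneg (hu0 _) (hv0 _)) (hw0 _)) _)]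
  refine ENNReal.ofReal_le_ofReal ?_
  rw [hξ] at h1 h2
  linarith

end Crest.Agent.R225
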